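import Crest.Agent.R72.Phi

set_option autoImplicit false

namespace Crest.Agent.R72

open Matrix MeasureTheory
open scoped ENNReal

namespace CphiAux

theorem psi_pos {y : ℝ} (hy : 0 < y) : 0 < psi 1 y := by
  have hc := continuous_lap 1
  refine intervalIntegral.intervalIntegral_pos_of_pos_on
    (Continuous.intervalIntegrable (by fun_prop) _ _) (fun h hh => ?_) (by norm_num)
  have h0 : 0 < h := by linarith [hh.1]
  have : |y - h| < |y + h| := by
    rw [abs_of_pos (add_pos hy h0), abs_lt]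
    constructor <;> linarith
  simp only [lap, one_mul, div_one, sub_pos]
  gcongr

theorem psi_zero : psi 1 0 = 0 := by
  have := psi_neg 1 0
  rw [neg_zero] at this
  linarith

theorem integrable_psi : Integrable (psi 1) :=
  ((prof_lap one_pos).intg.const_mul (2 * Real.exp 21)).mono'
    (continuous_psi 1).aestronglyMeasurable (Filter.Eventually.of_forall (abs_psi_le one_pos))

/-- The tail integral of `psi`. -/
noncomputable def tl (c : ℝ) : ℝ := ∫ y in Set.Ioi c, psi 1 y

theorem tl_sub (a b : ℝ) : tl a - tl b = ∫ y in a..b, psi 1 y :=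
  intervalIntegral.integral_Ioi_sub_Ioi' integrable_psi.integrableOn integrable_psi.integrableOn

theorem tl_neg (c : ℝ) : tl (-c) = tl c := by
  have h1 := intervalIntegral.integral_comp_neg (a := -c) (b := c) (psi 1)
  simp only [psi_neg, intervalIntegral.integral_neg, neg_neg] at h1
  have h2 := tl_sub (-c) c
  linarith

theorem tl_abs (c : ℝ) : tl |c| = tl c := by
  rcases abs_choice c with h | h
  · rw [h]
  · rw [h, tl_neg]

theorem tl_lt {a b : ℝ} (h : |a| < |b|) : tl b < tl a := by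
  rw [← tl_abs a, ← tl_abs b, ← sub_pos, tl_sub]
  exact intervalIntegral.intervalIntegral_pos_of_pos_on integrable_psi.intervalIntegrable
    (fun y hy => psi_pos ((abs_nonneg a).trans_lt hy.1)) h

theorem int_shift (c : ℝ) : ∫ t in Set.Ioi (0 : ℝ), psi 1 (t - c) = tl c := by
  rw [← tl_neg, tl, ← integral_indicator measurableSet_Ioi, ← integral_indicator measurableSet_Ioi,
    ← integral_sub_right_eq_self ((Set.Ioi (-c)).indicator (psi 1)) c]
  congr 1
  ext t
  simp only [Set.indicator_apply, Set.mem_Ioi]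
  congr 1
  exact propext ⟨fun h => by linarith, fun h => by linarith⟩

theorem integrable_three : Integrable
    (fun q : (ℝ × ℝ) × ℝ => psi 1 q.1.1 * psi 1 q.1.2 * psi 1 (q.2 - q.1.1 - q.1.2))
    ((volume : Measure (ℝ × ℝ)).prod volume) := by
  have hc := continuous_psi 1
  rw [integrable_prod_iff (Continuous.aestronglyMeasurable (by fun_prop))]
  refine ⟨Filter.Eventually.of_forall fun p => ?_, ?_⟩
  · exact ((integrable_psi.comp_sub_right p.2).comp_sub_right p.1).const_mul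
      (psi 1 p.1 * psi 1 p.2)
  · have e : ∀ p : ℝ × ℝ, ∫ t, ‖psi 1 p.1 * psi 1 p.2 * psi 1 (t - p.1 - p.2)‖ =
        ‖psi 1 p.1 * psi 1 p.2‖ * ∫ t, ‖psi 1 t‖ := by
      intro p
      simp only [norm_mul (psi 1 p.1 * psi 1 p.2), sub_sub]
      rw [integral_const_mul, integral_sub_right_eq_self (fun t => ‖psi 1 t‖)]
    simp only [e]
    exact (integrable_psi.mul_prod integrable_psi).norm.mul_const _

theorem cphi_eq : Integrable (fun p : ℝ × ℝ => psi 1 p.1 * psi 1 p.2 * tl (p.1 + p.2)) ∧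
    cphi = ∫ p : ℝ × ℝ, psi 1 p.1 * psi 1 p.2 * tl (p.1 + p.2) := by
  have h : Integrable
      (fun q : (ℝ × ℝ) × ℝ => psi 1 q.1.1 * psi 1 q.1.2 * psi 1 (q.2 - q.1.1 - q.1.2))
      ((volume : Measure (ℝ × ℝ)).prod (volume.restrict (Set.Ioi 0))) :=
    integrable_three.mono_measure (Measure.prod_mono le_rfl Measure.restrict_le_self)
  have e : ∀ p : ℝ × ℝ, ∫ t in Set.Ioi (0 : ℝ), psi 1 p.1 * psi 1 p.2 * psi 1 (t - p.1 - p.2) =
      psi 1 p.1 * psi 1 p.2 * tl (p.1 + p.2) := by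
    intro p
    simp only [sub_sub]
    rw [integral_const_mul, int_shift]
  refine ⟨?_, ?_⟩
  · simpa only [e] using h.integral_prod_left
  · simp only [← e]
    exact (integral_integral_swap
      (f := fun (p : ℝ × ℝ) (t : ℝ) => psi 1 p.1 * psi 1 p.2 * psi 1 (t - p.1 - p.2)) h).symm

theorem key_pos {a b : ℝ} (ha : 0 < a) (hb : 0 < b) :
    0 < psi 1 a * psi 1 b * (tl (a - b) - tl (a + b)) := by
  refine mul_pos (mul_pos (psi_pos ha) (psi_pos hb)) (sub_pos.2 (tl_lt ?_))
  rw [abs_of_pos (add_pos ha hb), abs_lt]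
  constructor <;> linarith

theorem key_nonneg (a b : ℝ) : 0 ≤ psi 1 a * psi 1 b * (tl (a - b) - tl (a + b)) := by
  have hb : ∀ a b : ℝ, psi 1 a * psi 1 (-b) * (tl (a - -b) - tl (a + -b)) =
      psi 1 a * psi 1 b * (tl (a - b) - tl (a + b)) := by
    intro a b
    rw [psi_neg, sub_neg_eq_add, ← sub_eq_add_neg]
    ring
  have ha : ∀ a b : ℝ, psi 1 (-a) * psi 1 b * (tl (-a - b) - tl (-a + b)) =
      psi 1 a * psi 1 b * (tl (a - b) - tl (a + b)) := by
    intro a b
    rw [psi_neg, show -a - b = -(a + b) by ring, show -a + b = -(a - b) by ring, tl_neg, tl_neg]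
    ring
  have h1 : ∀ a b : ℝ, 0 < a → 0 ≤ psi 1 a * psi 1 b * (tl (a - b) - tl (a + b)) := by
    intro a b h
    rcases lt_trichotomy b 0 with h' | rfl | h'
    · rw [← hb]
      exact (key_pos h (neg_pos.2 h')).le
    · simp [psi_zero]
    · exact (key_pos h h').le
  rcases lt_trichotomy a 0 with h | rfl | h
  · rw [← ha]
    exact h1 _ _ (neg_pos.2 h)
  · simp [psi_zero]
  · exact h1 _ _ h

theorem cphi_neg : cphi < 0 := by
  obtain ⟨hi, he⟩ := cphi_eq
  have mp : MeasurePreserving (Prod.map (id : ℝ → ℝ) (Neg.neg : ℝ → ℝ)) volume volume :=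
    (MeasurePreserving.id volume).prod (Measure.measurePreserving_neg volume)
  have e : (fun p : ℝ × ℝ => psi 1 p.1 * psi 1 p.2 * tl (p.1 + p.2)) ∘ Prod.map id Neg.neg =
      fun p : ℝ × ℝ => -(psi 1 p.1 * psi 1 p.2 * tl (p.1 - p.2)) := by
    ext p
    simp [psi_neg, sub_eq_add_neg]
  have hi' := mp.integrable_comp_of_integrable hi
  have he' : cphi = ∫ p : ℝ × ℝ, -(psi 1 p.1 * psi 1 p.2 * tl (p.1 - p.2)) := by
    rw [he, ← e]
    conv_lhs => rw [← mp.map_eq]
    exact integral_map mp.measurable.aemeasurable (mp.map_eq.symm ▸ hi.aestronglyMeasurable)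
  rw [e] at hi'
  have e2 : ∀ p : ℝ × ℝ, psi 1 p.1 * psi 1 p.2 * (tl (p.1 - p.2) - tl (p.1 + p.2)) =
      -(-(psi 1 p.1 * psi 1 p.2 * tl (p.1 - p.2)) + psi 1 p.1 * psi 1 p.2 * tl (p.1 + p.2)) :=
    fun p => by ring
  have hpos : 0 < ∫ p : ℝ × ℝ, psi 1 p.1 * psi 1 p.2 * (tl (p.1 - p.2) - tl (p.1 + p.2)) := by
    have hi2 : Integrable fun p : ℝ × ℝ =>
        psi 1 p.1 * psi 1 p.2 * (tl (p.1 - p.2) - tl (p.1 + p.2)) :=
      (hi'.add hi).neg.congr (Filter.Eventually.of_forall fun p => (e2 p).symm)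
    refine (integral_pos_iff_support_of_nonneg (f := fun p : ℝ × ℝ =>
      psi 1 p.1 * psi 1 p.2 * (tl (p.1 - p.2) - tl (p.1 + p.2)))
      (fun p => key_nonneg p.1 p.2) hi2).2 ?_
    refine lt_of_lt_of_le ?_ (measure_mono (s := Set.Ioi (0 : ℝ) ×ˢ Set.Ioi (0 : ℝ))
      fun p hp => (key_pos hp.1 hp.2).ne')
    exact (isOpen_Ioi.prod isOpen_Ioi).measure_pos _ ⟨(1, 1), by simp⟩
  simp only [e2] at hpos
  rw [integral_neg, integral_add hi' hi, ← he, ← he'] at hpos
  linarith

end CphiAux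

theorem cphi_ne_zero : cphi ≠ 0 := CphiAux.cphi_neg.ne

end Crest.Agent.R72
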