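import Crest.Agent.R72.Defs

set_option autoImplicit false

namespace Crest.Agent.R72

open Matrix MeasureTheory
open scoped ENNReal

/-- `μ` is the sum of the images of `ν` under the measurable embeddings `T i`. -/
structure Rep {α ι : Type} [MeasurableSpace α] [Fintype ι] (μ ν : Measure α) (T : ι → α → α) :
    Prop where
  emb : ∀ i, MeasurableEmbedding (T i)
  eq : μ = ∑ i, ν.map (T i)

theorem Rep.prod {α β ι κ : Type} [MeasurableSpace α] [MeasurableSpace β] [Fintype ι] [Fintype κ]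
    {μ ν : Measure α} {μ' ν' : Measure β} [SFinite ν] [SFinite ν'] {T : ι → α → α}
    {T' : κ → β → β} (h : Rep μ ν T) (h' : Rep μ' ν' T') :
    Rep (μ.prod μ') (ν.prod ν') (fun p : ι × κ => Prod.map (T p.1) (T' p.2)) where
  emb p := (h.emb p.1).prodMap (h'.emb p.2)
  eq := by
    rw [h.eq, h'.eq, ← Measure.sum_fintype, ← Measure.sum_fintype, Measure.prod_sum,
      Measure.sum_fintype]
    exact Finset.sum_congr rfl fun p _ =>
      Measure.map_prod_map _ _ (h.emb p.1).measurable (h'.emb p.2).measurable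

theorem Rep.integrable {α ι : Type} [MeasurableSpace α] [Fintype ι] {μ ν : Measure α}
    {T : ι → α → α} (h : Rep μ ν T) {f : α → ℝ} (hf : Integrable f μ) :
    Integrable (fun x => ∑ i, f (T i x)) ν := by
  rw [h.eq, integrable_finsetSum_measure] at hf
  exact integrable_finsetSum _ fun i hi => (h.emb i).integrable_map_iff.1 (hf i hi)

theorem Rep.integral {α ι : Type} [MeasurableSpace α] [Fintype ι] {μ ν : Measure α}
    {T : ι → α → α} (h : Rep μ ν T) {f : α → ℝ} (hf : Integrable f μ) :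
    ∫ x, f x ∂μ = ∫ x, ∑ i, f (T i x) ∂ν := by
  rw [h.eq, integrable_finsetSum_measure] at hf
  rw [h.eq, integral_finsetSum_measure hf,
    integral_finsetSum (f := fun i x => f (T i x)) _
      fun i hi => (h.emb i).integrable_map_iff.1 (hf i hi)]
  exact Finset.sum_congr rfl fun i _ => (h.emb i).integral_map f

theorem restrict_Ico_eq_sum (a η : ℝ) (hη : 0 < η) (M : ℕ) :
    (volume : Measure ℝ).restrict (Set.Ico a (a + M * η)) =
      ∑ m : Fin M, ((volume : Measure ℝ).restrict (Set.Ico 0 η)).map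
        (fun t => a + η * m + t) := by
  have h1 : ∀ b : ℝ, ((volume : Measure ℝ).restrict (Set.Ico 0 η)).map (fun t => b + t) =
      (volume : Measure ℝ).restrict (Set.Ico b (b + η)) := by
    intro b
    have := (measurableEmbedding_addLeft b).restrict_map (volume : Measure ℝ)
      (Set.Ico b (b + η))
    rw [map_add_left_eq_self] at this
    rw [this]
    congr 2
    ext t
    simp
  simp only [h1]
  induction M with
  | zero => simp
  | succ M ih =>
    rw [Fin.sum_univ_castSucc]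
    simp only [Fin.val_castSucc, Fin.val_last]
    rw [← ih, ← Measure.restrict_union _ measurableSet_Ico]
    · congr 1
      have hM : (0 : ℝ) ≤ M * η := by positivity
      rw [mul_comm η (M : ℝ), Set.Ico_union_Ico_eq_Ico (by linarith) (by linarith)]
      congr 1
      push_cast
      ring
    · rw [Set.disjoint_left]
      intro x hx hx'
      have := hx.2
      have := hx'.1
      linarith

theorem rep_line (a η : ℝ) (hη : 0 < η) (M : ℕ) :
    Rep ((volume : Measure ℝ).restrict (Set.Ico a (a + M * η)))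
      ((volume : Measure ℝ).restrict (Set.Ico 0 η))
      (fun (m : Fin M) t => a + η * m + t) where
  emb _ := measurableEmbedding_addLeft _
  eq := restrict_Ico_eq_sum a η hη M

theorem measurePreserving_rot (ν : Measure ℝ) [SFinite ν] :
    MeasurePreserving (fun t : ℝ × ℝ × ℝ => (t.2.1, t.2.2, t.1)) (ν.prod (ν.prod ν))
      (ν.prod (ν.prod ν)) :=
  (measurePreserving_prodAssoc ν ν ν).comp Measure.measurePreserving_swap

theorem measurableEmbedding_rot :
    MeasurableEmbedding (fun t : ℝ × ℝ × ℝ => (t.2.1, t.2.2, t.1)) :=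
  (MeasurableEquiv.prodAssoc (α := ℝ) (β := ℝ) (γ := ℝ)).measurableEmbedding.comp
    (MeasurableEquiv.prodComm (α := ℝ) (β := ℝ × ℝ)).measurableEmbedding

/-- Transfer of a lattice inequality to an integral inequality by averaging over offsets. -/
theorem transfer (a η : ℝ) (hη : 0 < η) (M : ℕ) (Φ : ℝ × ℝ × ℝ → ℝ) (hΦ : Integrable Φ)
    (hsupp : ∀ x, Φ x ≠ 0 → x.1 ∈ Set.Ico a (a + M * η) ∧ x.2.1 ∈ Set.Ico a (a + M * η) ∧
      x.2.2 ∈ Set.Ico a (a + M * η))
    (g₀ g₁ g₂ : ℝ × ℝ → ℝ) (h₀ : ∀ z, 0 ≤ g₀ z) (h₁ : ∀ z, 0 ≤ g₁ z) (h₂ : ∀ z, 0 ≤ g₂ z)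
    (i₀ : Integrable g₀) (i₁ : Integrable g₁) (i₂ : Integrable g₂) (c : ℝ) (hc : 0 ≤ c)
    (h : ∀ t₀ ∈ Set.Ico 0 η, ∀ t₁ ∈ Set.Ico 0 η, ∀ t₂ ∈ Set.Ico 0 η,
      |∑ m₀ : Fin M, ∑ m₁ : Fin M, ∑ m₂ : Fin M,
          Φ (a + η * m₀ + t₀, a + η * m₁ + t₁, a + η * m₂ + t₂)| ≤
        c * (∑ m₀ : Fin M, ∑ m₁ : Fin M, g₀ (a + η * m₀ + t₀, a + η * m₁ + t₁)
          + ∑ m₁ : Fin M, ∑ m₂ : Fin M, g₁ (a + η * m₁ + t₁, a + η * m₂ + t₂)
          + ∑ m₂ : Fin M, ∑ m₀ : Fin M, g₂ (a + η * m₂ + t₂, a + η * m₀ + t₀))) :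
    |∫ x, Φ x| ≤ c * η * ((∫ z, g₀ z) + (∫ z, g₁ z) + ∫ z, g₂ z) := by
  set μ : Measure ℝ := (volume : Measure ℝ).restrict (Set.Ico a (a + M * η)) with hμ
  set ν : Measure ℝ := (volume : Measure ℝ).restrict (Set.Ico 0 η) with hν
  have R1 := rep_line a η hη M
  have R2 := R1.prod R1
  have R3 := R1.prod R2
  have hνu : ν.real Set.univ = η := by simp [hν, hη.le]
  have hbox : μ.prod μ = (volume : Measure (ℝ × ℝ)).restrict
      (Set.Ico a (a + M * η) ×ˢ Set.Ico a (a + M * η)) := by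
    rw [hμ, Measure.prod_restrict]
    rfl
  have hbox3 : μ.prod (μ.prod μ) = (volume : Measure (ℝ × ℝ × ℝ)).restrict
      (Set.Ico a (a + M * η) ×ˢ Set.Ico a (a + M * η) ×ˢ Set.Ico a (a + M * η)) := by
    rw [hbox, hμ, Measure.prod_restrict]
    rfl
  -- the two-dimensional sums
  let S : (ℝ × ℝ → ℝ) → ℝ × ℝ → ℝ := fun g t =>
    ∑ m₀ : Fin M, ∑ m₁ : Fin M, g (a + η * m₀ + t.1, a + η * m₁ + t.2)
  have hS : ∀ g : ℝ × ℝ → ℝ, (∀ z, 0 ≤ g z) → Integrable g →
      Integrable (fun t : ℝ × ℝ × ℝ => S g t.2) (ν.prod (ν.prod ν)) ∧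
      ∫ t : ℝ × ℝ × ℝ, S g t.2 ∂(ν.prod (ν.prod ν)) ≤ η * ∫ z, g z := by
    intro g hg ig
    have ig' : Integrable g (μ.prod μ) := by rw [hbox]; exact ig.restrict
    have e1 : (fun x : ℝ × ℝ => ∑ p : Fin M × Fin M, g (Prod.map (fun t => a + η * p.1 + t)
        (fun t => a + η * p.2 + t) x)) = S g := by
      funext x
      simp only [S, Fintype.sum_prod_type, Prod.map]
    have e2 := R2.integrable ig'
    have e3 := R2.integral ig'
    rw [e1] at e2 e3
    refine ⟨e2.comp_snd ν, ?_⟩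
    rw [integral_fun_snd, hνu, smul_eq_mul, ← e3, hbox]
    exact mul_le_mul_of_nonneg_left
      (setIntegral_le_integral ig (Filter.Eventually.of_forall hg)) hη.le
  obtain ⟨j₁, k₁⟩ := hS g₁ h₁ i₁
  obtain ⟨j₂, k₂⟩ := hS g₂ h₂ i₂
  obtain ⟨j₀, k₀⟩ := hS g₀ h₀ i₀
  have rp := measurePreserving_rot ν
  have re := measurableEmbedding_rot
  have j₂' := rp.integrable_comp_of_integrable j₂
  rw [← rp.integral_comp re] at k₂
  have j₀' := rp.integrable_comp_of_integrable (rp.integrable_comp_of_integrable j₀)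
  rw [← rp.integral_comp re, ← rp.integral_comp re] at k₀
  have iΦ : Integrable Φ (μ.prod (μ.prod μ)) := by rw [hbox3]; exact hΦ.restrict
  have e0 : ∫ x, Φ x = ∫ x, Φ x ∂(μ.prod (μ.prod μ)) := by
    rw [hbox3, setIntegral_eq_integral_of_forall_compl_eq_zero]
    intro x hx
    by_contra hne
    exact hx (hsupp x hne)
  rw [e0, R3.integral iΦ]
  have hae : ∀ᵐ t ∂(ν.prod (ν.prod ν)), t ∈ Set.Ico (0 : ℝ) η ×ˢ Set.Ico (0 : ℝ) η ×ˢ
      Set.Ico (0 : ℝ) η := by
    rw [hν, Measure.prod_restrict, Measure.prod_restrict]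
    exact ae_restrict_mem (measurableSet_Ico.prod (measurableSet_Ico.prod measurableSet_Ico))
  have hbd := norm_integral_le_of_norm_le (μ := ν.prod (ν.prod ν))
    (f := fun x : ℝ × ℝ × ℝ => ∑ i : Fin M × Fin M × Fin M, Φ (Prod.map
      (fun t => a + η * i.1 + t) (Prod.map (fun t => a + η * i.2.1 + t)
        (fun t => a + η * i.2.2 + t)) x))
    (((j₀'.add j₁).add j₂').const_mul c) (by
      filter_upwards [hae] with t ht
      have := h t.1 ht.1 t.2.1 ht.2.1 t.2.2 ht.2.2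
      simpa only [Fintype.sum_prod_type, Prod.map, Real.norm_eq_abs, S, Pi.add_apply,
        Function.comp] using this)
  rw [integral_const_mul, integral_add' (j₀'.add j₁) j₂', integral_add' j₀' j₁] at hbd
  refine hbd.trans ?_
  rw [mul_assoc]
  refine mul_le_mul_of_nonneg_left ?_ hc
  simp only [Function.comp] at k₀ k₂ ⊢
  linarith

/-- Optimising a trilinear inequality over scalings. -/
theorem le_of_forall_scale {X a b c K : ℝ} (ha : 0 ≤ a) (hb : 0 ≤ b) (hc : 0 ≤ c) (hK : 0 ≤ K)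
    (h : ∀ l₀ l₁ l₂ : ℝ, 0 < l₀ → 0 < l₁ → 0 < l₂ →
      l₀ * l₁ * l₂ * X ≤ K * (l₀ ^ 3 * a + l₁ ^ 3 * b + l₂ ^ 3 * c)) :
    X ≤ 3 * K * a ^ (1 / 3 : ℝ) * b ^ (1 / 3 : ℝ) * c ^ (1 / 3 : ℝ) := by
  have key : ∀ e : ℝ, 0 < e → X ≤ 3 * K * (a + e) ^ (1 / 3 : ℝ) * (b + e) ^ (1 / 3 : ℝ) *
      (c + e) ^ (1 / 3 : ℝ) := by
    intro e he
    have cube : ∀ x : ℝ, 0 ≤ x → 0 < (x + e) ^ (1 / 3 : ℝ) ∧
        ((x + e) ^ (1 / 3 : ℝ))⁻¹ ^ 3 * x ≤ 1 := by
      intro x hx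
      have hpos : 0 < x + e := by linarith
      refine ⟨Real.rpow_pos_of_pos hpos _, ?_⟩
      have : ((x + e) ^ (1 / 3 : ℝ)) ^ 3 = x + e := by
        rw [← Real.rpow_natCast, ← Real.rpow_mul hpos.le]
        norm_num
      rw [inv_pow, this, inv_mul_le_iff₀ hpos]
      linarith
    obtain ⟨pa, qa⟩ := cube a ha
    obtain ⟨pb, qb⟩ := cube b hb
    obtain ⟨pc, qc⟩ := cube c hc
    have h1 := h _ _ _ (inv_pos.2 pa) (inv_pos.2 pb) (inv_pos.2 pc)
    have h2 : ((a + e) ^ (1 / 3 : ℝ))⁻¹ * ((b + e) ^ (1 / 3 : ℝ))⁻¹ * ((c + e) ^ (1 / 3 : ℝ))⁻¹ *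
        X ≤ K * 3 := h1.trans (mul_le_mul_of_nonneg_left (by linarith) hK)
    have h3 := mul_le_mul_of_nonneg_left h2 (mul_pos (mul_pos pa pb) pc).le
    calc X = (a + e) ^ (1 / 3 : ℝ) * (b + e) ^ (1 / 3 : ℝ) * (c + e) ^ (1 / 3 : ℝ) *
          (((a + e) ^ (1 / 3 : ℝ))⁻¹ * ((b + e) ^ (1 / 3 : ℝ))⁻¹ * ((c + e) ^ (1 / 3 : ℝ))⁻¹ *
          X) := by field_simp
      _ ≤ _ := h3
      _ = _ := by ring
  have hcont : Continuous fun e : ℝ => 3 * K * (a + e) ^ (1 / 3 : ℝ) * (b + e) ^ (1 / 3 : ℝ) *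
      (c + e) ^ (1 / 3 : ℝ) := by
    have r : ∀ x : ℝ, Continuous fun e : ℝ => (x + e) ^ (1 / 3 : ℝ) := fun x =>
      (continuous_const.add continuous_id).rpow_const fun _ => Or.inr (by norm_num)
    exact ((continuous_const.mul (r a)).mul (r b)).mul (r c)
  have ht := (hcont.tendsto 0).mono_left (nhdsWithin_le_nhds (s := Set.Ioi 0))
  simp only [add_zero] at ht
  exact ge_of_tendsto ht (eventually_nhdsWithin_of_forall fun e he => key e he)

end Crest.Agent.R72
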