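import Crest.Agent.R72.DM
import Crest.Agent.R72.Sample

set_option autoImplicit false

namespace Crest.Agent.R72

open Matrix MeasureTheory
open scoped ENNReal

theorem dc_integral_comp {α β : Type*} [MeasureSpace α] [MeasureSpace β] {e : α → β}
    (he : MeasurePreserving e) {f : β → ℝ} (hf : AEStronglyMeasurable f volume) :
    ∫ x, f (e x) = ∫ y, f y := by
  rw [← integral_map he.measurable.aemeasurable (by rwa [he.map_eq]), he.map_eq]

theorem dc_mp_shift (c : ℝ → ℝ × ℝ) (hc : Measurable c) :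
    MeasurePreserving (fun p : (ℝ × ℝ) × ℝ => (p.1 + c p.2, p.2)) := by
  have h1 : MeasurePreserving (fun p : ℝ × (ℝ × ℝ) => (id p.1, p.2 + c p.1))
      (volume.prod volume) (volume.prod volume) :=
    (MeasurePreserving.id volume).skew_product (g := fun t z => z + c t)
      (measurable_snd.add (hc.comp measurable_fst))
      (Filter.Eventually.of_forall fun t => (measurePreserving_add_right volume (c t)).map_eq)
  exact Measure.measurePreserving_swap.comp (h1.comp Measure.measurePreserving_swap)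

theorem dc_mp_plane :
    MeasurePreserving (fun x : ℝ × ℝ × ℝ => (((x.1, x.2.1), -(x.1 + x.2.1 + x.2.2)) : (ℝ × ℝ) × ℝ)) := by
  have h1 : MeasurePreserving (fun p : (ℝ × ℝ) × ℝ => (id p.1, -(p.1.1 + p.1.2) - p.2))
      (volume.prod volume) (volume.prod volume) :=
    (MeasurePreserving.id volume).skew_product (g := fun (z : ℝ × ℝ) (t : ℝ) => -(z.1 + z.2) - t)
      (by fun_prop)
      (Filter.Eventually.of_forall fun z =>
        (Measure.measurePreserving_sub_left volume (-(z.1 + z.2))).map_eq)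
  have h2 := h1.comp (volume_preserving_prodAssoc (α₁ := ℝ) (β₁ := ℝ) (γ₁ := ℝ)).symm
  convert! h2 using 1
  funext x
  simp only [Function.comp, id, MeasurableEquiv.prodAssoc, MeasurableEquiv.symm_mk,
    MeasurableEquiv.coe_mk, Equiv.prodAssoc_symm_apply]
  congr 1
  ring

theorem dc_mp_skew : MeasurePreserving (fun w : ℝ × ℝ => ((w.1, -w.1 - w.2) : ℝ × ℝ)) :=
  (MeasurePreserving.id volume).skew_product (g := fun (a t : ℝ) => -a - t) (by fun_prop)
    (Filter.Eventually.of_forall fun a => (Measure.measurePreserving_sub_left volume (-a)).map_eq)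

theorem dc_mp_one : MeasurePreserving (fun w : ℝ × ℝ => ((-w.1 - w.2, w.1) : ℝ × ℝ)) :=
  Measure.measurePreserving_swap.comp dc_mp_skew

theorem dc_mp_two : MeasurePreserving (fun w : ℝ × ℝ => ((w.2, -w.2 - w.1) : ℝ × ℝ)) :=
  dc_mp_skew.comp Measure.measurePreserving_swap

theorem dc_mult_scale {n : ℕ} (ε R σ : Fin n → ℝ) {η : ℝ} (hη : 0 < η) (r : ℝ) :
    mult (fun j => ε j / η) (fun j => R j / η) σ r = mult ε R σ (η * r) := by
  unfold mult
  refine Finset.sum_congr rfl fun j _ => ?_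
  have : (ε j / η < r ∧ r < R j / η) ↔ (ε j < η * r ∧ η * r < R j) := by
    rw [div_lt_iff₀ hη, lt_div_iff₀ hη, mul_comm r η]
  simp only [this]

theorem dc_measurable_mult {n : ℕ} (ε R σ : Fin n → ℝ) : Measurable (mult ε R σ) := by
  unfold mult
  refine Finset.measurable_sum _ fun j _ => Measurable.const_mul ?_ _
  exact Measurable.ite (measurableSet_Ioo (a := ε j) (b := R j)) measurable_const measurable_const

theorem dc_kernel_le {n : ℕ} (ε R σ : Fin n → ℝ) {ε₀ R₀ : ℝ} (h0 : 0 < ε₀) (hε : ∀ j, ε₀ ≤ ε j)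
    (hR : ∀ j, R j ≤ R₀) (hm : ∀ r, |mult ε R σ r| ≤ 1) (t : ℝ) :
    abs (mult ε R σ |t| / t) ≤ (Set.Icc (-R₀) R₀).indicator (fun _ => ε₀⁻¹) t := by
  by_cases h : mult ε R σ |t| = 0
  · rw [h, zero_div, abs_zero]
    exact Set.indicator_nonneg (fun _ _ => by positivity) t
  · obtain ⟨j, -, hj⟩ := Finset.exists_ne_zero_of_sum_ne_zero h
    have hj' : ε j < |t| ∧ |t| < R j := by
      by_contra h'
      simp [h'] at hj
    have h1 : ε₀ < |t| := (hε j).trans_lt hj'.1
    have h2 : t ∈ Set.Icc (-R₀) R₀ := abs_le.1 (hj'.2.le.trans (hR j))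
    rw [Set.indicator_of_mem h2, abs_div, ← one_div]
    exact div_le_div₀ zero_le_one (hm _) h0 h1.le

theorem dc_amgm (a b c : ℝ) : |a * (b * c)| ≤ |a| ^ 3 + |b| ^ 3 + |c| ^ 3 := by
  rw [abs_mul, abs_mul]
  have ha := abs_nonneg a
  have hb := abs_nonneg b
  have hc := abs_nonneg c
  generalize |a| = x at *
  generalize |b| = y at *
  generalize |c| = z at *
  have h : 0 ≤ (x + y + z) * ((x - y) ^ 2 + (y - z) ^ 2 + (z - x) ^ 2) := by positivity
  have h' : 0 ≤ x * (y * z) := by positivity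
  nlinarith

theorem dc_integrable {K : (ℝ × ℝ) × ℝ → ℝ} (hK : Measurable K) {ε₀ R₀ : ℝ}
    (hKle : ∀ p, |K p| ≤ (Set.Icc (-R₀) R₀).indicator (fun _ => ε₀⁻¹) p.2)
    {H F G : ℝ × ℝ → ℝ} (hH : Measurable H) (hF : Measurable F) (hG : Measurable G)
    (iH : Integrable (fun z => |H z| ^ 3)) (iF : Integrable (fun z => |F z| ^ 3))
    (iG : Integrable (fun z => |G z| ^ 3)) :
    Integrable (fun p : (ℝ × ℝ) × ℝ =>
      H p.1 * (F (p.1.1 + p.2, p.1.2) * G (p.1.1, p.1.2 + p.2) * K p)) := by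
  have hI : Integrable ((Set.Icc (-R₀) R₀).indicator (fun _ : ℝ => ε₀⁻¹)) :=
    (integrable_indicator_iff measurableSet_Icc).2 (integrableOn_const (by simp))
  have i0 := iH.mul_prod hI
  have i1 := (dc_mp_shift (fun t => (t, 0)) (by fun_prop)).integrable_comp_of_integrable
    (iF.mul_prod hI)
  have i2 := (dc_mp_shift (fun t => (0, t)) (by fun_prop)).integrable_comp_of_integrable
    (iG.mul_prod hI)
  refine ((i0.add i1).add i2).mono' ?_ (Filter.Eventually.of_forall fun p => ?_)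
  · refine Measurable.aestronglyMeasurable ?_
    exact (hH.comp measurable_fst).mul (((hF.comp (by fun_prop)).mul (hG.comp (by fun_prop))).mul hK)
  · have e1 : p.1 + (p.2, 0) = (p.1.1 + p.2, p.1.2) := by ext <;> simp
    have e2 : p.1 + (0, p.2) = (p.1.1, p.1.2 + p.2) := by ext <;> simp
    simp only [Pi.add_apply, Function.comp, e1, e2, Real.norm_eq_abs]
    rw [← mul_assoc, abs_mul, ← add_mul, ← add_mul]
    exact mul_le_mul (dc_amgm _ _ _) (hKle p) (abs_nonneg _) (by positivity)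

theorem dc_sep (a t : ℝ) {η : ℝ} (hη : 0 < η) (M : ℕ) :
    Sep (fun m : Fin M => (a + η * m + t) / η) := by
  intro i j hij
  have e : (a + η * i + t) / η - (a + η * j + t) / η = ((i : ℤ) - (j : ℤ) : ℤ) := by
    push_cast
    field_simp
    ring
  rw [e, ← Int.cast_abs]
  have : (i : ℤ) - (j : ℤ) ≠ 0 := fun h => hij (Fin.ext (by omega))
  exact_mod_cast Int.one_le_abs this

theorem dc_box_mem (a : ℝ) {η t : ℝ} {M : ℕ} (ht : t ∈ Set.Ico 0 η) (m : Fin M) :
    a + η * m + t ∈ Set.Ico a (a + M * η) := by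
  have hη : 0 < η := ht.1.trans_lt ht.2
  have h1 : (0 : ℝ) ≤ (m : ℕ) := Nat.cast_nonneg _
  have h2 : ((m : ℕ) : ℝ) + 1 ≤ M := by exact_mod_cast m.2
  constructor
  · nlinarith [ht.1]
  · nlinarith [ht.2]

/-- The additive form of the dual estimate. -/
theorem dc_additive : ∃ C : ℝ, 0 < C ∧ ∀ n : ℕ, 1 ≤ n → ∀ (P : Type) [Fintype P]
    (ε R σ : P → Fin n → ℝ), (∀ π j, 0 < ε π j) → (∀ π j, |σ π j| ≤ 1) →
    (∀ π r, |mult (ε π) (R π) (σ π) r| ≤ 1) →
    ∀ sel : ℝ × ℝ → P, (∀ π, MeasurableSet {z | sel z = π}) →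
    ∀ H F G : ℝ × ℝ → ℝ, Measurable H → Measurable F → Measurable G →
      Integrable (fun z => |H z| ^ 3) → Integrable (fun z => |F z| ^ 3) →
      Integrable (fun z => |G z| ^ 3) →
      Integrable (fun p : (ℝ × ℝ) × ℝ => H p.1 * (F (p.1.1 + p.2, p.1.2) * G (p.1.1, p.1.2 + p.2) *
        (mult (ε (sel p.1)) (R (sel p.1)) (σ (sel p.1)) |p.2| / p.2))) ∧
      |∫ p : (ℝ × ℝ) × ℝ, H p.1 * (F (p.1.1 + p.2, p.1.2) * G (p.1.1, p.1.2 + p.2) *
        (mult (ε (sel p.1)) (R (sel p.1)) (σ (sel p.1)) |p.2| / p.2))| ≤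
        C * (√n * Real.log (2 + n)) *
          ((∫ z, |H z| ^ 3) + (∫ z, |F z| ^ 3) + ∫ z, |G z| ^ 3) := by
  obtain ⟨C, hC, hmain⟩ := discrete_main
  refine ⟨C, hC, fun n hn P _ ε R σ hε hσ hm sel hsel H F G hH hF hG iH iF iG => ?_⟩
  obtain ⟨lo, hlo, hdisc⟩ := hmain n hn
  have : Nonempty P := ⟨sel 0⟩
  have : Nonempty (Fin n) := ⟨⟨0, hn⟩⟩
  obtain ⟨q, hq⟩ := Finite.exists_min (fun q : P × Fin n => ε q.1 q.2)
  obtain ⟨q', hq'⟩ := Finite.exists_max (fun q : P × Fin n => R q.1 q.2)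
  set ε₀ := ε q.1 q.2 with hε₀
  have h0 : 0 < ε₀ := hε _ _
  have hKm : Measurable fun p : (ℝ × ℝ) × ℝ =>
      mult (ε (sel p.1)) (R (sel p.1)) (σ (sel p.1)) |p.2| / p.2 := by
    let _ : MeasurableSpace P := ⊤
    have hs : Measurable sel := measurable_to_countable' hsel
    have hk : Measurable fun u : P × ℝ => mult (ε u.1) (R u.1) (σ u.1) |u.2| / u.2 :=
      measurable_from_prod_countable_right fun π =>
        ((dc_measurable_mult (ε π) (R π) (σ π)).comp measurable_abs).div measurable_id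
    exact hk.comp ((hs.comp measurable_fst).prodMk measurable_snd)
  have hint := dc_integrable hKm (ε₀ := ε₀) (R₀ := R q'.1 q'.2)
    (fun p => dc_kernel_le _ _ _ h0 (fun j => hq (sel p.1, j)) (fun j => hq' (sel p.1, j)) (hm _) _)
    hH hF hG iH iF iG
  refine ⟨hint, ?_⟩
  set Ψ : (ℝ × ℝ) × ℝ → ℝ := fun p => H p.1 * (F (p.1.1 + p.2, p.1.2) * G (p.1.1, p.1.2 + p.2) *
    (mult (ε (sel p.1)) (R (sel p.1)) (σ (sel p.1)) |p.2| / p.2)) with hΨ
  set Φ : ℝ × ℝ × ℝ → ℝ := fun x => Ψ ((x.1, x.2.1), -(x.1 + x.2.1 + x.2.2)) with hΦ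
  have hΦi : Integrable Φ := dc_mp_plane.integrable_comp_of_integrable hint
  have hΦe : ∫ x, Φ x = ∫ p, Ψ p := dc_integral_comp dc_mp_plane hint.aestronglyMeasurable
  have i1 : Integrable fun w : ℝ × ℝ => |F (-w.1 - w.2, w.1)| ^ 3 :=
    dc_mp_one.integrable_comp_of_integrable iF
  have i2 : Integrable fun w : ℝ × ℝ => |G (w.2, -w.2 - w.1)| ^ 3 :=
    dc_mp_two.integrable_comp_of_integrable iG
  have e1 : ∫ w : ℝ × ℝ, |F (-w.1 - w.2, w.1)| ^ 3 = ∫ z, |F z| ^ 3 :=
    dc_integral_comp (f := fun z => |F z| ^ 3) dc_mp_one iF.aestronglyMeasurable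
  have e2 : ∫ w : ℝ × ℝ, |G (w.2, -w.2 - w.1)| ^ 3 = ∫ z, |G z| ^ 3 :=
    dc_integral_comp (f := fun z => |G z| ^ 3) dc_mp_two iG.aestronglyMeasurable
  set η := ε₀ / lo with hηdef
  have hη : 0 < η := div_pos h0 hlo
  set L := C * (√n * Real.log (2 + n)) with hL
  have hL0 : 0 ≤ L := by
    have : 0 ≤ Real.log (2 + n) := Real.log_nonneg (by linarith [Nat.cast_nonneg (α := ℝ) n])
    positivity
  let box : ℕ → Set (ℝ × ℝ × ℝ) := fun m =>
    Set.Ico (-(η * m)) (η * m) ×ˢ Set.Ico (-(η * m)) (η * m) ×ˢ Set.Ico (-(η * m)) (η * m)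
  have hboxm : ∀ m, MeasurableSet (box m) := fun m =>
    measurableSet_Ico.prod (measurableSet_Ico.prod measurableSet_Ico)
  have hmono : Monotone box := by
    intro m m' h
    have h1 : η * m ≤ η * m' := mul_le_mul_of_nonneg_left (by exact_mod_cast h) hη.le
    have h2 := Set.Ico_subset_Ico (neg_le_neg h1) h1
    exact Set.prod_mono h2 (Set.prod_mono h2 h2)
  have hunion : ⋃ m, box m = Set.univ := by
    refine Set.eq_univ_of_forall fun x => ?_
    obtain ⟨m, hm⟩ := exists_nat_gt ((|x.1| + |x.2.1| + |x.2.2|) / η)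
    rw [div_lt_iff₀ hη, mul_comm] at hm
    have key : ∀ y : ℝ, |y| < η * m → y ∈ Set.Ico (-(η * m)) (η * m) := fun y hy =>
      ⟨(abs_lt.1 hy).1.le, (abs_lt.1 hy).2⟩
    have a0 := abs_nonneg x.1
    have a1 := abs_nonneg x.2.1
    have a2 := abs_nonneg x.2.2
    exact Set.mem_iUnion.2 ⟨m, key _ (by linarith), key _ (by linarith), key _ (by linarith)⟩
  have hlim := tendsto_setIntegral_of_monotone (μ := volume) (f := Φ) hboxm hmono
    hΦi.integrableOn
  rw [hunion, Measure.restrict_univ, hΦe] at hlim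
  refine le_of_tendsto' hlim.abs fun m => ?_
  have eM : -(η * m) + ((2 * m : ℕ) : ℝ) * η = η * m := by
    push_cast
    ring
  have htr := transfer (-(η * m)) η hη (2 * m) ((box m).indicator Φ) (hΦi.indicator (hboxm m))
    (fun x hx => by
      have hx' : x ∈ box m := by
        by_contra h
        exact hx (Set.indicator_of_notMem h _)
      rw [eM]
      exact hx')
    (fun z => |H z| ^ 3) (fun w => |F (-w.1 - w.2, w.1)| ^ 3) (fun w => |G (w.2, -w.2 - w.1)| ^ 3)
    (fun _ => by positivity) (fun _ => by positivity) (fun _ => by positivity) iH i1 i2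
    (L / η) (by positivity) (fun t₀ h₀ t₁ h₁ t₂ h₂ => ?_)
  · rw [integral_indicator (hboxm m), e1, e2, div_mul_cancel₀ _ hη.ne'] at htr
    exact htr
  · set a := -(η * m) with ha
    have hd := hdisc (Fin (2 * m)) (Fin (2 * m)) (Fin (2 * m))
      (fun i => (a + η * i + t₀) / η) (fun i => (a + η * i + t₁) / η)
      (fun i => (a + η * i + t₂) / η) (dc_sep a t₀ hη _) (dc_sep a t₁ hη _) (dc_sep a t₂ hη _)
      (Matrix.of fun i j => H (a + η * i + t₀, a + η * j + t₁))
      (Matrix.of fun j k => F (-(a + η * j + t₁) - (a + η * k + t₂), a + η * j + t₁))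
      (Matrix.of fun k i => G (a + η * i + t₀, -(a + η * i + t₀) - (a + η * k + t₂)))
      (fun i j l => ε (sel (a + η * i + t₀, a + η * j + t₁)) l / η)
      (fun i j l => R (sel (a + η * i + t₀, a + η * j + t₁)) l / η)
      (fun i j l => σ (sel (a + η * i + t₀, a + η * j + t₁)) l)
      (fun i j l => by
        rw [le_div_iff₀ hη, hηdef, mul_div_cancel₀ _ hlo.ne']
        exact hq (_, l))
      (fun i j l => hσ _ _) (fun i j r => by
        rw [dc_mult_scale _ _ _ hη]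
        exact hm _ _)
    have hsum : ∑ m₀ : Fin (2 * m), ∑ m₁ : Fin (2 * m), ∑ m₂ : Fin (2 * m),
        (box m).indicator Φ (a + η * m₀ + t₀, a + η * m₁ + t₁, a + η * m₂ + t₂) =
        -η⁻¹ * Form (Matrix.of fun (i j : Fin (2 * m)) => H (a + η * i + t₀, a + η * j + t₁))
          (Matrix.of fun (j k : Fin (2 * m)) =>
            F (-(a + η * j + t₁) - (a + η * k + t₂), a + η * j + t₁))
          (Matrix.of fun (k i : Fin (2 * m)) =>
            G (a + η * i + t₀, -(a + η * i + t₀) - (a + η * k + t₂)))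
          (fun i => (a + η * i + t₀) / η) (fun i => (a + η * i + t₁) / η)
          (fun i => (a + η * i + t₂) / η)
          (fun i j t => mult (fun l => ε (sel (a + η * i + t₀, a + η * j + t₁)) l / η)
            (fun l => R (sel (a + η * i + t₀, a + η * j + t₁)) l / η)
            (fun l => σ (sel (a + η * i + t₀, a + η * j + t₁)) l) |t| / t) := by
      unfold Form
      simp only [Finset.mul_sum]
      refine Finset.sum_congr rfl fun i _ => Finset.sum_congr rfl fun j _ =>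
        Finset.sum_congr rfl fun k _ => ?_
      have hmem : (a + η * i + t₀, a + η * j + t₁, a + η * k + t₂) ∈ box m := by
        have b0 := dc_box_mem a h₀ i
        have b1 := dc_box_mem a h₁ j
        have b2 := dc_box_mem a h₂ k
        rw [eM] at b0 b1 b2
        exact ⟨b0, b1, b2⟩
      rw [Set.indicator_of_mem hmem, dc_mult_scale _ _ _ hη]
      simp only [hΦ, hΨ, Matrix.of_apply]
      generalize a + η * i + t₀ = y₀
      generalize a + η * j + t₁ = y₁
      generalize a + η * k + t₂ = y₂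
      have f1 : y₀ + -(y₀ + y₁ + y₂) = -y₁ - y₂ := by ring
      have f2 : y₁ + -(y₀ + y₁ + y₂) = -y₀ - y₂ := by ring
      have f3 : y₀ / η + y₁ / η + y₂ / η = (y₀ + y₁ + y₂) / η := by ring
      have f4 : η * |(y₀ + y₁ + y₂) / η| = |y₀ + y₁ + y₂| := by
        rw [abs_div, abs_of_pos hη, mul_div_cancel₀ _ hη.ne']
      rw [f1, f2, f3, f4, abs_neg, div_div_eq_mul_div, div_neg]
      field_simp
    rw [hsum, abs_mul, abs_neg, abs_inv, abs_of_pos hη, div_eq_inv_mul, mul_assoc]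
    refine mul_le_mul_of_nonneg_left (hd.trans (le_of_eq ?_)) (inv_nonneg.2 hη.le)
    simp only [cub, Matrix.of_apply, hL]

/-- The dual form of the annulus-count estimate. -/
theorem dual_bound : ∃ C : ℝ, 0 < C ∧ ∀ n : ℕ, 1 ≤ n → ∀ (P : Type) [Fintype P]
    (ε R σ : P → Fin n → ℝ), (∀ π j, 0 < ε π j) → (∀ π j, |σ π j| ≤ 1) →
    (∀ π r, |mult (ε π) (R π) (σ π) r| ≤ 1) →
    ∀ sel : ℝ × ℝ → P, (∀ π, MeasurableSet {z | sel z = π}) →
    ∀ H F G : ℝ × ℝ → ℝ, Measurable H → Measurable F → Measurable G →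
      Integrable (fun z => |H z| ^ 3) → Integrable (fun z => |F z| ^ 3) →
      Integrable (fun z => |G z| ^ 3) →
      Integrable (fun p : (ℝ × ℝ) × ℝ => H p.1 * (F (p.1.1 + p.2, p.1.2) * G (p.1.1, p.1.2 + p.2) *
        (mult (ε (sel p.1)) (R (sel p.1)) (σ (sel p.1)) |p.2| / p.2))) ∧
      |∫ p : (ℝ × ℝ) × ℝ, H p.1 * (F (p.1.1 + p.2, p.1.2) * G (p.1.1, p.1.2 + p.2) *
        (mult (ε (sel p.1)) (R (sel p.1)) (σ (sel p.1)) |p.2| / p.2))| ≤
        C * (√n * Real.log (2 + n)) * (∫ z, |H z| ^ 3) ^ (1 / 3 : ℝ) *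
          (∫ z, |F z| ^ 3) ^ (1 / 3 : ℝ) * (∫ z, |G z| ^ 3) ^ (1 / 3 : ℝ) := by
  obtain ⟨C, hC, h⟩ := dc_additive
  refine ⟨3 * C, by positivity, fun n hn P _ ε R σ hε hσ hm sel hsel H F G hH hF hG iH iF iG => ?_⟩
  refine ⟨(h n hn P ε R σ hε hσ hm sel hsel H F G hH hF hG iH iF iG).1, ?_⟩
  have hL0 : 0 ≤ C * (√n * Real.log (2 + n)) := by
    have : 0 ≤ Real.log (2 + n) := Real.log_nonneg (by linarith [Nat.cast_nonneg (α := ℝ) n])
    positivity
  have hcube : ∀ (l : ℝ), 0 < l → ∀ f : ℝ × ℝ → ℝ, (fun z => |l * f z| ^ 3) =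
      fun z => l ^ 3 * |f z| ^ 3 := fun l hl f => by
    funext z
    rw [abs_mul, abs_of_pos hl, mul_pow]
  rw [mul_assoc 3 C]
  refine le_of_forall_scale (integral_nonneg fun _ => by positivity)
    (integral_nonneg fun _ => by positivity) (integral_nonneg fun _ => by positivity) hL0
    fun l₀ l₁ l₂ h₀ h₁ h₂ => ?_
  have key := (h n hn P ε R σ hε hσ hm sel hsel (fun z => l₀ * H z) (fun z => l₁ * F z)
    (fun z => l₂ * G z) (hH.const_mul _) (hF.const_mul _) (hG.const_mul _)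
    (by rw [hcube l₀ h₀]; exact iH.const_mul _) (by rw [hcube l₁ h₁]; exact iF.const_mul _)
    (by rw [hcube l₂ h₂]; exact iG.const_mul _)).2
  rw [hcube l₀ h₀, hcube l₁ h₁, hcube l₂ h₂, integral_const_mul, integral_const_mul,
    integral_const_mul] at key
  refine le_trans (le_of_eq ?_) key
  rw [← abs_of_pos (mul_pos (mul_pos h₀ h₁) h₂), ← abs_mul, ← integral_const_mul]
  congr 2
  funext p
  ring

end Crest.Agent.R72
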