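import Crest.Agent.R72.Lap

set_option autoImplicit false

namespace Crest.Agent.R72

open Matrix MeasureTheory
open scoped ENNReal

namespace NiceK

theorem bdd_of_le {α S : ℝ} (hα : 0 ≤ α) (hS : 0 < S) (y : ℝ) :
    |α * lap S y| ≤ α * (1 / (2 * S)) := by
  rw [abs_of_nonneg (mul_nonneg hα (lap_pos hS y).le)]
  exact mul_le_mul_of_nonneg_left (lap_le hS y) hα

theorem abs_cv_le_lap {α a S : ℝ} (hα : 0 ≤ α) (ha : 0 < a) (hS : 0 < S) {f : ℝ → ℝ}
    (hf : ∀ t, |f t| ≤ α * lap S t) (t : ℝ) : |cv a f t| ≤ α * cv a (lap S) t := by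
  rw [← cv_const_mul]
  exact abs_cv_le ha ((continuous_lap S).measurable.const_mul α) (bdd_of_le hα hS) hf t

theorem abs_cv_le_two {α σ S : ℝ} (hα : 0 ≤ α) (hσ : 0 < σ) (h : 2 * σ ≤ S) {f : ℝ → ℝ}
    (hf : ∀ t, |f t| ≤ α * lap S t) (t : ℝ) : |cv σ f t| ≤ 2 * α * lap S t := by
  refine (abs_cv_le_lap hα hσ (by linarith) hf t).trans ?_
  rw [cv_lap_comm, mul_comm 2, mul_assoc]
  exact mul_le_mul_of_nonneg_left (lap2_le hσ h t) hα

theorem sum_abs_integral_le {ι : Type} [Fintype ι] {σ : ℝ} (hσ : 0 < σ) {f : ι → ℝ → ℝ}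
    {b : ℝ → ℝ} (hf : ∀ i, Integrable fun y => lap σ y * f i y)
    (hb : Integrable fun y => lap σ y * b y) (h : ∀ y, ∑ i, |f i y| ≤ b y) :
    ∑ i, |∫ y, lap σ y * f i y| ≤ ∫ y, lap σ y * b y := by
  calc ∑ i, |∫ y, lap σ y * f i y| ≤ ∑ i, ∫ y, |lap σ y * f i y| :=
        Finset.sum_le_sum fun i _ => abs_integral_le_integral_abs
    _ = ∫ y, ∑ i, |lap σ y * f i y| := (integral_finsetSum _ fun i _ => (hf i).abs).symm
    _ ≤ _ := by
        refine integral_mono (integrable_finsetSum _ fun i _ => (hf i).abs) hb fun y => ?_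
        simp only [abs_mul, abs_of_pos (lap_pos hσ y), ← Finset.mul_sum]
        exact mul_le_mul_of_nonneg_left (h y) (lap_pos hσ y).le

theorem nonneg {C s : ℝ} {χ : ℝ → ℝ} (h : Nice C s χ) (hs : 0 < s) : 0 ≤ C :=
  nonneg_of_mul_nonneg_left ((abs_nonneg _).trans (h.le 0)) (lap_pos (by positivity) 0)

theorem bdd {C s : ℝ} {χ : ℝ → ℝ} (h : Nice C s χ) (hs : 0 < s) (y : ℝ) :
    |χ y| ≤ C * (1 / (2 * (8 * s))) :=
  (h.le y).trans ((le_abs_self _).trans (bdd_of_le (nonneg h hs) (by positivity) y))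

theorem sum_sub_cv_le {C s σ : ℝ} {χ : ℝ → ℝ} (h : Nice C s χ) (hσ : 1 ≤ σ) (hσs : σ ≤ s)
    {ι : Type} [Fintype ι] {x : ι → ℝ} (hx : Sep x) :
    ∑ i, |χ (x i) - cv σ χ (x i)| ≤ 2 * C * (σ / s) := by
  have hσ0 : 0 < σ := by linarith
  have hs : 0 < s := by linarith
  have hC := nonneg h hs
  have hl := prof_lap hσ0
  have hi : ∀ i, Integrable fun y => lap σ y * χ (x i - y) := fun i =>
    integrable_cv hσ0 h.meas (bdd h hs) (x i)
  have e : ∀ i, |χ (x i) - cv σ χ (x i)| = |∫ y, lap σ y * (χ (x i - y) - χ (x i))| := fun i => by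
    simp only [mul_sub]
    rw [integral_sub (hi i) (hl.intg.mul_const _), integral_mul_const, hl.int_one, one_mul,
      abs_sub_comm]
    rfl
  have e2 : (fun y => lap σ y * (C * (|y| + 1) / s)) =
      fun y => C / s * (lap σ y * |y| + lap σ y) := by
    ext y; ring
  simp only [e]
  refine (sum_abs_integral_le hσ0 (b := fun y => C * (|y| + 1) / s) (fun i => ?_) ?_
    (h.modulus ι x hx)).trans ?_
  · simp only [mul_sub]
    exact (hi i).sub (hl.intg.mul_const _)
  · rw [e2]
    exact ((integrable_lap_abs hσ0).add hl.intg).const_mul _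
  · rw [e2, integral_const_mul, integral_add (integrable_lap_abs hσ0) hl.intg,
      integral_lap_abs hσ0, hl.int_one]
    calc C / s * (σ + 1) ≤ C / s * (2 * σ) :=
          mul_le_mul_of_nonneg_left (by linarith) (by positivity)
      _ = 2 * C * (σ / s) := by ring

end NiceK

open NiceK

theorem Nice.add {C C' s : ℝ} {χ χ' : ℝ → ℝ} (h : Nice C s χ) (h' : Nice C' s χ') :
    Nice (C + C') s fun t => χ t + χ' t where
  meas := h.meas.add h'.meas
  odd t := by rw [h.odd, h'.odd]; ring
  le t := by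
    rw [add_mul]
    exact (abs_add_le _ _).trans (add_le_add (h.le t) (h'.le t))
  modulus ι _ x hx y := by
    rw [add_mul, add_div]
    refine le_trans ?_ (add_le_add (h.modulus ι x hx y) (h'.modulus ι x hx y))
    rw [← Finset.sum_add_distrib]
    refine Finset.sum_le_sum fun i _ => le_trans (le_of_eq ?_) (abs_add_le _ _)
    congr 1
    ring

theorem Nice.const_mul {C s : ℝ} {χ : ℝ → ℝ} (h : Nice C s χ) (hs : 0 < s) {c : ℝ}
    (hc : |c| ≤ 1) : Nice C s fun t => c * χ t where
  meas := h.meas.const_mul c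
  odd t := by rw [h.odd]; ring
  le t := by
    rw [abs_mul]
    exact (mul_le_of_le_one_left (abs_nonneg _) hc).trans (h.le t)
  modulus ι _ x hx y := by
    refine le_trans (Finset.sum_le_sum fun i _ => ?_) (h.modulus ι x hx y)
    rw [← mul_sub, abs_mul]
    exact mul_le_of_le_one_left (abs_nonneg _) hc

theorem Nice.fine {C s σ : ℝ} {χ : ℝ → ℝ} (h : Nice C s χ) (hσ : 1 ≤ σ) (hσs : σ ≤ s) :
    (∀ t, |χ t - cv σ (cv σ χ) t| ≤ 5 * C * lap (8 * s) t) ∧
      ∀ (ι : Type) [Fintype ι] (x : ι → ℝ), Sep x →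
        ∑ i, |χ (x i) - cv σ (cv σ χ) (x i)| ≤ 5 * C * (σ / s) := by
  have hσ0 : 0 < σ := by linarith
  have hs : 0 < s := by linarith
  have hC := nonneg h hs
  have h8 : 2 * σ ≤ 8 * s := by linarith
  refine ⟨fun t => ?_, fun ι _ x hx => ?_⟩
  · have h1 := abs_cv_le_two (by positivity) hσ0 h8 (abs_cv_le_two hC hσ0 h8 h.le) t
    have h2 := h.le t
    have h3 := abs_sub (χ t) (cv σ (cv σ χ) t)
    linarith
  · have hl := prof_lap hσ0
    have hi : ∀ i, Integrable fun y => lap σ y * χ (x i - y) := fun i =>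
      integrable_cv hσ0 h.meas (bdd h hs) (x i)
    have hi' : ∀ i, Integrable fun y => lap σ y * cv σ χ (x i - y) := fun i =>
      integrable_cv hσ0 (measurable_cv σ h.meas) (abs_cv_le_const hσ0 (bdd h hs)) (x i)
    have e : ∀ i, cv σ χ (x i) - cv σ (cv σ χ) (x i) =
        ∫ y, lap σ y * (χ (x i - y) - cv σ χ (x i - y)) := fun i => by
      simp only [mul_sub]
      rw [integral_sub (hi i) (hi' i)]
      rfl
    have h1 := sum_sub_cv_le h hσ hσs hx
    have h2 : ∑ i, |cv σ χ (x i) - cv σ (cv σ χ) (x i)| ≤ 2 * C * (σ / s) := by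
      simp only [e]
      refine (sum_abs_integral_le hσ0 (b := fun _ => 2 * C * (σ / s)) (fun i => ?_)
        (hl.intg.mul_const _) fun y => ?_).trans (le_of_eq ?_)
      · simp only [mul_sub]
        exact (hi i).sub (hi' i)
      · simpa only [sub_eq_add_neg] using sum_sub_cv_le h hσ hσs (hx.add_const (-y))
      · rw [integral_mul_const, hl.int_one, one_mul]
    have h3 : ∑ i, |χ (x i) - cv σ (cv σ χ) (x i)| ≤
        ∑ i, |χ (x i) - cv σ χ (x i)| + ∑ i, |cv σ χ (x i) - cv σ (cv σ χ) (x i)| := by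
      rw [← Finset.sum_add_distrib]
      exact Finset.sum_le_sum fun i _ => abs_sub_le _ _ _
    have h4 : 0 ≤ C * (σ / s) := by positivity
    linarith

theorem Nice.coarse {C s S : ℝ} {χ : ℝ → ℝ} (h : Nice C s χ) (hs : 1 ≤ s) (hS : 16 * s ≤ S)
    (t : ℝ) : |cv S (cv S χ) t| ≤ 64 * C * (s / S) * lap (2 * S) t := by
  have hs0 : 0 < s := by linarith
  have hS0 : 0 < S := by linarith
  have h8 : 0 < 8 * s := by linarith
  have hC := nonneg h hs0
  have hint : Integrable χ :=
    ((prof_lap h8).intg.const_mul C).mono' h.meas.aestronglyMeasurable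
      (Filter.Eventually.of_forall h.le)
  have h0 : ∫ y, χ y = 0 := by
    have h1 := integral_neg_eq_self χ volume
    simp only [h.odd, integral_neg] at h1
    linarith
  have h1 : ∀ u, |cv S χ u| ≤ 16 * C * (s / S) * lap S u := by
    intro u
    have hi : Integrable fun y => lap S (u - y) * χ y :=
      hint.bdd_mul (c := 1 / (2 * S))
        ((continuous_lap S).comp (continuous_const.sub continuous_id)).aestronglyMeasurable
        (Filter.Eventually.of_forall fun y => by
          rw [Real.norm_eq_abs, abs_of_pos (lap_pos hS0 _)]; exact lap_le hS0 _)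
    have e : cv S χ u = ∫ y, (lap S (u - y) - lap S u) * χ y := by
      simp only [sub_mul]
      rw [integral_sub hi (hint.const_mul _), integral_const_mul, h0, mul_zero, sub_zero,
        cv_eq_swap]
    have hab : 2 * (8 * s) ≤ S := by linarith
    have hb : Integrable fun y => lap (8 * s) y * (Real.exp (|y| / S) - 1) := by
      simp only [mul_sub, mul_one]
      exact (integrable_lap_exp h8 hab).sub (prof_lap h8).intg
    have hl := (lap_pos hS0 u).le
    rw [e, ← Real.norm_eq_abs]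
    refine (norm_integral_le_of_norm_le (hb.const_mul (C * lap S u))
      (Filter.Eventually.of_forall fun y => ?_)).trans ?_
    · rw [Real.norm_eq_abs, abs_mul]
      refine (mul_le_mul (abs_lap_shift_sub hS0 u y) (h.le y) (abs_nonneg _)
        ((abs_nonneg _).trans (abs_lap_shift_sub hS0 u y))).trans (le_of_eq ?_)
      ring
    · rw [integral_const_mul]
      refine (mul_le_mul_of_nonneg_left (integral_lap_exp_le h8 hab) (by positivity)).trans
        (le_of_eq ?_)
      ring
  refine (abs_cv_le_lap (by positivity) hS0 hS0 h1 t).trans ?_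
  refine (mul_le_mul_of_nonneg_left (cv_lap_le hS0 hS0 le_rfl le_rfl t) (by positivity)).trans
    (le_of_eq ?_)
  rw [max_self]
  field_simp
  ring

/-- One step of the telescoping in the smoothing scale. -/
theorem cv_telescope {a : ℝ} (ha : 0 < a) {χ : ℝ → ℝ} (hχ : Measurable χ) {B : ℝ}
    (hB : ∀ y, |χ y| ≤ B) (t : ℝ) :
    cv a (cv a χ) t - cv (2 * a) (cv (2 * a) χ) t =
      cv a (fun y => cv a χ y + cv (2 * a) χ y) t
        - cv (2 * a) (fun y => cv a χ y + cv (2 * a) χ y) t := by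
  have ha2 : 0 < 2 * a := by positivity
  rw [cv_add ha (measurable_cv a hχ) (measurable_cv _ hχ) (abs_cv_le_const ha hB)
      (abs_cv_le_const ha2 hB),
    cv_add ha2 (measurable_cv a hχ) (measurable_cv _ hχ) (abs_cv_le_const ha hB)
      (abs_cv_le_const ha2 hB), cv_comm ha ha2 hχ hB]
  ring

theorem abs_cv_add_le {α s a : ℝ} (hα : 0 ≤ α) (hs : 0 < s) (ha : 0 < a) {χ : ℝ → ℝ}
    (hχ : ∀ t, |χ t| ≤ α * lap (8 * s) t) (t : ℝ) :
    |cv a χ t + cv (2 * a) χ t| ≤ 64 * α * lap (16 * max s a) t := by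
  have h8 : 0 < 8 * s := by positivity
  have m1 := le_max_left s a
  have m2 := le_max_right s a
  have hl := (lap_pos (show 0 < 16 * max s a by linarith) t).le
  have key : ∀ b, a ≤ b → b ≤ 2 * a → |cv b χ t| ≤ 32 * α * lap (16 * max s a) t := by
    intro b h1 h2
    have hb : 0 < b := by linarith
    refine (abs_cv_le_lap hα hb h8 hχ t).trans ?_
    have h3 := cv_lap_le (S := 16 * max s a) hb h8 (by linarith) (by linarith) t
    have h4 : 16 * max s a / max b (8 * s) ≤ 16 := by
      rw [div_le_iff₀ (lt_max_of_lt_left hb)]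
      have : max s a ≤ max b (8 * s) :=
        max_le (le_max_of_le_right (by linarith)) (le_max_of_le_left h1)
      linarith
    have h5 : 2 * (16 * max s a / max b (8 * s)) * lap (16 * max s a) t ≤
        32 * lap (16 * max s a) t := mul_le_mul_of_nonneg_right (by linarith) hl
    refine (mul_le_mul_of_nonneg_left (h3.trans h5) hα).trans (le_of_eq ?_)
    ring
  have h1 := key a le_rfl (by linarith)
  have h2 := key (2 * a) (by linarith) le_rfl
  have h3 := abs_add_le (cv a χ t) (cv (2 * a) χ t)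
  linarith

end Crest.Agent.R72
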