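import Crest.Agent.R72.Max

set_option autoImplicit false

namespace Crest.Agent.R72

open Matrix MeasureTheory
open scoped ENNReal

namespace Tail

/-- The local weighted Hölder estimate. -/
theorem loc {ι : Type} [Fintype ι] (x : ι → ℝ) (g : ι → ℝ) (y : ℝ) (ρ : ι → ℝ) {S a β : ℝ}
    (hS : 1 ≤ S) (ha : 0 ≤ a) (hβ : 0 ≤ β) (h0 : ∀ i, 0 ≤ ρ i)
    (h1 : ∀ i, ρ i ≤ a * lap S (x i - y)) (h2 : ∑ i, ρ i ≤ a * β ^ 5) :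
    ∑ i, ρ i * g i ^ 2 ≤
      a * β * Mx x (fun i => (g i ^ 2) ^ (5 / 4 : ℝ)) y ^ (4 / 5 : ℝ) := by
  set G : ι → ℝ := fun i => (g i ^ 2) ^ (5 / 4 : ℝ) with hG
  have hG0 : ∀ i, 0 ≤ G i := fun i => by positivity
  have hM := Mx_nonneg x hG0 y
  have key := Real.inner_le_weight_mul_Lp_of_nonneg Finset.univ (p := 5 / 4) (by norm_num) ρ
    (fun i => g i ^ 2) h0 (fun i => sq_nonneg _)
  have h3 : ∑ i, ρ i * (g i ^ 2) ^ (5 / 4 : ℝ) ≤ a * Mx x G y := by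
    refine le_trans ?_ (mul_le_mul_of_nonneg_left (le_Mx x hG0 y hS) ha)
    rw [Finset.mul_sum]
    refine Finset.sum_le_sum fun i _ => ?_
    rw [← mul_assoc]
    exact mul_le_mul_of_nonneg_right (h1 i) (hG0 i)
  rw [show (1 - (5 / 4 : ℝ)⁻¹) = 1 / 5 by norm_num, show (5 / 4 : ℝ)⁻¹ = 4 / 5 by norm_num] at key
  refine key.trans ((mul_le_mul
    (Real.rpow_le_rpow (Finset.sum_nonneg fun i _ => h0 i) h2 (by norm_num))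
    (Real.rpow_le_rpow (Finset.sum_nonneg fun i _ => mul_nonneg (h0 i) (hG0 i)) h3 (by norm_num))
    (Real.rpow_nonneg (Finset.sum_nonneg fun i _ => mul_nonneg (h0 i) (hG0 i)) _)
    (by positivity)).trans (le_of_eq ?_))
  have e1 : (β ^ 5) ^ (1 / 5 : ℝ) = β := by
    rw [← Real.rpow_natCast, ← Real.rpow_mul hβ]; norm_num
  have e2 : a ^ (1 / 5 : ℝ) * a ^ (4 / 5 : ℝ) = a := by
    rw [← Real.rpow_add' ha (by norm_num)]; norm_num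
  rw [Real.mul_rpow ha (by positivity), Real.mul_rpow ha hM, e1]
  linear_combination (β * Mx x G y ^ (4 / 5 : ℝ)) * e2

theorem young {u M : ℝ} (hu : 0 ≤ u) (hM : 0 ≤ M) :
    u * M ^ (4 / 5 : ℝ) ≤ u ^ 3 + M ^ (6 / 5 : ℝ) := by
  have e1 : M ^ (4 / 5 : ℝ) = (M ^ (2 / 5 : ℝ)) ^ 2 := by
    rw [← Real.rpow_natCast, ← Real.rpow_mul hM]; norm_num
  have e2 : M ^ (6 / 5 : ℝ) = (M ^ (2 / 5 : ℝ)) ^ 3 := by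
    rw [← Real.rpow_natCast, ← Real.rpow_mul hM]; norm_num
  rw [e1, e2]
  have hv : 0 ≤ M ^ (2 / 5 : ℝ) := by positivity
  generalize M ^ (2 / 5 : ℝ) = v at hv
  rcases le_total u v with h | h
  · have : u * v ^ 2 ≤ v * v ^ 2 := mul_le_mul_of_nonneg_right h (sq_nonneg v)
    have : 0 ≤ u ^ 3 := by positivity
    nlinarith
  · have : u * v ^ 2 ≤ u * u ^ 2 := mul_le_mul_of_nonneg_left (pow_le_pow_left₀ hv h 2) hu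
    have : 0 ≤ v ^ 3 := by positivity
    nlinarith

theorem cube_eq (g : ℝ) : ((g ^ 2) ^ (5 / 4 : ℝ)) ^ (6 / 5 : ℝ) = |g| ^ 3 := by
  rw [← sq_abs, ← Real.rpow_natCast, ← Real.rpow_mul (abs_nonneg g),
    ← Real.rpow_mul (abs_nonneg g), ← Real.rpow_natCast]
  norm_num

theorem half : ∃ C : ℝ, 0 < C ∧
    ∀ (ι₀ ι₁ ι₂ : Type) [Fintype ι₀] [Fintype ι₁] [Fintype ι₂]
      (x₀ : ι₀ → ℝ) (x₁ : ι₁ → ℝ) (x₂ : ι₂ → ℝ), Sep x₀ → Sep x₂ →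
      ∀ (H : ι₀ → ι₁ → ℝ) (F : ι₁ → ι₂ → ℝ) (J : Type) [Fintype J]
        (ρ : J → ι₀ → ι₁ → ι₂ → ℝ) (S a : J → ι₀ → ι₁ → ℝ) (β ν : ℝ), 0 ≤ β → 0 ≤ ν →
        (∀ j i₀ i₁, 1 ≤ S j i₀ i₁) → (∀ j i₀ i₁, 0 ≤ a j i₀ i₁) →
        (∀ j i₀ i₁ i₂, 0 ≤ ρ j i₀ i₁ i₂) →
        (∀ j i₀ i₁ i₂, ρ j i₀ i₁ i₂ ≤ a j i₀ i₁ * lap (S j i₀ i₁) (x₀ i₀ + x₁ i₁ + x₂ i₂)) →
        (∀ j i₀ i₁, ∑ i₂, ρ j i₀ i₁ i₂ ≤ a j i₀ i₁ * β ^ 5) →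
        (∀ i₀ i₁, ∑ j, a j i₀ i₁ ≤ ν) →
        ∑ i₀, ∑ i₁, |H i₀ i₁| * ∑ j, ∑ i₂, ρ j i₀ i₁ i₂ * F i₁ i₂ ^ 2 ≤
          ν * β * (∑ i₀, ∑ i₁, |H i₀ i₁| ^ 3 + C * ∑ i₁, ∑ i₂, |F i₁ i₂| ^ 3) := by
  obtain ⟨C, hC, hmax⟩ := max_ineq (p := 6 / 5) (by norm_num)
  refine ⟨C, hC, ?_⟩
  intro ι₀ ι₁ ι₂ _ _ _ x₀ x₁ x₂ h₀ h₂ H F J _ ρ S a β ν hβ hν hS ha hρ0 hρ hρs haν
  set M : ι₀ → ι₁ → ℝ := fun i₀ i₁ =>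
    Mx x₂ (fun i => (F i₁ i ^ 2) ^ (5 / 4 : ℝ)) (-x₀ i₀ + -x₁ i₁) with hM
  have hM0 : ∀ i₀ i₁, 0 ≤ M i₀ i₁ := fun i₀ i₁ => Mx_nonneg _ (fun i => by positivity) _
  have h1 : ∀ i₀ i₁, |H i₀ i₁| * ∑ j, ∑ i₂, ρ j i₀ i₁ i₂ * F i₁ i₂ ^ 2 ≤
      ν * β * (|H i₀ i₁| ^ 3 + M i₀ i₁ ^ (6 / 5 : ℝ)) := by
    intro i₀ i₁
    have hp : 0 ≤ M i₀ i₁ ^ (4 / 5 : ℝ) := Real.rpow_nonneg (hM0 i₀ i₁) _
    have h2 : ∑ j, ∑ i₂, ρ j i₀ i₁ i₂ * F i₁ i₂ ^ 2 ≤ ν * β * M i₀ i₁ ^ (4 / 5 : ℝ) := by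
      calc ∑ j, ∑ i₂, ρ j i₀ i₁ i₂ * F i₁ i₂ ^ 2
          ≤ ∑ j, a j i₀ i₁ * β * M i₀ i₁ ^ (4 / 5 : ℝ) := by
            refine Finset.sum_le_sum fun j _ => loc x₂ (F i₁) _ (ρ j i₀ i₁) (hS j i₀ i₁)
              (ha j i₀ i₁) hβ (hρ0 j i₀ i₁) (fun i₂ => ?_) (hρs j i₀ i₁)
            rw [show x₂ i₂ - (-x₀ i₀ + -x₁ i₁) = x₀ i₀ + x₁ i₁ + x₂ i₂ by ring]
            exact hρ j i₀ i₁ i₂
        _ = (∑ j, a j i₀ i₁) * β * M i₀ i₁ ^ (4 / 5 : ℝ) := by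
            rw [Finset.sum_mul, Finset.sum_mul]
        _ ≤ _ := mul_le_mul_of_nonneg_right (mul_le_mul_of_nonneg_right (haν i₀ i₁) hβ) hp
    refine (mul_le_mul_of_nonneg_left h2 (abs_nonneg _)).trans ?_
    rw [mul_left_comm]
    exact mul_le_mul_of_nonneg_left (young (abs_nonneg _) (hM0 i₀ i₁)) (mul_nonneg hν hβ)
  refine (Finset.sum_le_sum fun i₀ _ => Finset.sum_le_sum fun i₁ _ => h1 i₀ i₁).trans ?_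
  simp only [← Finset.mul_sum, Finset.sum_add_distrib]
  refine mul_le_mul_of_nonneg_left (add_le_add le_rfl ?_) (mul_nonneg hν hβ)
  rw [Finset.sum_comm, Finset.mul_sum]
  refine Finset.sum_le_sum fun i₁ _ => ?_
  have := hmax ι₂ ι₀ x₂ (fun i₀ => -x₀ i₀ + -x₁ i₁) h₂ (h₀.neg.add_const _)
    (fun i => (F i₁ i ^ 2) ^ (5 / 4 : ℝ)) (fun i => by positivity)
  simpa only [cube_eq] using this

end Tail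

/-- The trivial estimate for kernels that are small in the mean. -/
theorem tail_bound : ∃ C : ℝ, 0 < C ∧
    ∀ (ι₀ ι₁ ι₂ : Type) [Fintype ι₀] [DecidableEq ι₀] [Fintype ι₁] [DecidableEq ι₁]
      [Fintype ι₂] [DecidableEq ι₂]
      (x₀ : ι₀ → ℝ) (x₁ : ι₁ → ℝ) (x₂ : ι₂ → ℝ), Sep x₀ → Sep x₁ → Sep x₂ →
      ∀ (H : Matrix ι₀ ι₁ ℝ) (F₁ : Matrix ι₁ ι₂ ℝ) (F₂ : Matrix ι₂ ι₀ ℝ) (J : Type) [Fintype J]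
        (r : J → ι₀ → ι₁ → ℝ → ℝ) (S a : J → ι₀ → ι₁ → ℝ) (β ν : ℝ), 0 ≤ β → 0 ≤ ν →
        (∀ j i₀ i₁, 1 ≤ S j i₀ i₁) → (∀ j i₀ i₁, 0 ≤ a j i₀ i₁) →
        (∀ j i₀ i₁ t, |r j i₀ i₁ t| ≤ a j i₀ i₁ * lap (S j i₀ i₁) t) →
        (∀ j i₀ i₁, ∑ i₂, |r j i₀ i₁ (x₀ i₀ + x₁ i₁ + x₂ i₂)| ≤ a j i₀ i₁ * β ^ 5) →
        (∀ i₀ i₁, ∑ j, a j i₀ i₁ ≤ ν) →
        |Form H F₁ F₂ x₀ x₁ x₂ fun i₀ i₁ t => ∑ j, r j i₀ i₁ t| ≤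
          C * ν * β * (cub H + cub F₁ + cub F₂) := by
  obtain ⟨C, hC, hh⟩ := Tail.half
  refine ⟨C + 2, by positivity, ?_⟩
  intro ι₀ ι₁ ι₂ _ _ _ _ _ _ x₀ x₁ x₂ h₀ h₁ h₂ H F₁ F₂ J _ r S a β ν hβ hν hS ha hr hrs haν
  have k1 := hh ι₀ ι₁ ι₂ x₀ x₁ x₂ h₀ h₂ H F₁ J
    (fun j i₀ i₁ i₂ => |r j i₀ i₁ (x₀ i₀ + x₁ i₁ + x₂ i₂)|) S a β ν hβ hν hS ha
    (fun _ _ _ _ => abs_nonneg _) (fun j i₀ i₁ i₂ => hr _ _ _ _) hrs haν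
  have k2 := hh ι₁ ι₀ ι₂ x₁ x₀ x₂ h₁ h₂ (fun i₁ i₀ => H i₀ i₁) (fun i₀ i₂ => F₂ i₂ i₀) J
    (fun j i₁ i₀ i₂ => |r j i₀ i₁ (x₀ i₀ + x₁ i₁ + x₂ i₂)|) (fun j i₁ i₀ => S j i₀ i₁)
    (fun j i₁ i₀ => a j i₀ i₁) β ν hβ hν (fun j i₁ i₀ => hS j i₀ i₁) (fun j i₁ i₀ => ha j i₀ i₁)
    (fun _ _ _ _ => abs_nonneg _)
    (fun j i₁ i₀ i₂ => by rw [add_comm (x₁ i₁)]; exact hr _ _ _ _)
    (fun j i₁ i₀ => hrs j i₀ i₁) (fun i₁ i₀ => haν i₀ i₁)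
  rw [Finset.sum_comm, Finset.sum_comm (f := fun i₁ i₀ => |H i₀ i₁| ^ 3),
    Finset.sum_comm (f := fun i₀ i₂ => |F₂ i₂ i₀| ^ 3)] at k2
  change _ ≤ ν * β * (cub H + C * cub F₁) at k1
  change _ ≤ ν * β * (cub H + C * cub F₂) at k2
  have c0 : 0 ≤ cub H := Finset.sum_nonneg fun _ _ => Finset.sum_nonneg fun _ _ => by positivity
  have c1 : 0 ≤ cub F₁ := Finset.sum_nonneg fun _ _ => Finset.sum_nonneg fun _ _ => by positivity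
  have c2 : 0 ≤ cub F₂ := Finset.sum_nonneg fun _ _ => Finset.sum_nonneg fun _ _ => by positivity
  have k3 : ν * β * (cub H + C * cub F₁) + ν * β * (cub H + C * cub F₂) ≤
      (C + 2) * ν * β * (cub H + cub F₁ + cub F₂) := by
    have : (cub H + C * cub F₁) + (cub H + C * cub F₂) ≤ (C + 2) * (cub H + cub F₁ + cub F₂) := by
      nlinarith [mul_nonneg hC.le c0]
    have := mul_le_mul_of_nonneg_left this (mul_nonneg hν hβ)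
    linarith
  refine le_trans ?_ ((add_le_add k1 k2).trans k3)
  unfold Form
  rw [← Finset.sum_add_distrib]
  refine (Finset.abs_sum_le_sum_abs _ _).trans (Finset.sum_le_sum fun i₀ _ => ?_)
  rw [← Finset.sum_add_distrib]
  refine (Finset.abs_sum_le_sum_abs _ _).trans (Finset.sum_le_sum fun i₁ _ => ?_)
  rw [← mul_add, ← Finset.sum_add_distrib]
  simp only [← Finset.sum_add_distrib]
  rw [Finset.sum_comm, Finset.mul_sum]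
  refine (Finset.abs_sum_le_sum_abs _ _).trans (Finset.sum_le_sum fun i₂ _ => ?_)
  simp only [← mul_add, ← Finset.sum_mul]
  rw [mul_assoc, mul_assoc, abs_mul]
  refine mul_le_mul_of_nonneg_left ?_ (abs_nonneg _)
  rw [← mul_assoc, abs_mul, mul_comm]
  refine mul_le_mul (Finset.abs_sum_le_sum_abs _ _) ?_ (abs_nonneg _)
    (Finset.sum_nonneg fun _ _ => abs_nonneg _)
  rw [abs_le]
  constructor <;> nlinarith [sq_nonneg (F₁ i₁ i₂ + F₂ i₂ i₀), sq_nonneg (F₁ i₁ i₂ - F₂ i₂ i₀)]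

end Crest.Agent.R72
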