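import Crest.Agent.R72.Sq
import Crest.Agent.R72.Tail
import Crest.Agent.R72.NiceK

set_option autoImplicit false

namespace Crest.Agent.R72

open Matrix MeasureTheory
open scoped ENNReal

section form

variable {ι₀ ι₁ ι₂ : Type} [Fintype ι₀] [Fintype ι₁] [Fintype ι₂]
  (H : Matrix ι₀ ι₁ ℝ) (F₁ : Matrix ι₁ ι₂ ℝ) (F₂ : Matrix ι₂ ι₀ ℝ) (x₀ : ι₀ → ℝ)
    (x₁ : ι₁ → ℝ) (x₂ : ι₂ → ℝ)

theorem Form_add' (K K' : ι₀ → ι₁ → ℝ → ℝ) :
    Form H F₁ F₂ x₀ x₁ x₂ (fun i₀ i₁ t => K i₀ i₁ t + K' i₀ i₁ t) =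
      Form H F₁ F₂ x₀ x₁ x₂ K + Form H F₁ F₂ x₀ x₁ x₂ K' := by
  simp only [Form, mul_add, Finset.sum_add_distrib]

theorem Form_const_mul' (c : ℝ) (K : ι₀ → ι₁ → ℝ → ℝ) :
    Form H F₁ F₂ x₀ x₁ x₂ (fun i₀ i₁ t => c * K i₀ i₁ t) = c * Form H F₁ F₂ x₀ x₁ x₂ K := by
  simp only [Form, Finset.mul_sum]
  refine Finset.sum_congr rfl fun _ _ => Finset.sum_congr rfl fun _ _ =>
    Finset.sum_congr rfl fun _ _ => by ring

theorem Form_sum' {J : Type} (s : Finset J) (K : J → ι₀ → ι₁ → ℝ → ℝ) :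
    Form H F₁ F₂ x₀ x₁ x₂ (fun i₀ i₁ t => ∑ j ∈ s, K j i₀ i₁ t) =
      ∑ j ∈ s, Form H F₁ F₂ x₀ x₁ x₂ (K j) := by
  classical
  induction s using Finset.induction_on with
  | empty => simp [Form]
  | insert a s ha ih =>
    simp only [Finset.sum_insert ha]
    rw [← ih, ← Form_add']

theorem Form_integral' (K : ℝ → ι₀ → ι₁ → ℝ → ℝ)
    (hK : ∀ i₀ i₁ t, IntervalIntegrable (fun v => K v i₀ i₁ t) volume 1 2) :
    Form H F₁ F₂ x₀ x₁ x₂ (fun i₀ i₁ t => ∫ v in (1 : ℝ)..2, K v i₀ i₁ t) =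
      ∫ v in (1 : ℝ)..2, Form H F₁ F₂ x₀ x₁ x₂ (K v) := by
  have hs : ∀ {J : Type} [Fintype J] (f : J → ℝ → ℝ),
      (∀ j, IntervalIntegrable (f j) volume 1 2) →
      IntervalIntegrable (fun v => ∑ j, f j v) volume 1 2 := by
    intro J _ f hf
    have := IntervalIntegrable.sum (μ := volume) (a := 1) (b := 2) Finset.univ
      (f := f) (fun j _ => hf j)
    rwa [Finset.sum_fn] at this
  simp only [Form]
  rw [intervalIntegral.integral_finsetSum]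
  · refine Finset.sum_congr rfl fun i₀ _ => ?_
    rw [intervalIntegral.integral_finsetSum]
    · refine Finset.sum_congr rfl fun i₁ _ => ?_
      rw [intervalIntegral.integral_finsetSum]
      · refine Finset.sum_congr rfl fun i₂ _ => ?_
        rw [intervalIntegral.integral_const_mul]
      · exact fun i₂ _ => (hK _ _ _).const_mul _
    · exact fun i₁ _ => hs _ fun i₂ => (hK _ _ _).const_mul _
  · exact fun i₀ _ => hs _ fun i₁ => hs _ fun i₂ => (hK _ _ _).const_mul _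

omit [Fintype ι₂] in
theorem cub_nonneg' : 0 ≤ cub H :=
  Finset.sum_nonneg fun _ _ => Finset.sum_nonneg fun _ _ => by positivity

end form

theorem Nice.nonneg' {C s : ℝ} {χ : ℝ → ℝ} (h : Nice C s χ) (hs : 0 < s) : 0 ≤ C := by
  have h1 := (abs_nonneg _).trans (h.le 0)
  have h2 := lap_pos (s := 8 * s) (by positivity) 0
  by_contra hc
  push Not at hc
  nlinarith

theorem Nice.bdd' {C s : ℝ} {χ : ℝ → ℝ} (h : Nice C s χ) (hs : 0 < s) (t : ℝ) :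
    |χ t| ≤ C * (1 / (2 * (8 * s))) :=
  (h.le t).trans (mul_le_mul_of_nonneg_left (lap_le (by positivity) t) (h.nonneg' hs))

/-- The estimate for sums of nice kernels over dyadic scales. -/
theorem short_bound : ∃ C : ℝ, 0 < C ∧
    ∀ (ι₀ ι₁ ι₂ : Type) [Fintype ι₀] [DecidableEq ι₀] [Fintype ι₁] [DecidableEq ι₁]
      [Fintype ι₂] [DecidableEq ι₂]
      (x₀ : ι₀ → ℝ) (x₁ : ι₁ → ℝ) (x₂ : ι₂ → ℝ), Sep x₀ → Sep x₁ → Sep x₂ →
      ∀ (H : Matrix ι₀ ι₁ ℝ) (F₁ : Matrix ι₁ ι₂ ℝ) (F₂ : Matrix ι₂ ι₀ ℝ) (l K : ℕ)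
        (χ : ℕ → ι₀ → ι₁ → ℝ → ℝ) (N A : ℕ → ι₀ → ι₁ → ℝ) (ν μ : ℝ), 1 ≤ l → 0 ≤ ν → 1 ≤ μ →
        (∀ q i₀ i₁, Nice (N q i₀ i₁) (2 * (2 ^ (5 * l) * 2 ^ q)) (χ q i₀ i₁)) →
        (∀ q i₀ i₁, 0 ≤ A q i₀ i₁) →
        (∀ q i₀ i₁ t, |χ q i₀ i₁ t| ≤ A q i₀ i₁ * lap (8 * (2 * (2 ^ (5 * l) * 2 ^ q))) t) →
        (∀ i₀ i₁, ∑ q ∈ Finset.range K, N q i₀ i₁ ≤ ν) →
        (∀ i₀ i₁, ∑ q ∈ Finset.range K, A q i₀ i₁ ^ 2 ≤ μ) →
        |Form H F₁ F₂ x₀ x₁ x₂ fun i₀ i₁ t => ∑ q ∈ Finset.range K, χ q i₀ i₁ t| ≤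
          C * (ν * (1 / 2) ^ l + l * √μ) * (cub H + cub F₁ + cub F₂) := by
  obtain ⟨C₁, hC₁, hsq⟩ := sq_bound
  obtain ⟨C₂, hC₂, htail⟩ := tail_bound
  refine ⟨133 * C₂ + 640 * C₁, by positivity, ?_⟩
  intro ι₀ ι₁ ι₂ _ _ _ _ _ _ x₀ x₁ x₂ h₀ h₁ h₂ H F₁ F₂ l K χ N A ν μ hl hν hμ hN hA hχA hNν hAμ
  set L : ℕ := 5 * l with hL
  set β : ℝ := (1 / 2) ^ l with hβ
  have hβ0 : 0 ≤ β := by positivity
  have hβ5 : β ^ 5 = (2 ^ L)⁻¹ := by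
    rw [hβ, ← pow_mul, mul_comm l 5, one_div, inv_pow]
  have hL16 : (16 : ℝ) ≤ 2 ^ L := by
    calc (16 : ℝ) = 2 ^ 4 := by norm_num
      _ ≤ 2 ^ L := pow_le_pow_right₀ (by norm_num) (by omega)
  have hcub : 0 ≤ cub H + cub F₁ + cub F₂ :=
    add_nonneg (add_nonneg (cub_nonneg' H) (cub_nonneg' F₁)) (cub_nonneg' F₂)
  set s : ℕ → ℝ := fun q => 2 * (2 ^ L * 2 ^ q) with hs
  have hq1 : ∀ q : ℕ, (1 : ℝ) ≤ 2 ^ q := fun q => one_le_pow₀ (by norm_num)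
  have hs0 : ∀ q, 0 < s q := fun q => by simp only [hs]; positivity
  have hs1 : ∀ q, 1 ≤ s q := fun q => by
    simp only [hs]; nlinarith [hq1 q, hq1 L, mul_le_mul hL16 (hq1 q) zero_le_one (by positivity)]
  have hN0 : ∀ q i₀ i₁, 0 ≤ N q i₀ i₁ := fun q i₀ i₁ => (hN q i₀ i₁).nonneg' (hs0 q)
  -- the smoothing scales
  set a : ℕ → ℕ → ℝ := fun i q => 2 ^ (i + 1) * 2 ^ q with ha
  have ha0 : ∀ i q, 0 < a i q := fun i q => by simp only [ha]; positivity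
  have hasucc : ∀ i q, a (i + 1) q = 2 * a i q := fun i q => by simp only [ha]; ring
  set T : ℕ → ℕ → ι₀ → ι₁ → ℝ → ℝ := fun i q i₀ i₁ => cv (a i q) (cv (a i q) (χ q i₀ i₁)) with hT
  have hsep : ∀ i₀ i₁, Sep fun i₂ => x₀ i₀ + x₁ i₁ + x₂ i₂ := fun i₀ i₁ => by
    have := h₂.add_const (x₀ i₀ + x₁ i₁)
    simpa only [add_comm (x₂ _)] using this
  have hdec : (fun i₀ i₁ t => ∑ q ∈ Finset.range K, χ q i₀ i₁ t) = fun i₀ i₁ t =>
      (∑ q : Fin K, (χ q i₀ i₁ t - T 0 q i₀ i₁ t) +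
        ∑ i ∈ Finset.range (2 * L), ∑ q ∈ Finset.range K, (T i q i₀ i₁ t - T (i + 1) q i₀ i₁ t)) +
        ∑ q : Fin K, T (2 * L) q i₀ i₁ t := by
    funext i₀ i₁ t
    rw [Finset.sum_comm, Fin.sum_univ_eq_sum_range (fun q => χ q i₀ i₁ t - T 0 q i₀ i₁ t) K,
      Fin.sum_univ_eq_sum_range (fun q => T (2 * L) q i₀ i₁ t) K, ← Finset.sum_add_distrib,
      ← Finset.sum_add_distrib]
    refine Finset.sum_congr rfl fun q _ => ?_
    rw [Finset.sum_range_sub' (fun i => T i q i₀ i₁ t)]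
    ring
  rw [hdec, Form_add', Form_add', Form_sum' _ _ _ _ _ _ (Finset.range (2 * L))]
  -- fine tail
  have hfine : |Form H F₁ F₂ x₀ x₁ x₂ fun i₀ i₁ t => ∑ q : Fin K, (χ q i₀ i₁ t - T 0 q i₀ i₁ t)| ≤
      C₂ * (5 * ν) * β * (cub H + cub F₁ + cub F₂) := by
    have hf : ∀ (q : ℕ) i₀ i₁, _ := fun q i₀ i₁ => (hN q i₀ i₁).fine (σ := a 0 q)
      (by simp only [ha, zero_add, pow_one]; nlinarith [hq1 q])
      (by simp only [ha, zero_add, pow_one]; nlinarith [hq1 q, hq1 L])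
    refine htail ι₀ ι₁ ι₂ x₀ x₁ x₂ h₀ h₁ h₂ H F₁ F₂ (Fin K)
      (fun q i₀ i₁ t => χ q i₀ i₁ t - T 0 q i₀ i₁ t) (fun q _ _ => 8 * s q)
      (fun q i₀ i₁ => 5 * N q i₀ i₁) β (5 * ν) hβ0 (by positivity)
      (fun q _ _ => by linarith [hs1 q]) (fun q i₀ i₁ => by linarith [hN0 q i₀ i₁])
      (fun q i₀ i₁ t => (hf q i₀ i₁).1 t) (fun q i₀ i₁ => ?_) (fun i₀ i₁ => ?_)
    · refine ((hf q i₀ i₁).2 ι₂ _ (hsep i₀ i₁)).trans (le_of_eq ?_)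
      rw [hβ5]
      simp only [ha]
      field_simp
      ring
    · rw [← Finset.mul_sum, Fin.sum_univ_eq_sum_range (fun q => N q i₀ i₁) K]
      linarith [hNν i₀ i₁]
  -- coarse tail
  have hcoarse : |Form H F₁ F₂ x₀ x₁ x₂ fun i₀ i₁ t => ∑ q : Fin K, T (2 * L) q i₀ i₁ t| ≤
      C₂ * (128 * ν) * β * (cub H + cub F₁ + cub F₂) := by
    have haS : ∀ q, a (2 * L) q = 2 ^ L * s q := fun q => by simp only [ha, hs]; ring
    have hrat : ∀ q, s q / a (2 * L) q = β ^ 5 := fun q => by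
      rw [haS, hβ5]; have := hs0 q; field_simp
    have hβ1 : β ^ 5 ≤ 1 := by
      rw [hβ5]; exact inv_le_one_of_one_le₀ (hq1 L)
    have hc : ∀ (q : ℕ) i₀ i₁ t, |T (2 * L) q i₀ i₁ t| ≤
        64 * N q i₀ i₁ * β ^ 5 * lap (2 * a (2 * L) q) t := fun q i₀ i₁ t => by
      rw [← hrat q]
      exact (hN q i₀ i₁).coarse (hs1 q) (by rw [haS]; nlinarith [hs0 q]) t
    have hS1 : ∀ q, 1 ≤ 2 * a (2 * L) q := fun q => by
      rw [haS]; nlinarith [hs1 q]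
    refine htail ι₀ ι₁ ι₂ x₀ x₁ x₂ h₀ h₁ h₂ H F₁ F₂ (Fin K)
      (fun q i₀ i₁ t => T (2 * L) q i₀ i₁ t) (fun q _ _ => 2 * a (2 * L) q)
      (fun q i₀ i₁ => 128 * N q i₀ i₁) β (128 * ν) hβ0 (by positivity)
      (fun q _ _ => hS1 q) (fun q i₀ i₁ => by linarith [hN0 q i₀ i₁])
      (fun q i₀ i₁ t => (hc q i₀ i₁ t).trans ?_) (fun q i₀ i₁ => ?_) (fun i₀ i₁ => ?_)
    · refine mul_le_mul_of_nonneg_right ?_ (lap_pos (by linarith [hS1 q]) t).le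
      nlinarith [hN0 q i₀ i₁]
    · refine (Finset.sum_le_sum fun i₂ _ => hc q i₀ i₁ _).trans ?_
      rw [← Finset.mul_sum]
      have h3 := sum_lap_le (hsep i₀ i₁) (hS1 q) 0
      simp only [sub_zero] at h3
      have h4 : 0 ≤ 64 * N q i₀ i₁ * β ^ 5 := by have := hN0 q i₀ i₁; positivity
      nlinarith
    · rw [← Finset.mul_sum, Fin.sum_univ_eq_sum_range (fun q => N q i₀ i₁) K]
      linarith [hNν i₀ i₁]
  -- middle terms
  have hmid : ∀ i : ℕ, |Form H F₁ F₂ x₀ x₁ x₂ fun i₀ i₁ t =>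
      ∑ q ∈ Finset.range K, (T i q i₀ i₁ t - T (i + 1) q i₀ i₁ t)| ≤
      C₁ * (64 * √μ) * (cub H + cub F₁ + cub F₂) := by
    intro i
    have hσ : (0 : ℝ) < 2 ^ (i + 1) := by positivity
    have key := hsq ι₀ ι₁ ι₂ x₀ x₁ x₂ h₀ h₁ h₂ H F₁ F₂ (2 ^ (i + 1))
      (16 * max (2 * 2 ^ L / 2 ^ (i + 1)) 1) K
      (fun q i₀ i₁ y => cv (a i q) (χ q i₀ i₁) y + cv (2 * a i q) (χ q i₀ i₁) y)
      (fun q i₀ i₁ => 64 * A q i₀ i₁) (64 ^ 2 * μ) (hq1 _)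
      (by linarith [le_max_right (2 * 2 ^ L / 2 ^ (i + 1) : ℝ) 1]) (by linarith)
      (fun q i₀ i₁ => (measurable_cv _ (hN q i₀ i₁).meas).add (measurable_cv _ (hN q i₀ i₁).meas))
      (fun q i₀ i₁ t => ?_) (fun i₀ i₁ => ?_)
    · rw [Real.sqrt_mul (by positivity), Real.sqrt_sq (by norm_num)] at key
      convert key using 3
      funext i₀ i₁ t
      refine Finset.sum_congr rfl fun q _ => ?_
      simp only [hT, hasucc]
      exact cv_telescope (ha0 i q) (hN q i₀ i₁).meas ((hN q i₀ i₁).bdd' (hs0 q)) t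
    · have h3 := abs_cv_add_le (hA q i₀ i₁) (hs0 q) (ha0 i q) (hχA q i₀ i₁) t
      convert h3 using 3
      simp only [hs, ha]
      rw [mul_assoc, max_mul_of_nonneg _ _ (by positivity)]
      congr 2
      · field_simp
      · ring
    · simp only [mul_pow]
      rw [← Finset.mul_sum]
      linarith [hAμ i₀ i₁]
  have hmid' : |∑ i ∈ Finset.range (2 * L), Form H F₁ F₂ x₀ x₁ x₂ fun i₀ i₁ t =>
      ∑ q ∈ Finset.range K, (T i q i₀ i₁ t - T (i + 1) q i₀ i₁ t)| ≤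
      (10 * l) * (C₁ * (64 * √μ) * (cub H + cub F₁ + cub F₂)) := by
    refine (Finset.abs_sum_le_sum_abs _ _).trans ((Finset.sum_le_sum fun i _ => hmid i).trans ?_)
    rw [Finset.sum_const, Finset.card_range, nsmul_eq_mul, hL]
    push_cast
    apply le_of_eq
    ring
  refine ((abs_add_le _ _).trans (add_le_add ((abs_add_le _ _).trans (add_le_add hfine hmid'))
    hcoarse)).trans ?_
  have e1 : 0 ≤ C₁ * (ν * β) * (cub H + cub F₁ + cub F₂) := by positivity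
  have e2 : 0 ≤ C₂ * (l * √μ) * (cub H + cub F₁ + cub F₂) := by positivity
  nlinarith

end Crest.Agent.R72
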