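import Crest.Agent.R72.Rho
import Crest.Agent.R72.DM1

set_option autoImplicit false

namespace Crest.Agent.R72

open Matrix MeasureTheory
open scoped ENNReal

/-- An annulus is active on the block `[b, 2 b]` if one of its radii lies there. -/
def Act (ε R b : ℝ) : Prop := (b ≤ ε ∧ ε ≤ 2 * b) ∨ (b ≤ R ∧ R ≤ 2 * b)

open Classical in
/-- The indicator of `Act`. -/
noncomputable def act (ε R b : ℝ) : ℝ := if Act ε R b then 1 else 0

theorem act_nonneg (ε R b : ℝ) : 0 ≤ act ε R b := by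
  unfold act; split_ifs <;> norm_num

theorem sum_block_le {B : ℝ} (hB : 0 < B) (x : ℝ) (K : ℕ) :
    ∑ q ∈ Finset.range K, (if B * 2 ^ q ≤ x ∧ x ≤ 2 * (B * 2 ^ q) then (1 : ℝ) else 0) ≤ 2 := by
  have h1 : ∀ q : ℕ, (if B * 2 ^ q ≤ x ∧ x ≤ 2 * (B * 2 ^ q) then (1 : ℝ) else 0) ≤
      ((if B * 2 ^ q ≤ x then (1 : ℝ) else 0) + (if B * 2 ^ q < x then (1 : ℝ) else 0)) -
      ((if B * 2 ^ (q + 1) ≤ x then (1 : ℝ) else 0) + (if B * 2 ^ (q + 1) < x then (1 : ℝ) else 0)) := by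
    intro q
    have h2 : B * 2 ^ (q + 1) = 2 * (B * 2 ^ q) := by ring
    have h3 : 0 < B * 2 ^ q := by positivity
    rw [h2]
    generalize B * 2 ^ q = b at h3 ⊢
    split_ifs <;> first | (norm_num; done) | (exfalso; grind)
  refine (Finset.sum_le_sum fun q _ => h1 q).trans ?_
  rw [Finset.sum_range_sub' (fun q => (if B * 2 ^ q ≤ x then (1 : ℝ) else 0) +
    (if B * 2 ^ q < x then (1 : ℝ) else 0))]
  split_ifs <;> norm_num

theorem sum_act_le {B : ℝ} (hB : 0 < B) (ε R : ℝ) (K : ℕ) :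
    ∑ q ∈ Finset.range K, act ε R (B * 2 ^ q) ≤ 4 := by
  have h1 : ∀ q : ℕ, act ε R (B * 2 ^ q) ≤
      (if B * 2 ^ q ≤ ε ∧ ε ≤ 2 * (B * 2 ^ q) then (1 : ℝ) else 0) +
      (if B * 2 ^ q ≤ R ∧ R ≤ 2 * (B * 2 ^ q) then (1 : ℝ) else 0) := by
    intro q
    unfold act Act
    split_ifs <;> first | (norm_num; done) | tauto
  refine (Finset.sum_le_sum fun q _ => h1 q).trans ?_
  rw [Finset.sum_add_distrib]
  linarith [sum_block_le hB ε K, sum_block_le hB R K]

theorem ind_eq_of_not_act {ε R b r : ℝ} (h : ¬ Act ε R b) (h₁ : b ≤ r) (h₂ : r ≤ 2 * b) :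
    (if ε < r ∧ r < R then (1 : ℝ) else 0) = if ε < b ∧ b < R then 1 else 0 := by
  simp only [Act, not_or, not_and, not_le] at h
  obtain ⟨ha, hb⟩ := h
  refine if_congr ⟨fun ⟨h3, h4⟩ => ⟨?_, by linarith⟩, fun ⟨h3, h4⟩ => ⟨by linarith, ?_⟩⟩ rfl rfl
  · by_contra h5
    have := ha (not_lt.1 h5)
    linarith
  · have := hb h4.le
    linarith

theorem abs_ind_sub_le (ε R : ℝ) {b : ℝ} (hb : 0 < b) :
    |(if ε < 2 * b ∧ 2 * b < R then (1 : ℝ) else 0) - if ε < b ∧ b < R then 1 else 0| ≤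
      act ε R b := by
  by_cases h : Act ε R b
  · simp only [act, if_pos h]
    split_ifs <;> norm_num
  · rw [ind_eq_of_not_act h (by linarith) le_rfl, sub_self, abs_zero]
    exact act_nonneg _ _ _

/-- The short kernel of a family of annuli on the block `[b, 2 b)`. -/
noncomputable def chi {n : ℕ} (ε R σ : Fin n → ℝ) (b t : ℝ) : ℝ :=
  (mult ε R σ |t| - mult ε R σ b) * (if b ≤ |t| ∧ |t| < 2 * b then 1 / t else 0) +
    (mult ε R σ (2 * b) - mult ε R σ b) * rho (2 * b) t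

theorem chi_eq_sum {n : ℕ} (ε R σ : Fin n → ℝ) (b t : ℝ) : chi ε R σ b t =
    ∑ j, σ j * (short (ε j) (R j) (2 * b) t +
      ((if ε j < 2 * b ∧ 2 * b < R j then (1 : ℝ) else 0) - if ε j < b ∧ b < R j then 1 else 0) *
        rho (2 * b) t) := by
  have h : 2 * b / 2 = b := by ring
  simp only [chi, mult, short, h, ← Finset.sum_sub_distrib, Finset.sum_mul,
    ← Finset.sum_add_distrib]
  refine Finset.sum_congr rfl fun j _ => by ring

theorem piece_eq_zero {ε R b : ℝ} (hb : 0 < b) (h : ¬ Act ε R b) (t : ℝ) :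
    short ε R (2 * b) t +
      ((if ε < 2 * b ∧ 2 * b < R then (1 : ℝ) else 0) - if ε < b ∧ b < R then 1 else 0) *
        rho (2 * b) t = 0 := by
  have h2 : 2 * b / 2 = b := by ring
  rw [ind_eq_of_not_act h (by linarith) le_rfl, sub_self, zero_mul, add_zero, short, h2]
  by_cases ht : b ≤ |t| ∧ |t| < 2 * b
  · rw [ind_eq_of_not_act h ht.1 ht.2.le, sub_self, zero_mul]
  · rw [if_neg ht, mul_zero]

theorem nice_zero (s : ℝ) : Nice 0 s fun _ => 0 :=
  ⟨measurable_const, fun _ => by simp, fun _ => by simp, fun _ _ _ _ _ => by simp⟩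

theorem nice_sum {J : Type} (S : Finset J) {s : ℝ} {C : J → ℝ} {χ : J → ℝ → ℝ}
    (h : ∀ j, Nice (C j) s (χ j)) : Nice (∑ j ∈ S, C j) s fun t => ∑ j ∈ S, χ j t := by
  classical
  induction S using Finset.induction_on with
  | empty => simpa using nice_zero s
  | insert a S ha ih =>
    simp only [Finset.sum_insert ha]
    exact (h a).add ih

theorem nice_chi : ∃ C : ℝ, 0 < C ∧ ∀ (n : ℕ) (ε R σ : Fin n → ℝ) (b : ℝ), 1 ≤ b →
    (∀ j, |σ j| ≤ 1) → Nice (∑ j, C * act (ε j) (R j) b) (2 * b) (chi ε R σ b) := by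
  obtain ⟨C₁, hC₁, h₁⟩ := nice_short
  obtain ⟨C₂, hC₂, h₂⟩ := nice_rho
  refine ⟨C₁ + C₂, by positivity, fun n ε R σ b hb hσ => ?_⟩
  have he : chi ε R σ b = fun t => _ := funext fun t => chi_eq_sum ε R σ b t
  rw [he]
  refine nice_sum _ fun j => ?_
  by_cases h : Act (ε j) (R j) b
  · simp only [act, if_pos h, mul_one]
    refine Nice.const_mul ?_ (by linarith) (hσ j)
    refine (h₁ _ _ _ (by linarith)).add (Nice.const_mul (h₂ _ (by linarith)) (by linarith) ?_)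
    split_ifs <;> norm_num
  · simp only [act, if_neg h, mul_zero, piece_eq_zero (by linarith) h]
    exact nice_zero _

open Classical in
theorem abs_chi_le : ∃ C : ℝ, 0 < C ∧ ∀ (n : ℕ) (ε R σ : Fin n → ℝ) (b : ℝ), 1 ≤ b →
    (∀ r, |mult ε R σ r| ≤ 1) → ∀ t, |chi ε R σ b t| ≤
      (if ∃ j, Act (ε j) (R j) b then C else 0) * lap (8 * (2 * b)) t := by
  obtain ⟨C₂, hC₂, h₂⟩ := nice_rho
  refine ⟨128 + 2 * C₂, by positivity, fun n ε R σ b hb hm t => ?_⟩
  split_ifs with h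
  · have h3 := abs_block_le (s := 2 * b) (by linarith) t
    have h4 := (h₂ (2 * b) (by linarith)).le t
    rw [show 2 * b / 2 = b by ring] at h3
    have h5 : ∀ r r', |mult ε R σ r - mult ε R σ r'| ≤ 2 := fun r r' =>
      (abs_sub _ _).trans (by linarith [hm r, hm r'])
    rw [chi]
    refine (abs_add_le _ _).trans ?_
    rw [abs_mul, abs_mul]
    have h6 := mul_le_mul (h5 |t| b) h3 (abs_nonneg _) (by norm_num)
    have h7 := mul_le_mul (h5 (2 * b) b) h4 (abs_nonneg _) (by norm_num)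
    linarith
  · push Not at h
    rw [chi_eq_sum, Finset.sum_eq_zero fun j _ => by
      rw [piece_eq_zero (by linarith) (h j), mul_zero]]
    simp

theorem abs_mult_sub_le {n : ℕ} (ε R σ : Fin n → ℝ) {b : ℝ} (hb : 0 < b) (hσ : ∀ j, |σ j| ≤ 1) :
    |mult ε R σ (2 * b) - mult ε R σ b| ≤ ∑ j, act (ε j) (R j) b := by
  simp only [mult, ← Finset.sum_sub_distrib, ← mul_sub]
  refine (Finset.abs_sum_le_sum_abs _ _).trans (Finset.sum_le_sum fun j _ => ?_)
  rw [abs_mul]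
  have := mul_le_mul (hσ j) (abs_ind_sub_le (ε j) (R j) hb) (abs_nonneg _) zero_le_one
  linarith

theorem sum_sum_act_le {n : ℕ} (ε R : Fin n → ℝ) {B : ℝ} (hB : 0 < B) (K : ℕ) :
    ∑ q ∈ Finset.range K, ∑ j, act (ε j) (R j) (B * 2 ^ q) ≤ 4 * n := by
  rw [Finset.sum_comm]
  refine (Finset.sum_le_sum fun j _ => sum_act_le hB (ε j) (R j) K).trans (le_of_eq ?_)
  simp [mul_comm]

theorem sum_blocks {B : ℝ} (hB : 0 < B) (K : ℕ) (r c : ℝ) :
    ∑ q ∈ Finset.range K, (if B * 2 ^ q ≤ r ∧ r < 2 * (B * 2 ^ q) then c else 0) =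
      if B ≤ r ∧ r < B * 2 ^ K then c else 0 := by
  induction K with
  | zero => simp
  | succ K ih =>
    rw [Finset.sum_range_succ, ih, show B * 2 ^ (K + 1) = 2 * (B * 2 ^ K) by ring]
    have h1 : B ≤ B * 2 ^ K := le_mul_of_one_le_right hB.le (one_le_pow₀ (by norm_num))
    generalize B * 2 ^ K = b at h1 ⊢
    split_ifs <;> first | (simp; done) | (exfalso; grind)

/-- The decomposition of the kernel into a long and a short part. -/
theorem kernel_eq {n : ℕ} (ε R σ : Fin n → ℝ) {B : ℝ} (hB : 0 < B) (K : ℕ) (hε : ∀ j, B ≤ ε j)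
    (hR : ∀ j, R j ≤ B * 2 ^ K) (t : ℝ) :
    mult ε R σ |t| / t =
      cphi⁻¹ * (∫ v in (1 : ℝ)..2,
        v⁻¹ * ∑ q ∈ Finset.range K, mult ε R σ (B * 2 ^ q) * phi (v * B * 2 ^ q) t) +
      ∑ q ∈ Finset.range K, chi ε R σ (B * 2 ^ q) t := by
  have hlo : ∀ r, r ≤ B → mult ε R σ r = 0 := fun r hr =>
    Finset.sum_eq_zero fun j _ => by
      rw [if_neg fun h => by linarith [h.1, hε j], mul_zero]
  have hhi : ∀ r, B * 2 ^ K ≤ r → mult ε R σ r = 0 := fun r hr =>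
    Finset.sum_eq_zero fun j _ => by
      rw [if_neg fun h => by linarith [h.2, hR j], mul_zero]
  have h1 : mult ε R σ |t| / t = ∑ q ∈ Finset.range K,
      mult ε R σ |t| * (if B * 2 ^ q ≤ |t| ∧ |t| < 2 * (B * 2 ^ q) then 1 / t else 0) := by
    rw [← Finset.mul_sum, sum_blocks hB]
    split_ifs with h
    · ring
    · rw [not_and_or, not_le, not_lt] at h
      rcases h with h | h
      · rw [hlo _ h.le]; simp
      · rw [hhi _ h]; simp
  have h2 : (∫ v in (1 : ℝ)..2,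
      v⁻¹ * ∑ q ∈ Finset.range K, mult ε R σ (B * 2 ^ q) * phi (v * B * 2 ^ q) t) =
      ∑ q ∈ Finset.range K, mult ε R σ (B * 2 ^ q) *
        ∫ v in (1 : ℝ)..2, phi (v * (B * 2 ^ q)) t / v := by
    simp only [← intervalIntegral.integral_const_mul]
    rw [← intervalIntegral.integral_finsetSum fun q _ =>
      (intervalIntegrable_phi (s := B * 2 ^ q) (by positivity) t).const_mul _]
    congr 1
    funext v
    rw [Finset.mul_sum]
    refine Finset.sum_congr rfl fun q _ => ?_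
    rw [mul_assoc v B]
    ring
  have h3 := Finset.sum_range_sub (fun q => mult ε R σ (B * 2 ^ q) * rho (B * 2 ^ q) t) K
  rw [hhi _ le_rfl, hlo (B * 2 ^ 0) (by simp)] at h3
  rw [h1, h2, Finset.mul_sum, ← Finset.sum_add_distrib, ← sub_eq_zero, ← Finset.sum_sub_distrib]
  simp only [zero_mul, sub_zero] at h3
  rw [← neg_eq_zero, ← Finset.sum_neg_distrib]
  refine Eq.trans (Finset.sum_congr rfl fun q _ => ?_) h3
  have h4 := block_eq (s := B * 2 ^ q) (by positivity) t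
  rw [chi, show B * 2 ^ (q + 1) = 2 * (B * 2 ^ q) by ring]
  linear_combination (-mult ε R σ (B * 2 ^ q)) * h4

end Crest.Agent.R72
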