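import Crest.Agent.R72.Long
import Crest.Agent.R72.DM2

set_option autoImplicit false

namespace Crest.Agent.R72

open Matrix MeasureTheory
open scoped ENNReal

theorem log_two_add_le (n : ℕ) (hn : 1 ≤ n) :
    1 ≤ Real.log (2 + n) ∧ ((Nat.log 2 n + 1 : ℕ) : ℝ) ≤ 3 * Real.log (2 + n) := by
  have hn' : (1 : ℝ) ≤ n := by exact_mod_cast hn
  have h1 : 1 ≤ Real.log (2 + n) := by
    rw [Real.le_log_iff_exp_le (by positivity)]
    linarith [Real.exp_one_lt_d9]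
  refine ⟨h1, ?_⟩
  have h2 : (2 : ℝ) ^ Nat.log 2 n ≤ 2 + n := by
    have : ((2 ^ Nat.log 2 n : ℕ) : ℝ) ≤ n := by
      exact_mod_cast Nat.pow_log_le_self 2 (by omega)
    push_cast at this
    linarith
  have h3 := Real.log_le_log (by positivity) h2
  rw [Real.log_pow] at h3
  have h4 := Real.log_two_gt_d9
  have h5 : (0 : ℝ) ≤ Nat.log 2 n := Nat.cast_nonneg _
  push_cast
  nlinarith

theorem mul_half_pow_le (n : ℕ) : (n : ℝ) * (1 / 2) ^ (Nat.log 2 n + 1) ≤ 1 := by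
  have h : (n : ℝ) ≤ 2 ^ (Nat.log 2 n + 1) := by
    exact_mod_cast (Nat.lt_pow_succ_log_self (by norm_num : 1 < 2) n).le
  rw [one_div, inv_pow, ← div_eq_mul_inv, div_le_one (by positivity)]
  exact h

/-- The discrete main theorem. -/
theorem discrete_main : ∃ C : ℝ, 0 < C ∧ ∀ n : ℕ, 1 ≤ n → ∃ lo : ℝ, 0 < lo ∧
    ∀ (ι₀ ι₁ ι₂ : Type) [Fintype ι₀] [DecidableEq ι₀] [Fintype ι₁] [DecidableEq ι₁]
      [Fintype ι₂] [DecidableEq ι₂]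
      (x₀ : ι₀ → ℝ) (x₁ : ι₁ → ℝ) (x₂ : ι₂ → ℝ), Sep x₀ → Sep x₁ → Sep x₂ →
      ∀ (H : Matrix ι₀ ι₁ ℝ) (F₁ : Matrix ι₁ ι₂ ℝ) (F₂ : Matrix ι₂ ι₀ ℝ)
        (ε R σ : ι₀ → ι₁ → Fin n → ℝ), (∀ i₀ i₁ j, lo ≤ ε i₀ i₁ j) →
        (∀ i₀ i₁ j, |σ i₀ i₁ j| ≤ 1) → (∀ i₀ i₁ r, |mult (ε i₀ i₁) (R i₀ i₁) (σ i₀ i₁) r| ≤ 1) →
        |Form H F₁ F₂ x₀ x₁ x₂ fun i₀ i₁ t => mult (ε i₀ i₁) (R i₀ i₁) (σ i₀ i₁) |t| / t| ≤
          C * (√n * Real.log (2 + n)) * (cub H + cub F₁ + cub F₂) := by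
  classical
  obtain ⟨C₁, hC₁, hlong⟩ := long_bound
  obtain ⟨C₂, hC₂, hshort⟩ := short_bound
  obtain ⟨C₃, hC₃, hnice⟩ := nice_chi
  obtain ⟨C₄, hC₄, habs⟩ := abs_chi_le
  refine ⟨|cphi⁻¹| * (C₁ * 2) + C₂ * (4 * C₃ + 3 * (2 * C₄ + 1)), by positivity, fun n hn => ?_⟩
  set l : ℕ := Nat.log 2 n + 1 with hl
  set B : ℝ := 2 ^ (5 * l) with hB
  have hB1 : 1 ≤ B := one_le_pow₀ (by norm_num)
  have hB0 : 0 < B := by linarith
  have hn' : (1 : ℝ) ≤ n := by exact_mod_cast hn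
  have hq1 : ∀ q : ℕ, 1 ≤ B * 2 ^ q := fun q =>
    one_le_mul_of_one_le_of_one_le hB1 (one_le_pow₀ (by norm_num))
  refine ⟨B, hB0, ?_⟩
  intro ι₀ ι₁ ι₂ _ _ _ _ _ _ x₀ x₁ x₂ h₀ h₁ h₂ H F₁ F₂ ε R σ hε hσ hm
  obtain ⟨K, hK⟩ : ∃ K : ℕ, ∀ i₀ i₁ j, R i₀ i₁ j ≤ B * 2 ^ K := by
    obtain ⟨M, hM⟩ := (Set.finite_range fun p : ι₀ × ι₁ × Fin n => R p.1 p.2.1 p.2.2).bddAbove
    obtain ⟨K, hK⟩ := pow_unbounded_of_one_lt M (by norm_num : (1 : ℝ) < 2)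
    refine ⟨K, fun i₀ i₁ j => (hM ⟨(i₀, i₁, j), rfl⟩).trans (hK.le.trans ?_)⟩
    exact le_mul_of_one_le_left (by positivity) hB1
  have hcub : 0 ≤ cub H + cub F₁ + cub F₂ :=
    add_nonneg (add_nonneg (cub_nonneg' H) (cub_nonneg' F₁)) (cub_nonneg' F₂)
  have hker : (fun i₀ i₁ t => mult (ε i₀ i₁) (R i₀ i₁) (σ i₀ i₁) |t| / t) = fun i₀ i₁ t => _ :=
    funext fun i₀ => funext fun i₁ => funext fun t =>
      kernel_eq (ε i₀ i₁) (R i₀ i₁) (σ i₀ i₁) hB0 K (hε i₀ i₁) (hK i₀ i₁) t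
  rw [hker, Form_add', Form_const_mul', Form_integral']
  swap
  · intro i₀ i₁ t
    have := IntervalIntegrable.sum (μ := volume) (a := 1) (b := 2) (Finset.range K)
      (f := fun q v => mult (ε i₀ i₁) (R i₀ i₁) (σ i₀ i₁) (B * 2 ^ q) * (phi (v * (B * 2 ^ q)) t / v))
      (fun q _ => (intervalIntegrable_phi (s := B * 2 ^ q) (by positivity) t).const_mul _)
    rw [Finset.sum_fn] at this
    refine this.congr fun v _ => ?_
    simp only [Finset.mul_sum]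
    refine Finset.sum_congr rfl fun q _ => ?_
    rw [mul_assoc v B]
    ring
  have hL : |∫ v in (1 : ℝ)..2, Form H F₁ F₂ x₀ x₁ x₂ fun i₀ i₁ t => v⁻¹ *
      ∑ q ∈ Finset.range K, mult (ε i₀ i₁) (R i₀ i₁) (σ i₀ i₁) (B * 2 ^ q) * phi (v * B * 2 ^ q) t| ≤
      C₁ * (2 * √n) * (cub H + cub F₁ + cub F₂) := by
    have := intervalIntegral.norm_integral_le_of_norm_le_const (a := 1) (b := 2)
      (C := C₁ * (2 * √n) * (cub H + cub F₁ + cub F₂))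
      (f := fun v => Form H F₁ F₂ x₀ x₁ x₂ fun i₀ i₁ t => v⁻¹ *
      ∑ q ∈ Finset.range K, mult (ε i₀ i₁) (R i₀ i₁) (σ i₀ i₁) (B * 2 ^ q) * phi (v * B * 2 ^ q) t)
      fun v hv => ?_
    · rw [Real.norm_eq_abs] at this
      refine this.trans (le_of_eq ?_)
      norm_num
    · rw [Set.uIoc_of_le (by norm_num)] at hv
      have hv1 : 1 ≤ v := hv.1.le
      have key := hlong ι₀ ι₁ ι₂ x₀ x₁ x₂ h₀ h₁ h₂ H F₁ F₂ (v * B) K
        (fun q i₀ i₁ => mult (ε i₀ i₁) (R i₀ i₁) (σ i₀ i₁) (B * 2 ^ q)) (4 * n)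
        (one_le_mul_of_one_le_of_one_le hv1 hB1) (by linarith) (fun q i₀ i₁ => hm _ _ _)
        fun i₀ i₁ => ?_
      · rw [Real.sqrt_mul (by norm_num), show √4 = 2 by
          rw [show (4 : ℝ) = 2 ^ 2 by norm_num, Real.sqrt_sq (by norm_num)]] at key
        rw [Form_const_mul', Real.norm_eq_abs, abs_mul, abs_of_pos (by positivity : 0 < v⁻¹)]
        exact (mul_le_of_le_one_left (abs_nonneg _) (inv_le_one_of_one_le₀ hv1)).trans key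
      · refine le_trans (Finset.sum_le_sum fun q _ => ?_) (sum_sum_act_le (ε i₀ i₁) (R i₀ i₁) hB0 K)
        rw [show B * 2 ^ (q + 1) = 2 * (B * 2 ^ q) by ring]
        exact abs_mult_sub_le _ _ _ (by positivity) (hσ i₀ i₁)
  have hS := hshort ι₀ ι₁ ι₂ x₀ x₁ x₂ h₀ h₁ h₂ H F₁ F₂ l K
    (fun q i₀ i₁ => chi (ε i₀ i₁) (R i₀ i₁) (σ i₀ i₁) (B * 2 ^ q))
    (fun q i₀ i₁ => ∑ j, C₃ * act (ε i₀ i₁ j) (R i₀ i₁ j) (B * 2 ^ q))
    (fun q i₀ i₁ => if ∃ j, Act (ε i₀ i₁ j) (R i₀ i₁ j) (B * 2 ^ q) then C₄ else 0)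
    (C₃ * (4 * n)) ((2 * C₄ + 1) ^ 2 * n) (by omega) (by positivity) (by nlinarith)
    (fun q i₀ i₁ => hnice n _ _ _ _ (hq1 q) (hσ i₀ i₁))
    (fun q i₀ i₁ => by split_ifs <;> positivity)
    (fun q i₀ i₁ t => habs n _ _ _ _ (hq1 q) (hm i₀ i₁) t) (fun i₀ i₁ => ?_) (fun i₀ i₁ => ?_)
  · rw [Real.sqrt_mul (by positivity), Real.sqrt_sq (by positivity)] at hS
    obtain ⟨hlog1, hlog2⟩ := log_two_add_le n hn
    have hβ := mul_half_pow_le n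
    rw [← hl] at hlog2 hβ
    have hsq1 : 1 ≤ √n := Real.one_le_sqrt.2 hn'
    set X := √n * Real.log (2 + n) with hX
    have hX1 : √n ≤ X := le_mul_of_one_le_right (by positivity) hlog1
    have e1 : C₁ * (2 * √n) ≤ C₁ * 2 * X := by nlinarith
    have e2 : C₃ * (4 * n) * (1 / 2) ^ l + l * ((2 * C₄ + 1) * √n) ≤
        (4 * C₃ + 3 * (2 * C₄ + 1)) * X := by
      have e3 : C₃ * (4 * n) * (1 / 2) ^ l ≤ 4 * C₃ * X := by nlinarith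
      have e4 : l * ((2 * C₄ + 1) * √n) ≤ 3 * (2 * C₄ + 1) * X := by
        have := mul_le_mul_of_nonneg_right hlog2 (by positivity : 0 ≤ (2 * C₄ + 1) * √n)
        rw [hX]
        linarith
      linarith
    refine (abs_add_le _ _).trans ?_
    rw [abs_mul]
    have e5 := mul_le_mul_of_nonneg_left
      (hL.trans (mul_le_mul_of_nonneg_right e1 hcub)) (abs_nonneg cphi⁻¹)
    have e6 := hS.trans (mul_le_mul_of_nonneg_right (mul_le_mul_of_nonneg_left e2 hC₂.le) hcub)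
    linarith
  · simp only [← Finset.mul_sum]
    exact mul_le_mul_of_nonneg_left (sum_sum_act_le (ε i₀ i₁) (R i₀ i₁) hB0 K) hC₃.le
  · have h3 := sum_sum_act_le (ε i₀ i₁) (R i₀ i₁) hB0 K
    have h4 : ∑ q ∈ Finset.range K,
        (if ∃ j, Act (ε i₀ i₁ j) (R i₀ i₁ j) (B * 2 ^ q) then C₄ else 0) ^ 2 ≤
        ∑ q ∈ Finset.range K, C₄ ^ 2 * ∑ j, act (ε i₀ i₁ j) (R i₀ i₁ j) (B * 2 ^ q) := by
      refine Finset.sum_le_sum fun q _ => ?_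
      have h5 : 0 ≤ ∑ j, act (ε i₀ i₁ j) (R i₀ i₁ j) (B * 2 ^ q) :=
        Finset.sum_nonneg fun j _ => act_nonneg _ _ _
      split_ifs with h
      · obtain ⟨j, hj⟩ := h
        have h6 := Finset.single_le_sum (f := fun j => act (ε i₀ i₁ j) (R i₀ i₁ j) (B * 2 ^ q))
          (fun j _ => act_nonneg _ _ _) (Finset.mem_univ j)
        simp only [act, if_pos hj] at h6
        exact le_mul_of_one_le_right (by positivity) h6
      · rw [zero_pow two_ne_zero]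
        positivity
    rw [← Finset.mul_sum] at h4
    nlinarith [mul_le_mul_of_nonneg_left h3 (sq_nonneg C₄)]

end Crest.Agent.R72
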