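import Mathlib

/-!
Definitions for row 72 (triangular Hilbert transform): matrix Bellman function, Laplace weights,
discrete trilinear forms.
-/

set_option autoImplicit false

namespace Crest.Agent.R72

open Matrix MeasureTheory
open scoped ENNReal

/-! ### Matrices -/

section matrices

variable {ι ι₀ ι₁ ι₂ : Type} [Fintype ι] [DecidableEq ι] [Fintype ι₀] [DecidableEq ι₀]
  [Fintype ι₁] [DecidableEq ι₁] [Fintype ι₂] [DecidableEq ι₂]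

open scoped MatrixOrder in
/-- The positive square root of a real matrix (zero if it is not positive semidefinite). -/
noncomputable def msq (P : Matrix ι ι ℝ) : Matrix ι ι ℝ := CFC.sqrt P

/-- `tr P^{3/2}`. -/
noncomputable def f32 (P : Matrix ι ι ℝ) : ℝ := (P * msq P).trace

/-- The symmetrised Bregman divergence of `tr P^{3/2}` (up to the factor `3/2`). -/
noncomputable def dl (P Q : Matrix ι ι ℝ) : ℝ := ((msq P - msq Q) * (P - Q)).trace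

/-- The dual form of the bound `‖A D B‖² ≤ g` in the Lyapunov norm of `|Aᵀ|` and `|B|`. -/
def Hyp (A : Matrix ι₀ ι₁ ℝ) (d : ι₁ → ℝ) (B : Matrix ι₁ ι₂ ℝ) (g : ℝ) : Prop :=
  ∀ W : Matrix ι₀ ι₂ ℝ, 2 * (Wᵀ * (A * diagonal d * B)).trace ≤
    g + (Wᵀ * msq (A * Aᵀ) * W).trace + (W * msq (Bᵀ * B) * Wᵀ).trace

/-- The matrix `√u F √v`. -/
noncomputable def wt (u : ι₀ → ℝ) (F : Matrix ι₀ ι₁ ℝ) (v : ι₁ → ℝ) : Matrix ι₀ ι₁ ℝ :=
  Matrix.of fun i j => √(u i) * F i j * √(v j)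

/-- `Aᵀ A` for `A = √u F √v`; linear in `u ≥ 0`. -/
noncomputable def Gram (F : Matrix ι₀ ι₁ ℝ) (u : ι₀ → ℝ) (v : ι₁ → ℝ) : Matrix ι₁ ι₁ ℝ :=
  (wt u F v)ᵀ * wt u F v

/-- `Aᵀ A + B Bᵀ` for `A = √u F √v`, `B = √v G √w`; linear in `(u, w)`. -/
noncomputable def Smat (F : Matrix ι₀ ι₁ ℝ) (G : Matrix ι₁ ι₂ ℝ) (u : ι₀ → ℝ) (v : ι₁ → ℝ)
    (w : ι₂ → ℝ) : Matrix ι₁ ι₁ ℝ :=
  Gram F u v + Gram Gᵀ w v

/-- `Y Yᵀ` for the stacked matrix `Y = [A; Bᵀ]`; linear in `v ≥ 0`. -/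
noncomputable def Pmat (F : Matrix ι₀ ι₁ ℝ) (G : Matrix ι₁ ι₂ ℝ) (u : ι₀ → ℝ) (v : ι₁ → ℝ)
    (w : ι₂ → ℝ) : Matrix (ι₀ ⊕ ι₂) (ι₀ ⊕ ι₂) ℝ :=
  fromRows (wt u F v) (wt w Gᵀ v) * (fromRows (wt u F v) (wt w Gᵀ v))ᵀ

/-- The interaction term of the Bellman function. -/
noncomputable def Psi (F : Matrix ι₀ ι₁ ℝ) (G : Matrix ι₁ ι₂ ℝ) (u : ι₀ → ℝ) (v : ι₁ → ℝ)
    (w : ι₂ → ℝ) : ℝ :=
  f32 (Smat F G u v w)

/-- The pure term of the Bellman function. -/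
noncomputable def Npure (F : Matrix ι₀ ι₁ ℝ) (u : ι₀ → ℝ) (v : ι₁ → ℝ) : ℝ := f32 (Gram F u v)

/-- Divergence in the middle weight. -/
noncomputable def dmid (F : Matrix ι₀ ι₁ ℝ) (G : Matrix ι₁ ι₂ ℝ) (u : ι₀ → ℝ) (v v' : ι₁ → ℝ)
    (w : ι₂ → ℝ) : ℝ :=
  dl (Pmat F G u v w) (Pmat F G u v' w)

/-- Divergence of the pure term in the left weight. -/
noncomputable def dout (F : Matrix ι₀ ι₁ ℝ) (u u' : ι₀ → ℝ) (v : ι₁ → ℝ) : ℝ :=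
  dl (Gram F u v) (Gram F u' v)

/-- The sum of the cubes of the entries. -/
def cub (F : Matrix ι₀ ι₁ ℝ) : ℝ := ∑ i, ∑ j, |F i j| ^ 3

end matrices

/-! ### Weights on the line -/

/-- The Laplace density of scale `s`. -/
noncomputable def lap (s y : ℝ) : ℝ := Real.exp (-(|y| / s)) / (2 * s)

/-- The Laplace law of scale `s`. -/
noncomputable def lapM (s : ℝ) : Measure ℝ :=
  volume.withDensity fun y => ENNReal.ofReal (lap s y)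

/-- The step law carrying `lap s` to `lap (2 s)`. -/
noncomputable def nu (s : ℝ) : Measure ℝ :=
  (1 / 4 : ℝ≥0∞) • Measure.dirac 0 + (3 / 4 : ℝ≥0∞) • lapM (2 * s)

/-- Averaging a function over translations. -/
noncomputable def cvm (ν : Measure ℝ) (W : ℝ → ℝ) (y : ℝ) : ℝ := ∫ h, W (y - h) ∂ν

/-- Convolution with the Laplace density. -/
noncomputable def cv (s : ℝ) (f : ℝ → ℝ) (t : ℝ) : ℝ := ∫ y, lap s y * f (t - y)

/-- The two-scale profile `lap S * lap σ`. -/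
noncomputable def lap2 (σ S : ℝ) : ℝ → ℝ := cv S (lap σ)

/-- Admissible weight profiles. -/
structure Prof (W : ℝ → ℝ) : Prop where
  cont : Continuous W
  pos : ∀ y, 0 < W y
  bdd : ∃ B, ∀ y, W y ≤ B
  intg : Integrable W
  int_one : ∫ y, W y = 1

/-- Admissible step laws. -/
structure StepLaw (ν : Measure ℝ) : Prop where
  prob : IsProbabilityMeasure ν
  symm : ν.map (fun h => -h) = ν
  atom : (1 / 4 : ℝ≥0∞) • Measure.dirac (0 : ℝ) ≤ ν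

/-- A family of points at mutual distance at least one. -/
def Sep {ι : Type} (x : ι → ℝ) : Prop := ∀ i j, i ≠ j → 1 ≤ |x i - x j|

/-- The profile `W` centred at `p`, sampled at the points `x`. -/
def ctr {ι : Type} (W : ℝ → ℝ) (x : ι → ℝ) (p : ℝ) : ι → ℝ := fun i => W (x i - p)

/-- The discrete maximal function over Laplace averages of scale at least one. -/
noncomputable def Mx {ι : Type} [Fintype ι] (x : ι → ℝ) (g : ι → ℝ) (y : ℝ) : ℝ :=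
  ⨆ s : {s : ℝ // 1 ≤ s}, ∑ i, lap s (x i - y) * g i

/-- The two-dimensional discrete maximal function. -/
noncomputable def Mx2 {ι ι' : Type} [Fintype ι] [Fintype ι'] (x : ι → ℝ) (x' : ι' → ℝ)
    (g : ι → ι' → ℝ) (y y' : ℝ) : ℝ :=
  ⨆ s : {s : ℝ // 1 ≤ s}, ∑ i, ∑ i', lap s (x i - y) * lap s (x' i' - y') * g i i'

/-! ### Integrated Bellman function -/

/-- Integration over the plane `p₀ + p₁ + p₂ = 0`. -/
noncomputable def IV (Φ : ℝ → ℝ → ℝ → ℝ≥0∞) : ℝ≥0∞ := ∫⁻ p : ℝ × ℝ, Φ p.1 p.2 (-p.1 - p.2)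

section integrated

variable {ι₀ ι₁ ι₂ : Type} [Fintype ι₀] [DecidableEq ι₀] [Fintype ι₁] [DecidableEq ι₁]
  [Fintype ι₂] [DecidableEq ι₂]

/-- The integrated interaction term. -/
noncomputable def Theta (F : Matrix ι₀ ι₁ ℝ) (G : Matrix ι₁ ι₂ ℝ) (x₀ : ι₀ → ℝ) (x₁ : ι₁ → ℝ)
    (x₂ : ι₂ → ℝ) (W₀ W₁ W₂ : ℝ → ℝ) : ℝ≥0∞ :=
  IV fun p₀ p₁ p₂ => ENNReal.ofReal (Psi F G (ctr W₀ x₀ p₀) (ctr W₁ x₁ p₁) (ctr W₂ x₂ p₂))

/-- The integrated pure term. -/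
noncomputable def NN (F : Matrix ι₀ ι₁ ℝ) (x₀ : ι₀ → ℝ) (x₁ : ι₁ → ℝ) (W₀ W₁ : ℝ → ℝ) : ℝ≥0∞ :=
  ∫⁻ p : ℝ × ℝ, ENNReal.ofReal (Npure F (ctr W₀ x₀ p.1) (ctr W₁ x₁ p.2))

/-- The gain of the interaction term from translations of the middle weight. -/
noncomputable def Gmid (ν : Measure ℝ) (F : Matrix ι₀ ι₁ ℝ) (G : Matrix ι₁ ι₂ ℝ) (x₀ : ι₀ → ℝ)
    (x₁ : ι₁ → ℝ) (x₂ : ι₂ → ℝ) (W₀ W₁ W₂ : ℝ → ℝ) : ℝ≥0∞ :=
  IV fun p₀ p₁ p₂ => ∫⁻ h, ENNReal.ofReal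
    (dmid F G (ctr W₀ x₀ p₀) (ctr W₁ x₁ (p₁ + h)) (ctr W₁ x₁ p₁) (ctr W₂ x₂ p₂)) ∂ν

/-- The gain of the interaction term between two middle profiles. -/
noncomputable def Gatom (F : Matrix ι₀ ι₁ ℝ) (G : Matrix ι₁ ι₂ ℝ) (x₀ : ι₀ → ℝ)
    (x₁ : ι₁ → ℝ) (x₂ : ι₂ → ℝ) (W₀ W₁ W₁' W₂ : ℝ → ℝ) : ℝ≥0∞ :=
  IV fun p₀ p₁ p₂ => ENNReal.ofReal
    (dmid F G (ctr W₀ x₀ p₀) (ctr W₁ x₁ p₁) (ctr W₁' x₁ p₁) (ctr W₂ x₂ p₂))

/-- The gain of the pure term from translations of the left weight. -/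
noncomputable def Gout (ν : Measure ℝ) (F : Matrix ι₀ ι₁ ℝ) (x₀ : ι₀ → ℝ) (x₁ : ι₁ → ℝ)
    (W₀ W₁ : ℝ → ℝ) : ℝ≥0∞ :=
  ∫⁻ p : ℝ × ℝ, ∫⁻ h, ENNReal.ofReal
    (dout F (ctr W₀ x₀ (p.1 + h)) (ctr W₀ x₀ p.1) (ctr W₁ x₁ p.2)) ∂ν

/-- The discrete trilinear form with a kernel depending on the first two indices. -/
def Form (H : Matrix ι₀ ι₁ ℝ) (F₁ : Matrix ι₁ ι₂ ℝ) (F₂ : Matrix ι₂ ι₀ ℝ) (x₀ : ι₀ → ℝ)
    (x₁ : ι₁ → ℝ) (x₂ : ι₂ → ℝ) (K : ι₀ → ι₁ → ℝ → ℝ) : ℝ :=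
  ∑ i₀, ∑ i₁, ∑ i₂, H i₀ i₁ * F₁ i₁ i₂ * F₂ i₂ i₀ * K i₀ i₁ (x₀ i₀ + x₁ i₁ + x₂ i₂)

end integrated

/-! ### Kernels -/

/-- The odd mean-zero bump attached to the Laplace weight. -/
noncomputable def psi (s y : ℝ) : ℝ :=
  ∫ h in (20 : ℝ)..21, (lap s (y - s * h) - lap s (y + s * h))

/-- The model kernel `psi * psi * psi`. -/
noncomputable def phi (s t : ℝ) : ℝ := ∫ p : ℝ × ℝ, psi s p.1 * psi s p.2 * psi s (t - p.1 - p.2)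

/-- The normalising constant of the model kernel. -/
noncomputable def cphi : ℝ := ∫ t in Set.Ioi (0 : ℝ), phi 1 t

/-- The difference between the hard and the smooth truncation of `1 / t` at radius `s`. -/
noncomputable def rho (s t : ℝ) : ℝ :=
  (if s ≤ |t| then 1 / t else 0) - cphi⁻¹ * ∫ u in Set.Ioi s, phi u t / u

/-- The radial multiplier of a family of annuli with coefficients. -/
noncomputable def mult {n : ℕ} (ε R σ : Fin n → ℝ) (r : ℝ) : ℝ :=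
  ∑ j, σ j * if ε j < r ∧ r < R j then 1 else 0

/-- Kernels of scale `s` and size `C`: measurable, of mean zero, with exponential decay and with
a lattice modulus of continuity. -/
structure Nice (C s : ℝ) (χ : ℝ → ℝ) : Prop where
  meas : Measurable χ
  odd : ∀ t, χ (-t) = -χ t
  le : ∀ t, |χ t| ≤ C * lap (8 * s) t
  modulus : ∀ (ι : Type) [Fintype ι] (x : ι → ℝ), Sep x → ∀ y : ℝ,
    ∑ i, |χ (x i - y) - χ (x i)| ≤ C * (|y| + 1) / s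

/-! ### The dyadic model -/

/-- The Haar sign of the dyadic interval of level `l ≥ 1` and index `n` at the integer `m`. -/
def hs (l n m : ℕ) : ℝ :=
  if m / 2 ^ l = n then (if m / 2 ^ (l - 1) % 2 = 0 then 1 else -1) else 0

/-- The discrete local form. -/
noncomputable def dloc (L : ℕ) (F₀ F₁ F₂ : Matrix (Fin (2 ^ L)) (Fin (2 ^ L)) ℝ)
    (l n₀ n₁ : ℕ) : ℝ :=
  ((2 : ℝ) ^ l)⁻¹ * ∑ m₀, ∑ m₁, ∑ m₂,
    F₀ m₀ m₁ * F₁ m₁ m₂ * F₂ m₂ m₀ * (hs l n₀ m₀ * hs l n₁ m₁ * hs l (n₀ ^^^ n₁) m₂)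

end Crest.Agent.R72
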