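import Crest.Agent.R72.Mat

set_option autoImplicit false
set_option linter.unusedSectionVars false
set_option linter.unusedVariables false

namespace Crest.Agent.R72

open Matrix MeasureTheory
open scoped ENNReal

variable {ι ι₀ ι₁ ι₂ : Type} [Fintype ι] [DecidableEq ι] [Fintype ι₀] [DecidableEq ι₀]
  [Fintype ι₁] [DecidableEq ι₁] [Fintype ι₂] [DecidableEq ι₂]

namespace TriAux

/-- Orthogonal diagonalisation of a positive semidefinite real matrix. -/
theorem exists_diag {P : Matrix ι ι ℝ} (hP : P.PosSemidef) :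
    ∃ (V : Matrix ι ι ℝ) (a : ι → ℝ), Vᵀ * V = 1 ∧ V * Vᵀ = 1 ∧ (∀ i, 0 ≤ a i) ∧
      P = V * diagonal a * Vᵀ := by
  refine ⟨(hP.1.eigenvectorUnitary : Matrix ι ι ℝ), hP.1.eigenvalues, ?_, ?_,
    hP.eigenvalues_nonneg, ?_⟩
  · have := hP.1.eigenvectorUnitary.2.1
    simpa [star_eq_conjTranspose] using this
  · have := hP.1.eigenvectorUnitary.2.2
    simpa [star_eq_conjTranspose] using this
  · have := hP.1.spectral_theorem
    simpa [Unitary.conjStarAlgAut_apply, star_eq_conjTranspose] using this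

/-- Diagonalisation of `|A|`. -/
theorem exists_diag_abs (A : Matrix ι₀ ι₁ ℝ) :
    ∃ (V : Matrix ι₁ ι₁ ℝ) (a : ι₁ → ℝ), Vᵀ * V = 1 ∧ V * Vᵀ = 1 ∧ (∀ i, 0 ≤ a i) ∧
      msq (Aᵀ * A) = V * diagonal a * Vᵀ ∧
      Vᵀ * (Aᵀ * A) * V = diagonal fun i => a i ^ 2 := by
  obtain ⟨V, a, h1, h2, h3, h4⟩ := exists_diag (msq_psd (Aᵀ * A))
  refine ⟨V, a, h1, h2, h3, h4, ?_⟩
  have hp : (Aᵀ * A).PosSemidef := by
    simpa using posSemidef_conjTranspose_mul_self A
  rw [← msq_mul_self hp, h4]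
  calc Vᵀ * (V * diagonal a * Vᵀ * (V * diagonal a * Vᵀ)) * V
      = (Vᵀ * V) * diagonal a * (Vᵀ * V) * diagonal a * (Vᵀ * V) := by
        simp only [Matrix.mul_assoc]
    _ = _ := by
        rw [h1]
        simp [diagonal_mul_diagonal, sq]

theorem trace_transpose_mul (X Y : Matrix ι₁ ι₂ ℝ) :
    (Xᵀ * Y).trace = ∑ i, ∑ j, X i j * Y i j := by
  simp only [trace, diag, mul_apply, transpose_apply]
  exact Finset.sum_comm

theorem trace_transpose_diag_mul (X Y : Matrix ι₁ ι₂ ℝ) (a : ι₁ → ℝ) :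
    (Xᵀ * (diagonal a * Y)).trace = ∑ i, ∑ j, X i j * (a i * Y i j) := by
  rw [trace_transpose_mul]
  simp [diagonal_mul]

/-- The energy bound contained in `Hyp`. -/
theorem energy {A : Matrix ι₀ ι₁ ℝ} {B : Matrix ι₁ ι₂ ℝ} {d : ι₁ → ℝ} {g : ℝ} (h : Hyp A d B g)
    {V : Matrix ι₁ ι₁ ℝ} {a : ι₁ → ℝ} (hV : Vᵀ * V = 1) (ha : ∀ i, 0 ≤ a i)
    (hA : msq (Aᵀ * A) = V * diagonal a * Vᵀ)
    (hA2 : Vᵀ * (Aᵀ * A) * V = diagonal fun i => a i ^ 2)
    {U : Matrix ι₂ ι₂ ℝ} {b : ι₂ → ℝ} (hU : Uᵀ * U = 1) (hb : ∀ i, 0 ≤ b i)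
    (hB : msq (Bᵀ * B) = U * diagonal b * Uᵀ) (hV' : V * Vᵀ = 1) :
    ∑ i, ∑ j, a i ^ 2 * (Vᵀ * diagonal d * B * U) i j ^ 2 / (a i + b j) ≤ g := by
  set N := Vᵀ * diagonal d * B * U with hN
  set Ω : Matrix ι₁ ι₂ ℝ := Matrix.of fun i j => N i j / (a i + b j) with hΩ
  have key := h (A * V * Ω * Uᵀ)
  have e1 : ((A * V * Ω * Uᵀ)ᵀ * (A * diagonal d * B)).trace =
      ∑ i, ∑ j, Ω i j * (a i ^ 2 * N i j) := by
    rw [← trace_transpose_diag_mul, ← hA2, hN]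
    calc ((A * V * Ω * Uᵀ)ᵀ * (A * diagonal d * B)).trace
        = (U * (Ωᵀ * Vᵀ * Aᵀ * A * (V * Vᵀ) * diagonal d * B)).trace := by
          rw [hV']
          simp only [transpose_mul, transpose_transpose, Matrix.mul_assoc, Matrix.mul_one,
            Matrix.one_mul]
      _ = _ := by
          rw [trace_mul_comm]
          simp only [Matrix.mul_assoc]
  have e2 : ((A * V * Ω * Uᵀ)ᵀ * msq (A * Aᵀ) * (A * V * Ω * Uᵀ)).trace =
      ∑ i, ∑ j, Ω i j * (a i ^ 3 * Ω i j) := by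
    rw [← trace_transpose_diag_mul]
    have h3 : Vᵀ * (Aᵀ * (msq (A * Aᵀ) * A)) * V = diagonal fun i => a i ^ 3 := by
      rw [msq_intertwine, hA]
      calc Vᵀ * (Aᵀ * (A * (V * diagonal a * Vᵀ))) * V
          = (Vᵀ * (Aᵀ * A) * V) * diagonal a * (Vᵀ * V) := by simp only [Matrix.mul_assoc]
        _ = _ := by
          rw [hA2, hV]
          simp [diagonal_mul_diagonal, pow_succ]
    rw [← h3]
    calc ((A * V * Ω * Uᵀ)ᵀ * msq (A * Aᵀ) * (A * V * Ω * Uᵀ)).trace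
        = (U * (Ωᵀ * (Vᵀ * (Aᵀ * (msq (A * Aᵀ) * A)) * V * Ω) * Uᵀ)).trace := by
          simp only [transpose_mul, transpose_transpose, Matrix.mul_assoc]
      _ = _ := by
          rw [trace_mul_comm, Matrix.mul_assoc, hU, Matrix.mul_one]
  have e3 : ((A * V * Ω * Uᵀ) * msq (Bᵀ * B) * (A * V * Ω * Uᵀ)ᵀ).trace =
      ∑ i, ∑ j, Ω i j * b j * (a i ^ 2 * Ω i j) := by
    have : ∑ i, ∑ j, Ω i j * b j * (a i ^ 2 * Ω i j) =
        ((Ω * diagonal b)ᵀ * (diagonal (fun i => a i ^ 2) * Ω)).trace := by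
      rw [trace_transpose_diag_mul]
      simp [mul_diagonal]
    rw [this, ← hA2, hB, ← trace_transpose]
    calc ((A * V * Ω * Uᵀ) * (U * diagonal b * Uᵀ) * (A * V * Ω * Uᵀ)ᵀ)ᵀ.trace
        = ((A * V * Ω) * ((Uᵀ * U) * diagonal b * (Uᵀ * U) * Ωᵀ * Vᵀ * Aᵀ)).trace := by
          simp only [transpose_mul, transpose_transpose, Matrix.mul_assoc, diagonal_transpose]
      _ = _ := by
          rw [hU, trace_mul_comm]
          simp only [transpose_mul, Matrix.mul_assoc, diagonal_transpose, Matrix.one_mul]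
  rw [e1, e2, e3] at key
  have e4 : ∀ i j, a i ^ 2 * N i j ^ 2 / (a i + b j) =
      2 * (Ω i j * (a i ^ 2 * N i j)) - Ω i j * (a i ^ 3 * Ω i j) -
        Ω i j * b j * (a i ^ 2 * Ω i j) := by
    intro i j
    simp only [hΩ, of_apply]
    rcases eq_or_ne (a i + b j) 0 with h0 | h0
    · simp [h0]
    · field_simp
      ring
  simp only [e4, Finset.sum_sub_distrib, ← Finset.mul_sum]
  linarith

/-- The bound on the middle factor. -/
theorem middle {C : Matrix ι₂ ι₀ ℝ} {d : ι₂ → ℝ} {κ : ℝ} (hκ : 0 ≤ κ) (hd : ∀ i, |d i| ≤ κ)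
    {U : Matrix ι₂ ι₂ ℝ} (hU : Uᵀ * U = 1) {V : Matrix ι₀ ι₀ ℝ} {c : ι₀ → ℝ}
    (hC : Vᵀ * (Cᵀ * C) * V = diagonal fun i => c i ^ 2) (ξ : ι₂ → ℝ) (η : ι₀ → ℝ) :
    |∑ j, ∑ k, ξ j * (Uᵀ * diagonal d * C * V) j k * η k| ≤
      κ * (√(∑ j, ξ j ^ 2) * √(∑ k, c k ^ 2 * η k ^ 2)) := by
  set x := U *ᵥ ξ with hx
  set y := (C * V) *ᵥ η with hy
  have e1 : ∑ j, ∑ k, ξ j * (Uᵀ * diagonal d * C * V) j k * η k = ∑ j, x j * d j * y j := by
    have : ∑ j, ∑ k, ξ j * (Uᵀ * diagonal d * C * V) j k * η k =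
        ξ ⬝ᵥ ((Uᵀ * diagonal d * C * V) *ᵥ η) := by
      simp only [dotProduct, mulVec, Finset.mul_sum, mul_assoc]
    rw [this, Matrix.mul_assoc, Matrix.mul_assoc, ← mulVec_mulVec, dotProduct_mulVec,
      vecMul_transpose, ← mulVec_mulVec, ← hx, ← hy]
    simp [dotProduct, mulVec_diagonal, mul_assoc]
  have e2 : ∑ j, x j ^ 2 = ∑ j, ξ j ^ 2 := by
    have : x ⬝ᵥ x = ξ ⬝ᵥ ξ := by
      rw [hx, dotProduct_mulVec, ← vecMul_transpose, vecMul_vecMul, hU, vecMul_one]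
    simpa [dotProduct, sq] using this
  have e3 : ∑ j, y j ^ 2 = ∑ k, c k ^ 2 * η k ^ 2 := by
    have : y ⬝ᵥ y = η ⬝ᵥ (diagonal (fun i => c i ^ 2) *ᵥ η) := by
      rw [← hC, hy, dotProduct_mulVec, ← vecMul_transpose, vecMul_vecMul, dotProduct_mulVec]
      simp only [transpose_mul, Matrix.mul_assoc]
    simp only [dotProduct, mulVec_diagonal] at this
    simp only [sq]
    rw [this]
    exact Finset.sum_congr rfl fun k _ => by ring
  rw [e1, ← e2, ← e3]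
  calc |∑ j, x j * d j * y j| ≤ ∑ j, κ * (|x j| * |y j|) := by
        refine (Finset.abs_sum_le_sum_abs _ _).trans (Finset.sum_le_sum fun j _ => ?_)
        rw [abs_mul, abs_mul]
        have := hd j
        have h1 := abs_nonneg (x j)
        have h2 := abs_nonneg (y j)
        nlinarith [mul_nonneg h1 h2]
    _ ≤ _ := by
        rw [← Finset.mul_sum]
        refine mul_le_mul_of_nonneg_left ?_ hκ
        simpa [sq_abs] using
          Real.sum_mul_le_sqrt_mul_sqrt Finset.univ (fun j => |x j|) (fun j => |y j|)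

omit [DecidableEq ι₀] [DecidableEq ι₁] [DecidableEq ι₂] in
/-- One of the three regions. -/
theorem region (N₁ : Matrix ι₁ ι₂ ℝ) (N₂ : Matrix ι₂ ι₀ ℝ) (N₀ : Matrix ι₀ ι₁ ℝ)
    {a : ι₁ → ℝ} {b : ι₂ → ℝ} {c : ι₀ → ℝ} (ha : ∀ i, 0 ≤ a i) (hb : ∀ i, 0 ≤ b i)
    (hc : ∀ i, 0 ≤ c i) {κ : ℝ} (hκ : 0 ≤ κ)
    (hN : ∀ (ξ : ι₂ → ℝ) (η : ι₀ → ℝ), |∑ j, ∑ k, ξ j * N₂ j k * η k| ≤
      κ * (√(∑ j, ξ j ^ 2) * √(∑ k, c k ^ 2 * η k ^ 2)))
    (P : ι₁ → ι₂ → Prop) (Q : ι₀ → ι₁ → Prop) [∀ i j, Decidable (P i j)]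
    [∀ i j, Decidable (Q i j)] (hP : ∀ i j, P i j → b j ≤ a i) (hQ : ∀ k i, Q k i → c k ≤ a i) :
    |∑ i, ∑ j, ∑ k, (if P i j then N₁ i j else 0) * N₂ j k * (if Q k i then N₀ k i else 0)| ≤
      κ * ((∑ i, ∑ j, if P i j then a i ^ 2 * N₁ i j ^ 2 / (a i + b j) else 0) +
        ∑ k, ∑ i, if Q k i then c k ^ 2 * N₀ k i ^ 2 / (c k + a i) else 0) := by
  rw [Finset.sum_comm (f := fun k i => if Q k i then c k ^ 2 * N₀ k i ^ 2 / (c k + a i) else 0),
    ← Finset.sum_add_distrib, Finset.mul_sum]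
  refine (Finset.abs_sum_le_sum_abs _ _).trans (Finset.sum_le_sum fun i _ => ?_)
  refine (hN _ _).trans (mul_le_mul_of_nonneg_left ?_ hκ)
  set X := ∑ j, (if P i j then N₁ i j else 0) ^ 2 with hX
  set Y := ∑ k, c k ^ 2 * (if Q k i then N₀ k i else 0) ^ 2 with hY
  have hX0 : 0 ≤ X := Finset.sum_nonneg fun _ _ => sq_nonneg _
  have hY0 : 0 ≤ Y := Finset.sum_nonneg fun _ _ => by positivity
  rcases (ha i).eq_or_lt with h0 | h0
  · have : Y = 0 := by
      refine Finset.sum_eq_zero fun k _ => ?_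
      split_ifs with hq
      · have : c k = 0 := le_antisymm (h0 ▸ hQ k i hq) (hc k)
        simp [this]
      · simp
    rw [this, Real.sqrt_zero, mul_zero]
    refine add_nonneg (Finset.sum_nonneg fun j _ => ?_) (Finset.sum_nonneg fun k _ => ?_)
    · split_ifs
      · have := hb j
        have := ha i
        positivity
      · exact le_rfl
    · split_ifs
      · have := hc k
        have := ha i
        positivity
      · exact le_rfl
  · have h1 : √X * √Y ≤ a i * X / 2 + Y / a i / 2 := by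
      have hx := Real.sq_sqrt hX0
      have hy := Real.sq_sqrt hY0
      have : a i * X / 2 + Y / a i / 2 - √X * √Y = (a i * √X - √Y) ^ 2 / (2 * a i) := by
        field_simp
        nlinarith
      have h2 : 0 ≤ (a i * √X - √Y) ^ 2 / (2 * a i) := by positivity
      linarith
    refine h1.trans (add_le_add ?_ ?_)
    · rw [hX, Finset.mul_sum, Finset.sum_div]
      refine Finset.sum_le_sum fun j _ => ?_
      split_ifs with hp
      · have h2 := hP i j hp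
        have h3 := hb j
        rw [div_le_div_iff₀ (by norm_num) (by linarith)]
        have := mul_nonneg (mul_nonneg h0.le (sq_nonneg (N₁ i j))) (sub_nonneg.2 h2)
        nlinarith
      · simp
    · rw [hY, Finset.sum_div, Finset.sum_div]
      refine Finset.sum_le_sum fun k _ => ?_
      split_ifs with hq
      · have h2 := hQ k i hq
        have h3 := hc k
        rw [div_div]
        exact div_le_div_of_nonneg_left (by positivity) (by linarith) (by linarith)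
      · simp

theorem trace_msq_le {P : Matrix ι ι ℝ} (hP : P.PosSemidef) (X : Matrix ι ι₀ ℝ) :
    (Xᵀ * msq P * X).trace ≤ (∑ i, ∑ j, X i j ^ 2) * √P.trace := by
  obtain ⟨V, a, h1, h2, h3, h4⟩ := exists_diag (msq_psd P)
  have e1 : P.trace = ∑ i, a i ^ 2 := by
    rw [← msq_mul_self hP, h4]
    calc (V * diagonal a * Vᵀ * (V * diagonal a * Vᵀ)).trace
        = (V * (diagonal a * (Vᵀ * V) * diagonal a * Vᵀ)).trace := by
          simp only [Matrix.mul_assoc]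
      _ = _ := by
          rw [trace_mul_comm, Matrix.mul_assoc, h1]
          simp [diagonal_mul_diagonal, sq]
  have e2 : (Xᵀ * msq P * X).trace = ∑ i, ∑ j, (Vᵀ * X) i j * (a i * (Vᵀ * X) i j) := by
    rw [← trace_transpose_diag_mul, h4]
    simp only [transpose_mul, transpose_transpose, Matrix.mul_assoc]
  have e3 : ∑ i, ∑ j, X i j ^ 2 = ∑ i, ∑ j, (Vᵀ * X) i j * (Vᵀ * X) i j := by
    rw [← trace_transpose_mul]
    simp only [sq]
    rw [← trace_transpose_mul]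
    simp only [transpose_mul, transpose_transpose, Matrix.mul_assoc]
    rw [← Matrix.mul_assoc V, h2, Matrix.one_mul]
  rw [e2, e3, Finset.sum_mul]
  refine Finset.sum_le_sum fun i _ => ?_
  rw [Finset.sum_mul]
  refine Finset.sum_le_sum fun j _ => ?_
  have h5 : a i ≤ √P.trace := by
    rw [e1]
    exact Real.le_sqrt_of_sq_le (Finset.single_le_sum (f := fun i => a i ^ 2)
      (fun _ _ => sq_nonneg _) (Finset.mem_univ i))
  nlinarith [mul_self_nonneg ((Vᵀ * X) i j)]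

end TriAux

open TriAux

/-- The trilinear estimate. -/
theorem trilinear {A : Matrix ι₀ ι₁ ℝ} {B : Matrix ι₁ ι₂ ℝ} {C : Matrix ι₂ ι₀ ℝ} {d₀ : ι₀ → ℝ}
    {d₁ : ι₁ → ℝ} {d₂ : ι₂ → ℝ} {g₀ g₁ g₂ : ℝ} (h₁ : Hyp A d₁ B g₁) (h₂ : Hyp B d₂ C g₂)
    (h₀ : Hyp C d₀ A g₀) {κ : ℝ} (hκ : 0 ≤ κ) (hd₀ : ∀ i, |d₀ i| ≤ κ) (hd₁ : ∀ i, |d₁ i| ≤ κ)
    (hd₂ : ∀ i, |d₂ i| ≤ κ) :
    |(A * diagonal d₁ * B * diagonal d₂ * C * diagonal d₀).trace| ≤ κ * (g₀ + g₁ + g₂) := by
  obtain ⟨VA, a, a1, a2, ha, a3, a4⟩ := exists_diag_abs A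
  obtain ⟨VB, b, b1, b2, hb, b3, b4⟩ := exists_diag_abs B
  obtain ⟨VC, c, c1, c2, hc, c3, c4⟩ := exists_diag_abs C
  have E₁ := energy h₁ a1 ha a3 a4 b1 hb b3 a2
  have E₂ := energy h₂ b1 hb b3 b4 c1 hc c3 b2
  have E₀ := energy h₀ c1 hc c3 c4 a1 ha a3 c2
  have M₂ := middle hκ hd₂ b1 c4
  have M₀ := middle hκ hd₀ c1 a4
  have M₁ := middle hκ hd₁ a1 b4
  set N₁ := VAᵀ * diagonal d₁ * B * VB with hN₁
  set N₂ := VBᵀ * diagonal d₂ * C * VC with hN₂
  set N₀ := VCᵀ * diagonal d₀ * A * VA with hN₀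
  have htr : (A * diagonal d₁ * B * diagonal d₂ * C * diagonal d₀).trace =
      ∑ i, ∑ j, ∑ k, N₁ i j * N₂ j k * N₀ k i := by
    have : (N₁ * (N₂ * N₀)).trace = ∑ i, ∑ j, ∑ k, N₁ i j * N₂ j k * N₀ k i := by
      simp only [trace, diag, mul_apply, Finset.mul_sum, mul_assoc]
    rw [← this, hN₁, hN₂, hN₀]
    calc (A * diagonal d₁ * B * diagonal d₂ * C * diagonal d₀).trace
        = (A * ((VA * VAᵀ) * diagonal d₁ * B * (VB * VBᵀ) * diagonal d₂ * C * (VC * VCᵀ) *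
            diagonal d₀)).trace := by
          rw [a2, b2, c2]
          simp only [Matrix.mul_assoc, Matrix.one_mul]
      _ = ((A * VA) * (VAᵀ * diagonal d₁ * B * VB * (VBᵀ * diagonal d₂ * C * VC) *
            (VCᵀ * diagonal d₀))).trace := by simp only [Matrix.mul_assoc]
      _ = _ := by
          rw [trace_mul_comm]
          simp only [Matrix.mul_assoc]
  have Ra := region N₁ N₂ N₀ ha hb hc hκ M₂ (fun i j => b j ≤ a i) (fun k i => c k ≤ a i)
    (fun _ _ h => h) (fun _ _ h => h)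
  have Rb := region N₂ N₀ N₁ hb hc ha hκ M₀ (fun j k => c k ≤ b j) (fun i j => a i < b j)
    (fun _ _ h => h) (fun _ _ h => h.le)
  have Rc := region N₀ N₁ N₂ hc ha hb hκ M₁ (fun k i => a i < c k) (fun j k => b j < c k)
    (fun _ _ h => h.le) (fun _ _ h => h.le)
  have hsplit : ∑ i, ∑ j, ∑ k, N₁ i j * N₂ j k * N₀ k i =
      (∑ i, ∑ j, ∑ k, (if b j ≤ a i then N₁ i j else 0) * N₂ j k *
        (if c k ≤ a i then N₀ k i else 0)) +
      (∑ j, ∑ k, ∑ i, (if c k ≤ b j then N₂ j k else 0) * N₀ k i *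
        (if a i < b j then N₁ i j else 0)) +
      ∑ k, ∑ i, ∑ j, (if a i < c k then N₀ k i else 0) * N₁ i j *
        (if b j < c k then N₂ j k else 0) := by
    have t2 : (∑ j, ∑ k, ∑ i, (if c k ≤ b j then N₂ j k else 0) * N₀ k i *
        (if a i < b j then N₁ i j else 0)) = ∑ i, ∑ j, ∑ k, (if c k ≤ b j then N₂ j k else 0) *
          N₀ k i * (if a i < b j then N₁ i j else 0) := by
      rw [Finset.sum_congr rfl fun j _ => Finset.sum_comm, Finset.sum_comm]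
    have t3 : (∑ k, ∑ i, ∑ j, (if a i < c k then N₀ k i else 0) * N₁ i j *
        (if b j < c k then N₂ j k else 0)) = ∑ i, ∑ j, ∑ k, (if a i < c k then N₀ k i else 0) *
          N₁ i j * (if b j < c k then N₂ j k else 0) := by
      rw [Finset.sum_comm]
      exact Finset.sum_congr rfl fun i _ => Finset.sum_comm
    rw [t2, t3, ← Finset.sum_add_distrib, ← Finset.sum_add_distrib]
    refine Finset.sum_congr rfl fun i _ => ?_
    rw [← Finset.sum_add_distrib, ← Finset.sum_add_distrib]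
    refine Finset.sum_congr rfl fun j _ => ?_
    rw [← Finset.sum_add_distrib, ← Finset.sum_add_distrib]
    refine Finset.sum_congr rfl fun k _ => ?_
    split_ifs <;> first | ring1 | (exfalso; linarith)
  have s1 : ((∑ i, ∑ j, if b j ≤ a i then a i ^ 2 * N₁ i j ^ 2 / (a i + b j) else 0) +
      ∑ i, ∑ j, if a i < b j then a i ^ 2 * N₁ i j ^ 2 / (a i + b j) else 0) =
      ∑ i, ∑ j, a i ^ 2 * N₁ i j ^ 2 / (a i + b j) := by
    rw [← Finset.sum_add_distrib]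
    refine Finset.sum_congr rfl fun i _ => ?_
    rw [← Finset.sum_add_distrib]
    refine Finset.sum_congr rfl fun j _ => ?_
    split_ifs <;> first | ring1 | (exfalso; linarith)
  have s2 : ((∑ j, ∑ k, if c k ≤ b j then b j ^ 2 * N₂ j k ^ 2 / (b j + c k) else 0) +
      ∑ j, ∑ k, if b j < c k then b j ^ 2 * N₂ j k ^ 2 / (b j + c k) else 0) =
      ∑ j, ∑ k, b j ^ 2 * N₂ j k ^ 2 / (b j + c k) := by
    rw [← Finset.sum_add_distrib]
    refine Finset.sum_congr rfl fun i _ => ?_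
    rw [← Finset.sum_add_distrib]
    refine Finset.sum_congr rfl fun j _ => ?_
    split_ifs <;> first | ring1 | (exfalso; linarith)
  have s0 : ((∑ k, ∑ i, if c k ≤ a i then c k ^ 2 * N₀ k i ^ 2 / (c k + a i) else 0) +
      ∑ k, ∑ i, if a i < c k then c k ^ 2 * N₀ k i ^ 2 / (c k + a i) else 0) =
      ∑ k, ∑ i, c k ^ 2 * N₀ k i ^ 2 / (c k + a i) := by
    rw [← Finset.sum_add_distrib]
    refine Finset.sum_congr rfl fun i _ => ?_
    rw [← Finset.sum_add_distrib]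
    refine Finset.sum_congr rfl fun j _ => ?_
    split_ifs <;> first | ring1 | (exfalso; linarith)
  rw [htr, hsplit]
  refine (abs_add_three _ _ _).trans ?_
  have := mul_le_mul_of_nonneg_left (add_le_add (add_le_add E₀ E₁) E₂) hκ
  rw [← s0, ← s1, ← s2] at this
  linarith

/-- The bilinear (square function) estimate. -/
theorem bilinear {B : Matrix ι₁ ι₂ ℝ} {C : Matrix ι₂ ι₀ ℝ} {d : ι₂ → ℝ} {g : ℝ}
    (h : Hyp B d C g) (A : Matrix ι₀ ι₁ ℝ) {γ : ℝ} (hγ : 0 < γ) :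
    |(A * (B * diagonal d * C)).trace| ≤ g / (2 * γ) + γ / 2 * (∑ i, ∑ j, A i j ^ 2) *
      (√(∑ i, ∑ j, B i j ^ 2) + √(∑ i, ∑ j, C i j ^ 2)) := by
  have hB : (B * Bᵀ).PosSemidef := by simpa using posSemidef_self_mul_conjTranspose B
  have hC : (Cᵀ * C).PosSemidef := by simpa using posSemidef_conjTranspose_mul_self C
  have t1 := trace_msq_le hB Aᵀ
  have t2 := trace_msq_le hC A
  have eB : (B * Bᵀ).trace = ∑ i, ∑ j, B i j ^ 2 := by
    rw [trace_mul_comm, TriAux.trace_transpose_mul]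
    simp only [sq]
  have eC : (Cᵀ * C).trace = ∑ i, ∑ j, C i j ^ 2 := by
    rw [TriAux.trace_transpose_mul]
    simp only [sq]
  have eA : ∑ i, ∑ j, Aᵀ i j ^ 2 = ∑ i, ∑ j, A i j ^ 2 := Finset.sum_comm
  rw [eB, eA, transpose_transpose] at t1
  rw [eC] at t2
  have k1 := h (γ • Aᵀ)
  have k2 := h ((-γ) • Aᵀ)
  simp only [transpose_smul, transpose_transpose, Matrix.smul_mul, Matrix.mul_smul, trace_smul,
    smul_eq_mul] at k1 k2
  have hγ2 : 0 ≤ γ * γ := by positivity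
  have u1 := mul_le_mul_of_nonneg_left t1 hγ2
  have u2 := mul_le_mul_of_nonneg_left t2 hγ2
  have e : g / (2 * γ) + γ / 2 * (∑ i, ∑ j, A i j ^ 2) *
      (√(∑ i, ∑ j, B i j ^ 2) + √(∑ i, ∑ j, C i j ^ 2)) =
      (g + γ * γ * ((∑ i, ∑ j, A i j ^ 2) * √(∑ i, ∑ j, B i j ^ 2)) +
        γ * γ * ((∑ i, ∑ j, A i j ^ 2) * √(∑ i, ∑ j, C i j ^ 2))) / (2 * γ) := by
    field_simp
    ring
  rw [e, le_div_iff₀ (by positivity), ← abs_of_pos (show 0 < 2 * γ by positivity), ← abs_mul,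
    abs_le]
  constructor <;> nlinarith

end Crest.Agent.R72
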