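import Crest.Agent.R72.Mat2
import Crest.Agent.R72.Tri

set_option autoImplicit false

namespace Crest.Agent.R72

open Matrix MeasureTheory
open scoped ENNReal

namespace Dyad

section generic

variable {ι ι₀ ι₁ ι₂ : Type} [Fintype ι] [DecidableEq ι] [Fintype ι₀] [DecidableEq ι₀]
  [Fintype ι₁] [DecidableEq ι₁] [Fintype ι₂] [DecidableEq ι₂]

/-- Two-point Jensen inequality with a gap. -/
theorem jensen2 {P Q M : Matrix ι ι ℝ} (hP : P.PosSemidef) (hQ : Q.PosSemidef)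
    (hM : M.PosSemidef) (h : ∀ i j, M i j = (P i j + Q i j) / 2) :
    f32 M + 1 / 4 * (dl P M + dl Q M) ≤ (f32 P + f32 Q) / 2 := by
  have h1 := breg_lower hP hM
  have h2 := breg_lower hQ hM
  have h3 : P + Q = (2 : ℝ) • M := by
    ext i j
    simp only [Matrix.add_apply, Matrix.smul_apply, smul_eq_mul, h]
    ring
  have h4 : (msq M * P).trace + (msq M * Q).trace = 2 * f32 M := by
    rw [← trace_add, ← Matrix.mul_add, h3, Matrix.mul_smul, trace_smul, trace_mul_comm]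
    rfl
  linarith

theorem Gram_half (F : Matrix ι₀ ι₁ ℝ) {u u₀ u₁ : ι₀ → ℝ} (h₀ : ∀ i, 0 ≤ u₀ i)
    (h₁ : ∀ i, 0 ≤ u₁ i) (h : ∀ i, u i = (u₀ i + u₁ i) / 2) (v : ι₁ → ℝ) (j j' : ι₁) :
    Gram F u v j j' = (Gram F u₀ v j j' + Gram F u₁ v j j') / 2 := by
  have hu : ∀ i, 0 ≤ u i := fun i => by rw [h]; linarith [h₀ i, h₁ i]
  rw [Gram_apply F hu, Gram_apply F h₀, Gram_apply F h₁, ← Finset.sum_add_distrib,
    Finset.sum_div]
  refine Finset.sum_congr rfl fun i _ => ?_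
  rw [h]
  ring

theorem Psi_outer (F : Matrix ι₀ ι₁ ℝ) (G : Matrix ι₁ ι₂ ℝ) {u u₀ u₁ : ι₀ → ℝ}
    (h₀ : ∀ i, 0 ≤ u₀ i) (h₁ : ∀ i, 0 ≤ u₁ i) (h : ∀ i, u i = (u₀ i + u₁ i) / 2) (v : ι₁ → ℝ)
    {w w₀ w₁ : ι₂ → ℝ} (g₀ : ∀ i, 0 ≤ w₀ i) (g₁ : ∀ i, 0 ≤ w₁ i)
    (g : ∀ i, w i = (w₀ i + w₁ i) / 2) :
    Psi F G u v w ≤ (Psi F G u₀ v w₀ + Psi F G u₁ v w₁) / 2 := by
  have := jensen2 (Smat_psd F G u₀ v w₀) (Smat_psd F G u₁ v w₁) (Smat_psd F G u v w)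
    fun i j => by
      simp only [Smat, Matrix.add_apply, Gram_half F h₀ h₁ h, Gram_half Gᵀ g₀ g₁ g]
      ring
  have h1 := dl_nonneg (Smat_psd F G u₀ v w₀) (Smat_psd F G u v w)
  have h2 := dl_nonneg (Smat_psd F G u₁ v w₁) (Smat_psd F G u v w)
  unfold Psi
  linarith

theorem Psi_mid (F : Matrix ι₀ ι₁ ℝ) (G : Matrix ι₁ ι₂ ℝ) (u : ι₀ → ℝ) {v v₀ v₁ : ι₁ → ℝ}
    (h₀ : ∀ i, 0 ≤ v₀ i) (h₁ : ∀ i, 0 ≤ v₁ i) (h : ∀ i, v i = (v₀ i + v₁ i) / 2) (w : ι₂ → ℝ) :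
    Psi F G u v w + 1 / 4 * (dmid F G u v₀ v w + dmid F G u v₁ v w) ≤
      (Psi F G u v₀ w + Psi F G u v₁ w) / 2 := by
  have hv : ∀ i, 0 ≤ v i := fun i => by rw [h]; linarith [h₀ i, h₁ i]
  simp only [Psi_eq_Pmat, dmid]
  refine jensen2 (Pmat_psd _ _ _ _ _) (Pmat_psd _ _ _ _ _) (Pmat_psd _ _ _ _ _) fun a a' => ?_
  rw [Pmat_apply F G u hv, Pmat_apply F G u h₀, Pmat_apply F G u h₁, ← Finset.sum_add_distrib,
    Finset.sum_div]
  refine Finset.sum_congr rfl fun i _ => ?_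
  rw [h]
  ring

/-- The gain at a node controls the middle sign change. -/
theorem node (F : Matrix ι₀ ι₁ ℝ) (G : Matrix ι₁ ι₂ ℝ) {u u₀ u₁ : ι₀ → ℝ}
    (h₀ : ∀ i, 0 ≤ u₀ i) (h₁ : ∀ i, 0 ≤ u₁ i) (h : ∀ i, u i = (u₀ i + u₁ i) / 2)
    {v v₀ v₁ d : ι₁ → ℝ} (hv : ∀ i, 0 ≤ v i) (hd : ∀ i, |d i| ≤ 1)
    (e₀ : ∀ i, v₀ i = v i * (1 + d i)) (e₁ : ∀ i, v₁ i = v i * (1 + -d i))
    {w w₀ w₁ : ι₂ → ℝ} (g₀ : ∀ i, 0 ≤ w₀ i) (g₁ : ∀ i, 0 ≤ w₁ i)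
    (g : ∀ i, w i = (w₀ i + w₁ i) / 2) :
    Hyp (wt u F v) d (wt v G w) (2 * √2 * ((Psi F G u₀ v₀ w₀ + Psi F G u₁ v₀ w₁ +
      Psi F G u₀ v₁ w₁ + Psi F G u₁ v₁ w₀) / 4 - Psi F G u v w)) := by
  have hd' := fun i => abs_le.1 (hd i)
  have a1 := Psi_outer F G h₀ h₁ h v₀ g₀ g₁ g
  have a2 := Psi_outer F G h₀ h₁ h v₁ (w := w) g₁ g₀ fun i => by rw [g, add_comm]
  have a3 := Psi_mid F G u (v := v) (v₀ := v₀) (v₁ := v₁)
    (fun i => by rw [e₀]; exact mul_nonneg (hv i) (by linarith [(hd' i).1]))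
    (fun i => by rw [e₁]; exact mul_nonneg (hv i) (by linarith [(hd' i).2]))
    (fun i => by rw [e₀, e₁]; ring) w
  have b0 := hyp_of_dmid F G u hv w d zero_le_one hd'
  have b1 := (hyp_of_dmid F G u hv w (fun i => -d i) zero_le_one
    fun i => ⟨by linarith [(hd' i).2], by linarith [(hd' i).1]⟩).neg
  simp only [neg_neg, ← e₁, one_add_one_eq_two] at b1
  simp only [← e₀, one_add_one_eq_two] at b0
  have hs : (0 : ℝ) ≤ √2 := Real.sqrt_nonneg _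
  rcases le_total (dmid F G u v₀ v w) (dmid F G u v₁ v w) with hle | hle
  · refine b0.mono ?_
    rw [mul_comm 2, mul_assoc]
    exact mul_le_mul_of_nonneg_left (by linarith) hs
  · refine b1.mono ?_
    rw [mul_comm 2, mul_assoc]
    exact mul_le_mul_of_nonneg_left (by linarith) hs

end generic

/-- The normalised indicator of a dyadic interval. -/
noncomputable def ind (L l n : ℕ) (m : Fin (2 ^ L)) : ℝ :=
  if m.val / 2 ^ l = n then ((2 : ℝ) ^ l)⁻¹ else 0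

variable {L : ℕ}

theorem ind_nonneg (l n : ℕ) (m : Fin (2 ^ L)) : 0 ≤ ind L l n m := by
  unfold ind
  split_ifs <;> positivity

theorem hs_abs_le (l n m : ℕ) : |hs l n m| ≤ 1 := by
  unfold hs
  split_ifs <;> simp

theorem ind_even (k n : ℕ) (m : Fin (2 ^ L)) :
    ind L k (2 * n) m = ind L (k + 1) n m * (1 + hs (k + 1) n m) := by
  simp only [ind, hs, Nat.add_sub_cancel, pow_succ, ← Nat.div_div_eq_div_mul]
  generalize m.val / 2 ^ k = q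
  split_ifs <;> first | omega | ring

theorem ind_odd (k n : ℕ) (m : Fin (2 ^ L)) :
    ind L k (2 * n + 1) m = ind L (k + 1) n m * (1 + -hs (k + 1) n m) := by
  simp only [ind, hs, Nat.add_sub_cancel, pow_succ, ← Nat.div_div_eq_div_mul]
  generalize m.val / 2 ^ k = q
  split_ifs <;> first | omega | ring

theorem ind_half (k n : ℕ) (m : Fin (2 ^ L)) :
    ind L (k + 1) n m = (ind L k (2 * n) m + ind L k (2 * n + 1) m) / 2 := by
  rw [ind_even, ind_odd]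
  ring

theorem ind_mul_hs (l n : ℕ) (m : Fin (2 ^ L)) :
    ind L l n m * hs l n m = ((2 : ℝ) ^ l)⁻¹ * hs l n m := by
  unfold ind hs
  split_ifs <;> simp

/-- The Bellman function at a triple of intervals. -/
noncomputable def T (F G : Matrix (Fin (2 ^ L)) (Fin (2 ^ L)) ℝ) (l x y z : ℕ) : ℝ :=
  Psi F G (ind L l x) (ind L l y) (ind L l z)

theorem step (F G : Matrix (Fin (2 ^ L)) (Fin (2 ^ L)) ℝ) (k x y z : ℕ) :
    Hyp (wt (ind L (k + 1) x) F (ind L (k + 1) y)) (fun m => hs (k + 1) y m)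
      (wt (ind L (k + 1) y) G (ind L (k + 1) z))
      (2 * √2 * ((T F G k (2 * x) (2 * y) (2 * z) + T F G k (2 * x + 1) (2 * y) (2 * z + 1) +
        T F G k (2 * x) (2 * y + 1) (2 * z + 1) + T F G k (2 * x + 1) (2 * y + 1) (2 * z)) / 4 -
        T F G (k + 1) x y z)) :=
  node F G (ind_nonneg _ _) (ind_nonneg _ _) (ind_half k x) (ind_nonneg _ _)
    (fun _ => hs_abs_le _ _ _) (ind_even k y) (ind_odd k y) (ind_nonneg _ _) (ind_nonneg _ _)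
    (ind_half k z)

variable (F₀ F₁ F₂ : Matrix (Fin (2 ^ L)) (Fin (2 ^ L)) ℝ)

theorem dloc_eq (l n₀ n₁ : ℕ) : dloc L F₀ F₁ F₂ l n₀ n₁ = 4 ^ l *
    (wt (ind L l n₀) F₀ (ind L l n₁) * diagonal (fun m : Fin (2 ^ L) => hs l n₁ m) *
      wt (ind L l n₁) F₁ (ind L l (n₀ ^^^ n₁)) *
      diagonal (fun m : Fin (2 ^ L) => hs l (n₀ ^^^ n₁) m) *
      wt (ind L l (n₀ ^^^ n₁)) F₂ (ind L l n₀) *
      diagonal (fun m : Fin (2 ^ L) => hs l n₀ m)).trace := by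
  simp only [dloc, trace, diag_apply, mul_diagonal]
  simp only [Matrix.mul_apply, Finset.mul_sum, Finset.sum_mul, diagonal_apply, mul_ite, mul_zero,
    Finset.sum_ite_eq', Finset.mem_univ, if_true, wt, of_apply]
  refine Finset.sum_congr rfl fun m₀ _ => ?_
  rw [Finset.sum_comm]
  refine Finset.sum_congr rfl fun m₂ _ => Finset.sum_congr rfl fun m₁ _ => ?_
  have h0 := Real.mul_self_sqrt (ind_nonneg l n₀ m₀)
  have h1 := Real.mul_self_sqrt (ind_nonneg l n₁ m₁)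
  have h2 := Real.mul_self_sqrt (ind_nonneg l (n₀ ^^^ n₁) m₂)
  have h4 : (4 : ℝ) ^ l * ((2 : ℝ) ^ l)⁻¹ * ((2 : ℝ) ^ l)⁻¹ = 1 := by
    rw [show (4 : ℝ) = 2 * 2 by norm_num, mul_pow]
    field_simp
  calc _ = (4 : ℝ) ^ l * (F₀ m₀ m₁ * F₁ m₁ m₂ * F₂ m₂ m₀) * ((((2 : ℝ) ^ l)⁻¹ * hs l n₀ m₀) *
        (((2 : ℝ) ^ l)⁻¹ * hs l n₁ m₁) * (((2 : ℝ) ^ l)⁻¹ * hs l (n₀ ^^^ n₁) m₂)) := by
        linear_combination (-((2 : ℝ) ^ l)⁻¹ * (F₀ m₀ m₁ * F₁ m₁ m₂ * F₂ m₂ m₀ *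
          (hs l n₀ m₀ * hs l n₁ m₁ * hs l (n₀ ^^^ n₁) m₂))) * h4
    _ = _ := by
        rw [← ind_mul_hs l n₀ m₀, ← ind_mul_hs l n₁ m₁, ← ind_mul_hs l (n₀ ^^^ n₁) m₂]
        conv_lhs => rw [← h0, ← h1, ← h2]
        ring

/-- The value of a node. -/
noncomputable def N (l n₀ n₁ : ℕ) : ℝ :=
  4 ^ l * (T F₀ F₁ l n₀ n₁ (n₀ ^^^ n₁) + T F₁ F₂ l n₁ (n₀ ^^^ n₁) n₀ + T F₂ F₀ l (n₀ ^^^ n₁) n₀ n₁)

theorem xor00 (a b : ℕ) : (2 * a) ^^^ (2 * b) = 2 * (a ^^^ b) := by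
  simpa [Nat.bit] using Nat.xor_bit false a false b

theorem xor10 (a b : ℕ) : (2 * a + 1) ^^^ (2 * b) = 2 * (a ^^^ b) + 1 := by
  simpa [Nat.bit] using Nat.xor_bit true a false b

theorem xor01 (a b : ℕ) : (2 * a) ^^^ (2 * b + 1) = 2 * (a ^^^ b) + 1 := by
  simpa [Nat.bit] using Nat.xor_bit false a true b

theorem xor11 (a b : ℕ) : (2 * a + 1) ^^^ (2 * b + 1) = 2 * (a ^^^ b) := by
  simpa [Nat.bit] using Nat.xor_bit true a true b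

theorem dloc_le (k n₀ n₁ : ℕ) : |dloc L F₀ F₁ F₂ (k + 1) n₀ n₁| ≤ 2 * √2 *
    ((N F₀ F₁ F₂ k (2 * n₀) (2 * n₁) + N F₀ F₁ F₂ k (2 * n₀) (2 * n₁ + 1)) +
      (N F₀ F₁ F₂ k (2 * n₀ + 1) (2 * n₁) + N F₀ F₁ F₂ k (2 * n₀ + 1) (2 * n₁ + 1)) -
      N F₀ F₁ F₂ (k + 1) n₀ n₁) := by
  have h := trilinear (step F₀ F₁ k n₀ n₁ (n₀ ^^^ n₁)) (step F₁ F₂ k n₁ (n₀ ^^^ n₁) n₀)
    (step F₂ F₀ k (n₀ ^^^ n₁) n₀ n₁) zero_le_one (fun _ => hs_abs_le _ _ _)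
    (fun _ => hs_abs_le _ _ _) (fun _ => hs_abs_le _ _ _)
  rw [dloc_eq, abs_mul, abs_of_pos (by positivity)]
  refine (mul_le_mul_of_nonneg_left h (by positivity)).trans (le_of_eq ?_)
  simp only [N, xor00, xor01, xor10, xor11]
  ring

theorem sum_range_two_mul (f : ℕ → ℝ) (n : ℕ) :
    ∑ i ∈ Finset.range (2 * n), f i = ∑ i ∈ Finset.range n, (f (2 * i) + f (2 * i + 1)) := by
  induction n with
  | zero => simp
  | succ n ih =>
    rw [Nat.mul_succ, Finset.sum_range_succ, Finset.sum_range_succ, ih, Finset.sum_range_succ,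
      add_assoc]

/-- The total value of a level. -/
noncomputable def V (l : ℕ) : ℝ :=
  ∑ n₀ ∈ Finset.range (2 ^ (L - l)), ∑ n₁ ∈ Finset.range (2 ^ (L - l)), N F₀ F₁ F₂ l n₀ n₁

theorem V_nonneg (l : ℕ) : 0 ≤ V F₀ F₁ F₂ l :=
  Finset.sum_nonneg fun _ _ => Finset.sum_nonneg fun _ _ => mul_nonneg (by positivity)
    (add_nonneg (add_nonneg (Psi_nonneg _ _ _ _ _) (Psi_nonneg _ _ _ _ _)) (Psi_nonneg _ _ _ _ _))

theorem level_le {k : ℕ} (hk : k + 1 ≤ L) :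
    ∑ n₀ ∈ Finset.range (2 ^ (L - (k + 1))), ∑ n₁ ∈ Finset.range (2 ^ (L - (k + 1))),
      |dloc L F₀ F₁ F₂ (k + 1) n₀ n₁| ≤ 2 * √2 * (V F₀ F₁ F₂ k - V F₀ F₁ F₂ (k + 1)) := by
  have e : 2 ^ (L - k) = 2 * 2 ^ (L - (k + 1)) := by
    rw [← pow_succ']
    congr 1
    omega
  refine (Finset.sum_le_sum fun n₀ _ => Finset.sum_le_sum fun n₁ _ =>
    dloc_le F₀ F₁ F₂ k n₀ n₁).trans (le_of_eq ?_)
  simp only [V, e, sum_range_two_mul, ← Finset.mul_sum, Finset.sum_sub_distrib,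
    Finset.sum_add_distrib]
  ring

theorem sum_ind_le (n : ℕ) : ∑ m, ind L 0 n m ≤ 1 := by
  simp only [ind, pow_zero, Nat.div_one, inv_one, Finset.sum_boole]
  have : (Finset.univ.filter fun m : Fin (2 ^ L) => m.val = n).card ≤ 1 :=
    Finset.card_le_one.2 fun a ha b hb => Fin.ext (by simp_all)
  exact_mod_cast this

theorem sum_cub_le (F : Matrix (Fin (2 ^ L)) (Fin (2 ^ L)) ℝ) (s : Finset ℕ) (p q : ℕ → ℕ → ℕ)
    (h : ∀ a b a' b', p a b = p a' b' → q a b = q a' b' → a = a' ∧ b = b') :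
    ∑ a ∈ s, ∑ b ∈ s, ∑ i, ∑ j, ind L 0 (p a b) i * ind L 0 (q a b) j * |F i j| ^ 3 ≤ cub F := by
  rw [← Finset.sum_product', Finset.sum_comm]
  refine Finset.sum_le_sum fun i _ => ?_
  rw [Finset.sum_comm]
  refine Finset.sum_le_sum fun j _ => ?_
  rw [← Finset.sum_mul]
  refine mul_le_of_le_one_left (by positivity) ?_
  have e : ∀ x : ℕ × ℕ, ind L 0 (p x.1 x.2) i * ind L 0 (q x.1 x.2) j =
      if i.val = p x.1 x.2 ∧ j.val = q x.1 x.2 then 1 else 0 := by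
    intro x
    simp only [ind, pow_zero, Nat.div_one, inv_one]
    split_ifs <;> simp_all
  simp only [e, Finset.sum_boole]
  have : ((s ×ˢ s).filter fun x : ℕ × ℕ => i.val = p x.1 x.2 ∧ j.val = q x.1 x.2).card ≤ 1 := by
    refine Finset.card_le_one.2 fun a ha b hb => ?_
    have ha' := (Finset.mem_filter.1 ha).2
    have hb' := (Finset.mem_filter.1 hb).2
    obtain ⟨h1, h2⟩ := h _ _ _ _ (ha'.1.symm.trans hb'.1) (ha'.2.symm.trans hb'.2)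
    exact Prod.ext h1 h2
  exact_mod_cast this

theorem V_zero_le : V F₀ F₁ F₂ 0 ≤ 2 * √2 * (cub F₀ + cub F₁ + cub F₂) := by
  have hT : ∀ (F G : Matrix (Fin (2 ^ L)) (Fin (2 ^ L)) ℝ) (x y z : ℕ), T F G 0 x y z ≤
      √2 * 1 * (∑ i, ∑ j, ind L 0 x i * ind L 0 y j * |F i j| ^ 3 +
        ∑ j, ∑ k, ind L 0 y j * ind L 0 z k * |G j k| ^ 3) := fun F G x y z =>
    Psi_le F G (ind_nonneg _ _) (ind_nonneg _ _) (ind_nonneg _ _) (sum_ind_le x) (sum_ind_le y)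
      (sum_ind_le z)
  have h0 := sum_cub_le F₀ (Finset.range (2 ^ (L - 0))) (fun a _ => a) (fun _ b => b)
    fun a b a' b' h h' => ⟨h, h'⟩
  have h1 := sum_cub_le F₁ (Finset.range (2 ^ (L - 0))) (fun _ b => b) (fun a b => a ^^^ b)
    fun a b a' b' h h' => by
      subst h
      exact ⟨Nat.xor_left_inj.1 h', rfl⟩
  have h2 := sum_cub_le F₂ (Finset.range (2 ^ (L - 0))) (fun a b => a ^^^ b) (fun a _ => a)
    fun a b a' b' h h' => by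
      subst h'
      exact ⟨rfl, Nat.xor_right_inj.1 h⟩
  have hs : (0 : ℝ) ≤ 2 * √2 := by positivity
  refine le_trans ?_ (mul_le_mul_of_nonneg_left (add_le_add (add_le_add h0 h1) h2) hs)
  simp only [V, ← Finset.sum_add_distrib]
  rw [Finset.mul_sum]
  refine Finset.sum_le_sum fun a _ => ?_
  rw [Finset.mul_sum]
  refine Finset.sum_le_sum fun b _ => ?_
  have a0 := hT F₀ F₁ a b (a ^^^ b)
  have a1 := hT F₁ F₂ b (a ^^^ b) a
  have a2 := hT F₂ F₀ (a ^^^ b) a b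
  simp only [N, pow_zero, one_mul, Finset.sum_add_distrib]
  linarith

end Dyad

open Dyad in
/-- The discrete dyadic estimate. -/
theorem dyadic_discrete (L : ℕ) (F₀ F₁ F₂ : Matrix (Fin (2 ^ L)) (Fin (2 ^ L)) ℝ) :
    ∑ l ∈ Finset.Icc 1 L, ∑ n₀ ∈ Finset.range (2 ^ (L - l)), ∑ n₁ ∈ Finset.range (2 ^ (L - l)),
      |dloc L F₀ F₁ F₂ l n₀ n₁| ≤ 8 * (cub F₀ + cub F₁ + cub F₂) := by
  have key : ∀ K, K ≤ L → ∑ l ∈ Finset.Icc 1 K, ∑ n₀ ∈ Finset.range (2 ^ (L - l)),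
      ∑ n₁ ∈ Finset.range (2 ^ (L - l)), |dloc L F₀ F₁ F₂ l n₀ n₁| ≤
        2 * √2 * (V F₀ F₁ F₂ 0 - V F₀ F₁ F₂ K) := by
    intro K
    induction K with
    | zero => simp
    | succ K ih =>
      intro hK
      rw [Finset.sum_Icc_succ_top (by omega)]
      have h1 := ih (by omega)
      have h2 := level_le F₀ F₁ F₂ hK
      linarith
  have hs : (0 : ℝ) ≤ 2 * √2 := by positivity
  have h1 := V_zero_le F₀ F₁ F₂
  have h2 := V_nonneg F₀ F₁ F₂ L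
  refine (key L le_rfl).trans ((mul_le_mul_of_nonneg_left
    (show _ ≤ 2 * √2 * (cub F₀ + cub F₁ + cub F₂) by linarith) hs).trans (le_of_eq ?_))
  have : √2 * √2 = (2 : ℝ) := Real.mul_self_sqrt (by norm_num)
  linear_combination 4 * (cub F₀ + cub F₁ + cub F₂) * this

end Crest.Agent.R72
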