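import Crest.Agent.R72.Dyad
import Crest.Agent.R72.Sample
import Crest.Prelude.Def_DyadicTriangular

set_option autoImplicit false

namespace Crest.Agent.R72

open Matrix MeasureTheory
open scoped ENNReal

namespace DyadC

open Crest.AnalysisR.TriangularDyadic

theorem measurable_haarSign (k : ℤ) (n : ℕ) : Measurable (haarSign k n) :=
  Measurable.ite measurableSet_Ico measurable_const
    (Measurable.ite measurableSet_Ico measurable_const measurable_const)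

theorem abs_haarSign_le (k : ℤ) (n : ℕ) (x : ℝ) : |haarSign k n x| ≤ 1 := by
  unfold haarSign
  split_ifs <;> simp

theorem mem_interval_of_ne {k : ℤ} {n : ℕ} {x : ℝ} (h : haarSign k n x ≠ 0) :
    x ∈ interval k n := by
  have h2 : (2 : ℝ) ^ k = 2 * (2 : ℝ) ^ (k - 1) := by
    rw [zpow_sub₀ two_ne_zero]; simp; field_simp
  have h3 : (0 : ℝ) < (2 : ℝ) ^ (k - 1) := by positivity
  unfold haarSign at h
  unfold interval
  split_ifs at h with h4 h5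
  · exact ⟨h4.1, by linarith [h4.2]⟩
  · exact ⟨by linarith [h5.1], h5.2⟩
  · exact absurd rfl h

theorem haarSign_of_not {k : ℤ} {n : ℕ} {x : ℝ} (h : x ∉ interval k n) : haarSign k n x = 0 := by
  by_contra h'
  exact h (mem_interval_of_ne h')

theorem lattice_le {η t : ℝ} (hη : 0 < η) (ht : t ∈ Set.Ico 0 η) (a m : ℕ) :
    η * a ≤ η * m + t ↔ a ≤ m := by
  constructor
  · intro h
    by_contra h'
    have : (m : ℝ) + 1 ≤ a := by exact_mod_cast Nat.lt_of_not_ge h'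
    nlinarith [ht.2]
  · intro h
    have : (a : ℝ) ≤ m := by exact_mod_cast h
    nlinarith [ht.1]

theorem haarSign_lattice (k₀ : ℤ) (l : ℕ) (hl : 1 ≤ l) (n m : ℕ) {t : ℝ}
    (ht : t ∈ Set.Ico 0 ((2 : ℝ) ^ k₀)) :
    haarSign (k₀ + l) n ((2 : ℝ) ^ k₀ * m + t) = hs l n m := by
  obtain ⟨j, rfl⟩ : ∃ j, l = j + 1 := ⟨l - 1, by omega⟩
  have hη : (0 : ℝ) < (2 : ℝ) ^ k₀ := by positivity
  have e0 : (2 : ℝ) ^ (k₀ + ((j + 1 : ℕ) : ℤ)) = (2 : ℝ) ^ k₀ * (2 ^ j * 2) := by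
    rw [zpow_add₀ two_ne_zero, zpow_natCast, pow_succ]
  have e0' : (2 : ℝ) ^ (k₀ + ((j + 1 : ℕ) : ℤ) - 1) = (2 : ℝ) ^ k₀ * 2 ^ j := by
    have : k₀ + ((j + 1 : ℕ) : ℤ) - 1 = k₀ + (j : ℕ) := by push_cast; ring
    rw [this, zpow_add₀ two_ne_zero, zpow_natCast]
  have e1 : (2 : ℝ) ^ (k₀ + ((j + 1 : ℕ) : ℤ)) * n = (2 : ℝ) ^ k₀ * ((2 * n * 2 ^ j : ℕ) : ℝ) := by
    rw [e0]; push_cast; ring
  have e2 : (2 : ℝ) ^ k₀ * ((2 * n * 2 ^ j : ℕ) : ℝ) + (2 : ℝ) ^ (k₀ + ((j + 1 : ℕ) : ℤ) - 1) =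
      (2 : ℝ) ^ k₀ * (((2 * n + 1) * 2 ^ j : ℕ) : ℝ) := by
    rw [e0']; push_cast; ring
  have e3 : (2 : ℝ) ^ (k₀ + ((j + 1 : ℕ) : ℤ)) * (n + 1) =
      (2 : ℝ) ^ k₀ * (((2 * n + 2) * 2 ^ j : ℕ) : ℝ) := by
    rw [e0]; push_cast; ring
  have hP : 0 < 2 ^ j := by positivity
  unfold haarSign hs
  rw [e1, e2, e3]
  simp only [Set.mem_Ico, ← not_le, lattice_le hη ht, ← Nat.le_div_iff_mul_le hP,
    Nat.add_sub_cancel, pow_succ, ← Nat.div_div_eq_div_mul]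
  generalize m / 2 ^ j = q
  split_ifs <;> first | rfl | omega

/-- The integrand of the local form. -/
noncomputable def T (k : ℤ) (n₀ n₁ n₂ : ℕ) (F₀ F₁ F₂ : ℝ × ℝ → ℝ) (x : ℝ × ℝ × ℝ) : ℝ :=
  F₀ (x.1, x.2.1) * F₁ (x.2.1, x.2.2) * F₂ (x.2.2, x.1) *
    (haarSign k n₀ x.1 * haarSign k n₁ x.2.1 * haarSign k n₂ x.2.2)

section
variable {F₀ F₁ F₂ : ℝ × ℝ → ℝ}

theorem measurable_T (hF₀ : Measurable F₀) (hF₁ : Measurable F₁) (hF₂ : Measurable F₂)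
    (k : ℤ) (n₀ n₁ n₂ : ℕ) : Measurable (T k n₀ n₁ n₂ F₀ F₁ F₂) := by
  have := measurable_haarSign k n₀
  have := measurable_haarSign k n₁
  have := measurable_haarSign k n₂
  unfold T
  fun_prop

theorem abs_T_le {M : ℝ} (hb : ∀ z, |F₀ z| ≤ M ∧ |F₁ z| ≤ M ∧ |F₂ z| ≤ M)
    (k : ℤ) (n₀ n₁ n₂ : ℕ) (x : ℝ × ℝ × ℝ) : |T k n₀ n₁ n₂ F₀ F₁ F₂ x| ≤ M * M * M := by
  have hM : 0 ≤ M := (abs_nonneg _).trans (hb 0).1
  unfold T
  simp only [abs_mul]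
  calc _ ≤ M * M * M * (1 * 1 * 1) := by
        gcongr
        · exact (hb _).1
        · exact (hb _).2.1
        · exact (hb _).2.2
        · exact abs_haarSign_le _ _ _
        · exact abs_haarSign_le _ _ _
        · exact abs_haarSign_le _ _ _
    _ = _ := by ring

theorem mem_of_T_ne {k : ℤ} {n₀ n₁ n₂ : ℕ} {x : ℝ × ℝ × ℝ} (h : T k n₀ n₁ n₂ F₀ F₁ F₂ x ≠ 0) :
    x.1 ∈ interval k n₀ ∧ x.2.1 ∈ interval k n₁ ∧ x.2.2 ∈ interval k n₂ := by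
  unfold T at h
  simp only [ne_eq, mul_eq_zero, not_or] at h
  exact ⟨mem_interval_of_ne h.2.1.1, mem_interval_of_ne h.2.1.2, mem_interval_of_ne h.2.2⟩

theorem integrable_of_support {X : Type*} [MeasurableSpace X] {μ : Measure X} {f : X → ℝ}
    (hf : Measurable f) {C : ℝ} (hC : ∀ x, |f x| ≤ C) {s : Set X} (hs : μ s ≠ ∞)
    (hsupp : ∀ x, f x ≠ 0 → x ∈ s) : Integrable f μ := by
  rw [← integrableOn_iff_integrable_of_support_subset (s := s) hsupp]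
  exact Measure.integrableOn_of_bounded hs hf.aestronglyMeasurable
    (Filter.Eventually.of_forall hC)

theorem volume_interval (k : ℤ) (n : ℕ) : volume (interval k n) ≠ ∞ := by
  unfold interval
  rw [Real.volume_Ico]
  exact ENNReal.ofReal_ne_top

theorem integrable_T (hF₀ : Measurable F₀) (hF₁ : Measurable F₁) (hF₂ : Measurable F₂)
    {M : ℝ} (hb : ∀ z, |F₀ z| ≤ M ∧ |F₁ z| ≤ M ∧ |F₂ z| ≤ M) (k : ℤ) (n₀ n₁ n₂ : ℕ) :
    Integrable (T k n₀ n₁ n₂ F₀ F₁ F₂) := by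
  refine integrable_of_support (measurable_T hF₀ hF₁ hF₂ k n₀ n₁ n₂) (abs_T_le hb k n₀ n₁ n₂)
    (s := interval k n₀ ×ˢ (interval k n₁ ×ˢ interval k n₂)) ?_ (fun x hx => mem_of_T_ne hx)
  rw [Measure.volume_eq_prod, Measure.prod_prod, Measure.volume_eq_prod, Measure.prod_prod]
  exact ENNReal.mul_ne_top (volume_interval _ _)
    (ENNReal.mul_ne_top (volume_interval _ _) (volume_interval _ _))

theorem localForm_eq (hF₀ : Measurable F₀) (hF₁ : Measurable F₁) (hF₂ : Measurable F₂)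
    {M : ℝ} (hb : ∀ z, |F₀ z| ≤ M ∧ |F₁ z| ≤ M ∧ |F₂ z| ≤ M) (k : ℤ) (n₀ n₁ n₂ : ℕ) :
    localForm k n₀ n₁ n₂ F₀ F₁ F₂ = (2 : ℝ) ^ (-k) * ∫ x, T k n₀ n₁ n₂ F₀ F₁ F₂ x := by
  unfold localForm
  congr 1
  rw [Measure.volume_eq_prod, integral_prod _ (integrable_T hF₀ hF₁ hF₂ hb k n₀ n₁ n₂),
    setIntegral_eq_integral_of_forall_compl_eq_zero (fun x hx => by simp [haarSign_of_not hx])]
  refine integral_congr_ae (Filter.Eventually.of_forall fun x₀ => ?_)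
  have hi : Integrable (fun y : ℝ × ℝ => T k n₀ n₁ n₂ F₀ F₁ F₂ (x₀, y)) := by
    refine integrable_of_support
      ((measurable_T hF₀ hF₁ hF₂ k n₀ n₁ n₂).comp measurable_prodMk_left)
      (fun y => abs_T_le hb k n₀ n₁ n₂ _)
      (s := interval k n₁ ×ˢ interval k n₂) ?_ (fun y hy => (mem_of_T_ne hy).2)
    rw [Measure.volume_eq_prod, Measure.prod_prod]
    exact ENNReal.mul_ne_top (volume_interval _ _) (volume_interval _ _)
  dsimp only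
  rw [Measure.volume_eq_prod, integral_prod _ hi,
    setIntegral_eq_integral_of_forall_compl_eq_zero (fun x hx => by simp [haarSign_of_not hx])]
  refine integral_congr_ae (Filter.Eventually.of_forall fun x₁ => ?_)
  dsimp only
  rw [setIntegral_eq_integral_of_forall_compl_eq_zero (fun x hx => by simp [haarSign_of_not hx])]
  rfl

/-- The cube of a function on the quarter plane. -/
noncomputable def g (F : ℝ × ℝ → ℝ) : ℝ × ℝ → ℝ :=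
  (Set.Ici (0 : ℝ) ×ˢ Set.Ici (0 : ℝ)).indicator fun z => |F z| ^ 3

theorem g_nonneg (F : ℝ × ℝ → ℝ) (z : ℝ × ℝ) : 0 ≤ g F z :=
  Set.indicator_nonneg (fun _ _ => by positivity) z

theorem integral_g (F : ℝ × ℝ → ℝ) : ∫ z, g F z = ∫ z in Set.Ici 0 ×ˢ Set.Ici 0, |F z| ^ 3 :=
  integral_indicator (measurableSet_Ici.prod measurableSet_Ici)

theorem integrable_g {F : ℝ × ℝ → ℝ} (hF : Measurable F) {M : ℝ} (hb : ∀ z, |F z| ≤ M)
    (hc : HasCompactSupport F) : Integrable (g F) := by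
  refine Integrable.indicator ?_ (measurableSet_Ici.prod measurableSet_Ici)
  refine integrable_of_support (by fun_prop) (C := M ^ 3) (fun z => ?_) (s := tsupport F)
    hc.isCompact.measure_lt_top.ne (fun z hz => subset_tsupport F ?_)
  · rw [abs_pow, abs_abs]
    exact pow_le_pow_left₀ (abs_nonneg _) (hb z) 3
  · intro h0
    exact hz (by simp [h0])

theorem g_of_nonneg (F : ℝ × ℝ → ℝ) {x y : ℝ} (hx : 0 ≤ x) (hy : 0 ≤ y) :
    g F (x, y) = |F (x, y)| ^ 3 :=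
  Set.indicator_of_mem (show (x, y) ∈ Set.Ici (0 : ℝ) ×ˢ Set.Ici (0 : ℝ) from ⟨hx, hy⟩) _

theorem sum_comm3 {ι : Type*} {N : ℕ} (s : Finset ι) (f : ι → Fin N → Fin N → Fin N → ℝ) :
    ∑ a, ∑ b, ∑ c, ∑ i ∈ s, f i a b c = ∑ i ∈ s, ∑ a, ∑ b, ∑ c, f i a b c := by
  symm
  rw [Finset.sum_comm]
  refine Finset.sum_congr rfl fun a _ => ?_
  rw [Finset.sum_comm]
  refine Finset.sum_congr rfl fun b _ => ?_
  rw [Finset.sum_comm]

theorem unscaled (hF₀ : Measurable F₀) (hF₁ : Measurable F₁) (hF₂ : Measurable F₂)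
    {M : ℝ} (hb : ∀ z, |F₀ z| ≤ M ∧ |F₁ z| ≤ M ∧ |F₂ z| ≤ M)
    (hc₀ : HasCompactSupport F₀) (hc₁ : HasCompactSupport F₁) (hc₂ : HasCompactSupport F₂)
    (𝓘 : Finset (ℤ × ℕ × ℕ)) :
    ∑ i ∈ 𝓘, |localForm i.1 i.2.1 i.2.2 (i.2.1 ^^^ i.2.2) F₀ F₁ F₂| ≤
      8 * ((∫ z, g F₀ z) + (∫ z, g F₁ z) + ∫ z, g F₂ z) := by
  classical
  obtain ⟨k₁, hk₁⟩ := (𝓘.image Prod.fst).bddBelow
  obtain ⟨k₀, hk₀⟩ : ∃ k₀ : ℤ, ∀ i ∈ 𝓘, k₀ < i.1 := ⟨k₁ - 1, fun i hi => by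
    have : k₁ ≤ i.1 := hk₁ (Finset.mem_coe.2 (Finset.mem_image_of_mem Prod.fst hi))
    omega⟩
  let lv : ℤ × ℕ × ℕ → ℕ := fun i => (i.1 - k₀).toNat
  have hlv : ∀ i ∈ 𝓘, i.1 = k₀ + lv i ∧ 1 ≤ lv i := fun i hi => by
    have := hk₀ i hi
    simp only [lv]
    omega
  obtain ⟨L, hL⟩ : ∃ L : ℕ, ∀ i ∈ 𝓘, lv i ≤ L ∧ i.2.1 < 2 ^ (L - lv i) ∧ i.2.2 < 2 ^ (L - lv i) := by
    refine ⟨𝓘.sup fun i => lv i + i.2.1 + i.2.2, fun i hi => ?_⟩
    have h1 : lv i + i.2.1 + i.2.2 ≤ 𝓘.sup fun i => lv i + i.2.1 + i.2.2 :=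
      Finset.le_sup (f := fun i => lv i + i.2.1 + i.2.2) hi
    generalize (𝓘.sup fun i => lv i + i.2.1 + i.2.2) = L at h1
    have h2 : L - lv i < 2 ^ (L - lv i) := Nat.lt_two_pow_self
    omega
  set η : ℝ := (2 : ℝ) ^ k₀ with hηdef
  have hη : 0 < η := by positivity
  have hpow : ∀ i ∈ 𝓘, (2 : ℝ) ^ i.1 = η * 2 ^ lv i := fun i hi => by
    rw [(hlv i hi).1, zpow_add₀ two_ne_zero, zpow_natCast]
  let sg : ℤ × ℕ × ℕ → ℝ := fun i =>
    if 0 ≤ localForm i.1 i.2.1 i.2.2 (i.2.1 ^^^ i.2.2) F₀ F₁ F₂ then 1 else -1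
  have hsg : ∀ i, |sg i| = 1 := fun i => by
    simp only [sg]; split_ifs <;> simp
  let Φ : ℝ × ℝ × ℝ → ℝ := fun x =>
    ∑ i ∈ 𝓘, sg i * (2 : ℝ) ^ (-i.1) * T i.1 i.2.1 i.2.2 (i.2.1 ^^^ i.2.2) F₀ F₁ F₂ x
  have hΦ : Integrable Φ :=
    integrable_finsetSum _ fun i _ => (integrable_T hF₀ hF₁ hF₂ hb _ _ _ _).const_mul _
  have hint : ∫ x, Φ x = ∑ i ∈ 𝓘, |localForm i.1 i.2.1 i.2.2 (i.2.1 ^^^ i.2.2) F₀ F₁ F₂| := by
    rw [integral_finsetSum _ fun i _ => (integrable_T hF₀ hF₁ hF₂ hb _ _ _ _).const_mul _]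
    refine Finset.sum_congr rfl fun i _ => ?_
    rw [integral_const_mul, mul_assoc, ← localForm_eq hF₀ hF₁ hF₂ hb]
    simp only [sg]
    split_ifs with h
    · rw [one_mul, abs_of_nonneg h]
    · rw [neg_one_mul, abs_of_neg (not_le.1 h)]
  have hsub : ∀ i ∈ 𝓘, ∀ n : ℕ, n < 2 ^ (L - lv i) → ∀ x ∈ interval i.1 n,
      x ∈ Set.Ico (0 : ℝ) (0 + ((2 ^ L : ℕ) : ℝ) * η) := by
    intro i hi n hn x hx
    unfold interval at hx
    refine ⟨le_trans (by positivity) hx.1, lt_of_lt_of_le hx.2 ?_⟩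
    have h1 : ((n : ℝ) + 1) ≤ 2 ^ (L - lv i) := by exact_mod_cast hn
    have h2 : ((2 ^ L : ℕ) : ℝ) = 2 ^ lv i * 2 ^ (L - lv i) := by
      rw [← pow_add, Nat.add_sub_cancel' (hL i hi).1]; push_cast; rfl
    rw [hpow i hi, h2, zero_add]
    calc η * 2 ^ lv i * ((n : ℝ) + 1) ≤ η * 2 ^ lv i * 2 ^ (L - lv i) := by gcongr
      _ = _ := by ring
  have key := transfer 0 η hη (2 ^ L) Φ hΦ (by
      intro x hx
      obtain ⟨i, hi, hne⟩ := Finset.exists_ne_zero_of_sum_ne_zero hx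
      obtain ⟨h0, h1, h2⟩ := mem_of_T_ne (right_ne_zero_of_mul hne)
      exact ⟨hsub i hi _ (hL i hi).2.1 _ h0, hsub i hi _ (hL i hi).2.2 _ h1,
        hsub i hi _ (Nat.xor_lt_two_pow (hL i hi).2.1 (hL i hi).2.2) _ h2⟩)
    (g F₀) (g F₁) (g F₂) (g_nonneg _) (g_nonneg _) (g_nonneg _)
    (integrable_g hF₀ (fun z => (hb z).1) hc₀) (integrable_g hF₁ (fun z => (hb z).2.1) hc₁)
    (integrable_g hF₂ (fun z => (hb z).2.2) hc₂) (8 / η) (by positivity) (by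
      intro t₀ ht₀ t₁ ht₁ t₂ ht₂
      simp only [zero_add]
      let A₀ : Matrix (Fin (2 ^ L)) (Fin (2 ^ L)) ℝ := fun a b => F₀ (η * a + t₀, η * b + t₁)
      let A₁ : Matrix (Fin (2 ^ L)) (Fin (2 ^ L)) ℝ := fun a b => F₁ (η * a + t₁, η * b + t₂)
      let A₂ : Matrix (Fin (2 ^ L)) (Fin (2 ^ L)) ℝ := fun a b => F₂ (η * a + t₂, η * b + t₀)
      have hpos : ∀ (a : Fin (2 ^ L)) (t : ℝ), t ∈ Set.Ico 0 η → 0 ≤ η * a + t := fun a t ht =>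
        add_nonneg (by positivity) ht.1
      have e0 : ∑ m₀ : Fin (2 ^ L), ∑ m₁ : Fin (2 ^ L), g F₀ (η * m₀ + t₀, η * m₁ + t₁) = cub A₀ :=
        Finset.sum_congr rfl fun a _ => Finset.sum_congr rfl fun b _ =>
          g_of_nonneg _ (hpos a _ ht₀) (hpos b _ ht₁)
      have e1 : ∑ m₀ : Fin (2 ^ L), ∑ m₁ : Fin (2 ^ L), g F₁ (η * m₀ + t₁, η * m₁ + t₂) = cub A₁ :=
        Finset.sum_congr rfl fun a _ => Finset.sum_congr rfl fun b _ =>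
          g_of_nonneg _ (hpos a _ ht₁) (hpos b _ ht₂)
      have e2 : ∑ m₀ : Fin (2 ^ L), ∑ m₁ : Fin (2 ^ L), g F₂ (η * m₀ + t₂, η * m₁ + t₀) = cub A₂ :=
        Finset.sum_congr rfl fun a _ => Finset.sum_congr rfl fun b _ =>
          g_of_nonneg _ (hpos a _ ht₂) (hpos b _ ht₀)
      have e3 : ∑ m₀ : Fin (2 ^ L), ∑ m₁ : Fin (2 ^ L), ∑ m₂ : Fin (2 ^ L),
          Φ (η * m₀ + t₀, η * m₁ + t₁, η * m₂ + t₂) =
          ∑ i ∈ 𝓘, sg i * η⁻¹ * dloc L A₀ A₁ A₂ (lv i) i.2.1 i.2.2 := by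
        simp only [Φ]
        rw [sum_comm3]
        refine Finset.sum_congr rfl fun i hi => ?_
        have h1 : (2 : ℝ) ^ (-i.1) = η⁻¹ * ((2 : ℝ) ^ lv i)⁻¹ := by
          rw [_root_.zpow_neg, hpow i hi, mul_inv]
        simp only [← Finset.mul_sum]
        rw [h1, dloc, mul_assoc, mul_assoc, mul_assoc]
        congr 3
        refine Finset.sum_congr rfl fun a _ => Finset.sum_congr rfl fun b _ =>
          Finset.sum_congr rfl fun c _ => ?_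
        unfold T
        rw [(hlv i hi).1, haarSign_lattice k₀ _ (hlv i hi).2 _ _ ht₀,
          haarSign_lattice k₀ _ (hlv i hi).2 _ _ ht₁, haarSign_lattice k₀ _ (hlv i hi).2 _ _ ht₂]
      rw [e0, e1, e2, e3]
      have h4 := dyadic_discrete L A₀ A₁ A₂
      let φ : ℤ × ℕ × ℕ → (Σ _ : ℕ, ℕ × ℕ) := fun i => ⟨lv i, i.2⟩
      have hφ : Set.InjOn φ 𝓘 := by
        intro i hi j hj e
        simp only [φ, Sigma.mk.injEq, heq_eq_eq] at e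
        refine Prod.ext ?_ e.2
        rw [(hlv i hi).1, (hlv j hj).1, e.1]
      have h5 : ∑ i ∈ 𝓘, |dloc L A₀ A₁ A₂ (lv i) i.2.1 i.2.2| ≤
          ∑ l ∈ Finset.Icc 1 L, ∑ n₀ ∈ Finset.range (2 ^ (L - l)),
            ∑ n₁ ∈ Finset.range (2 ^ (L - l)), |dloc L A₀ A₁ A₂ l n₀ n₁| := by
        calc _ = ∑ j ∈ 𝓘.image φ, |dloc L A₀ A₁ A₂ j.1 j.2.1 j.2.2| := by
              rw [Finset.sum_image hφ]
          _ ≤ ∑ j ∈ (Finset.Icc 1 L).sigma (fun l => Finset.range (2 ^ (L - l)) ×ˢ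
                Finset.range (2 ^ (L - l))), |dloc L A₀ A₁ A₂ j.1 j.2.1 j.2.2| := by
              refine Finset.sum_le_sum_of_subset_of_nonneg (fun j hj => ?_) fun _ _ _ => abs_nonneg _
              obtain ⟨i, hi, rfl⟩ := Finset.mem_image.1 hj
              simp only [φ, Finset.mem_sigma, Finset.mem_Icc, Finset.mem_product, Finset.mem_range]
              exact ⟨⟨(hlv i hi).2, (hL i hi).1⟩, (hL i hi).2⟩
          _ = _ := by
              rw [Finset.sum_sigma]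
              exact Finset.sum_congr rfl fun l _ => Finset.sum_product _ _ _
      calc _ ≤ ∑ i ∈ 𝓘, |sg i * η⁻¹ * dloc L A₀ A₁ A₂ (lv i) i.2.1 i.2.2| :=
            Finset.abs_sum_le_sum_abs _ _
        _ = η⁻¹ * ∑ i ∈ 𝓘, |dloc L A₀ A₁ A₂ (lv i) i.2.1 i.2.2| := by
            rw [Finset.mul_sum]
            refine Finset.sum_congr rfl fun i _ => ?_
            rw [abs_mul, abs_mul, hsg, one_mul, abs_of_pos (inv_pos.2 hη)]
        _ ≤ η⁻¹ * (8 * (cub A₀ + cub A₁ + cub A₂)) := by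
            gcongr
            exact h5.trans h4
        _ = _ := by ring)
  rw [hint, div_mul_cancel₀ _ hη.ne'] at key
  exact (le_abs_self _).trans key

theorem localForm_scale (l₀ l₁ l₂ : ℝ) (k : ℤ) (n₀ n₁ n₂ : ℕ) :
    localForm k n₀ n₁ n₂ (fun z => l₀ * F₀ z) (fun z => l₁ * F₁ z) (fun z => l₂ * F₂ z) =
      l₀ * l₁ * l₂ * localForm k n₀ n₁ n₂ F₀ F₁ F₂ := by
  unfold localForm
  rw [mul_left_comm]
  congr 1
  simp only [← integral_const_mul]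
  congr 1; funext x₀; congr 1; funext x₁; congr 1; funext x₂
  ring

theorem integral_g_scale {l : ℝ} (hl : 0 < l) (F : ℝ × ℝ → ℝ) :
    ∫ z, g (fun z => l * F z) z = l ^ 3 * ∫ z, g F z := by
  rw [integral_g, integral_g, ← integral_const_mul]
  congr 1; funext z
  rw [abs_mul, abs_of_pos hl, mul_pow]

end

end DyadC

open DyadC in
theorem dyadic_bound
    (F₀ F₁ F₂ : ℝ × ℝ → ℝ) (hF₀ : Measurable F₀) (hF₁ : Measurable F₁) (hF₂ : Measurable F₂)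
    (hb : ∃ M : ℝ, ∀ z, abs (F₀ z) ≤ M ∧ abs (F₁ z) ≤ M ∧ abs (F₂ z) ≤ M)
    (hc₀ : HasCompactSupport F₀) (hc₁ : HasCompactSupport F₁) (hc₂ : HasCompactSupport F₂)
    (𝓘 : Finset (ℤ × ℕ × ℕ)) :
    ∑ i ∈ 𝓘, abs (Crest.AnalysisR.TriangularDyadic.localForm i.1 i.2.1 i.2.2 (i.2.1 ^^^ i.2.2) F₀ F₁ F₂) ≤
      40 * (∫ z in Set.Ici 0 ×ˢ Set.Ici 0, abs (F₀ z) ^ 3) ^ (1 / 3 : ℝ) *
        (∫ z in Set.Ici 0 ×ˢ Set.Ici 0, abs (F₁ z) ^ 3) ^ (1 / 3 : ℝ) *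
        (∫ z in Set.Ici 0 ×ˢ Set.Ici 0, abs (F₂ z) ^ 3) ^ (1 / 3 : ℝ) := by
  obtain ⟨M, hb⟩ := hb
  have hM : 0 ≤ M := (abs_nonneg _).trans (hb 0).1
  have ha : ∀ F, 0 ≤ ∫ z, g F z := fun F => integral_nonneg (g_nonneg F)
  simp only [← integral_g]
  refine (le_of_forall_scale (K := 8) (ha F₀) (ha F₁) (ha F₂) (by norm_num) ?_).trans ?_
  · intro l₀ l₁ l₂ h₀ h₁ h₂
    have hsc : ∀ (l : ℝ) (a : ℝ), 0 < l → l ≤ l₀ + l₁ + l₂ → |a| ≤ M →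
        |l * a| ≤ (l₀ + l₁ + l₂) * M := fun l a hl hl' h => by
      rw [abs_mul, abs_of_pos hl]
      gcongr
    have key := unscaled (F₀ := fun z => l₀ * F₀ z) (F₁ := fun z => l₁ * F₁ z)
      (F₂ := fun z => l₂ * F₂ z) (hF₀.const_mul _) (hF₁.const_mul _) (hF₂.const_mul _)
      (M := (l₀ + l₁ + l₂) * M)
      (fun z => ⟨hsc _ _ h₀ (by linarith) (hb z).1, hsc _ _ h₁ (by linarith) (hb z).2.1,
        hsc _ _ h₂ (by linarith) (hb z).2.2⟩)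
      hc₀.mul_left hc₁.mul_left hc₂.mul_left 𝓘
    rw [integral_g_scale h₀, integral_g_scale h₁, integral_g_scale h₂] at key
    simp only [localForm_scale, abs_mul, abs_of_pos h₀, abs_of_pos h₁, abs_of_pos h₂,
      ← Finset.mul_sum] at key
    exact key
  · have := Real.rpow_nonneg (ha F₀) (1 / 3)
    have := Real.rpow_nonneg (ha F₁) (1 / 3)
    have := Real.rpow_nonneg (ha F₂) (1 / 3)
    gcongr
    norm_num

end Crest.Agent.R72
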