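import Crest.Agent.R72.Lap

set_option autoImplicit false

namespace Crest.Agent.R72

open Matrix MeasureTheory
open scoped ENNReal

theorem continuous_psi (s : ℝ) : Continuous (psi s) := by
  have hc := continuous_lap s
  exact intervalIntegral.continuous_parametric_intervalIntegral_of_continuous'
    (f := fun y h => lap s (y - s * h) - lap s (y + s * h)) (by
      unfold Function.uncurry; fun_prop) 20 21

theorem psi_neg (s y : ℝ) : psi s (-y) = -psi s y := by
  unfold psi
  rw [← intervalIntegral.integral_neg]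
  refine intervalIntegral.integral_congr (fun h _ => ?_)
  rw [show -y - s * h = -(y + s * h) by ring, show -y + s * h = -(y - s * h) by ring, lap_neg,
    lap_neg]
  ring

theorem phiAux_lap_pair {s : ℝ} (hs : 0 < s) (y : ℝ) {h : ℝ} (hh : h ∈ Set.uIoc (20 : ℝ) 21) :
    lap s (y - s * h) + lap s (y + s * h) ≤ 2 * Real.exp 21 * lap s y := by
  rw [Set.uIoc_of_le (by norm_num)] at hh
  have h0 : 0 < h := by linarith [hh.1]
  have e1 : |s * h| / s = h := by
    rw [abs_of_pos (mul_pos hs h0), mul_div_cancel_left₀ _ hs.ne']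
  have a1 := lap_shift hs y (s * h)
  have a2 := lap_shift hs y (-(s * h))
  rw [abs_neg, sub_neg_eq_add] at a2
  rw [e1] at a1 a2
  have a3 : Real.exp h * lap s y ≤ Real.exp 21 * lap s y :=
    mul_le_mul_of_nonneg_right (Real.exp_le_exp.2 hh.2) (lap_pos hs y).le
  linarith

theorem abs_psi_le {s : ℝ} (hs : 0 < s) (y : ℝ) : |psi s y| ≤ 2 * Real.exp 21 * lap s y := by
  have := intervalIntegral.norm_integral_le_of_norm_le_const (a := (20 : ℝ)) (b := 21)
    (f := fun h => lap s (y - s * h) - lap s (y + s * h)) (C := 2 * Real.exp 21 * lap s y)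
    (fun h hh => by
      have b3 := phiAux_lap_pair hs y hh
      have b4 := lap_pos hs (y - s * h)
      have b5 := lap_pos hs (y + s * h)
      rw [Real.norm_eq_abs, abs_le]
      constructor <;> linarith)
  rw [Real.norm_eq_abs] at this
  refine this.trans (le_of_eq ?_)
  norm_num

theorem phiAux_measurable_psi : Measurable fun p : ℝ × ℝ => psi p.1 p.2 := by
  have h1 : Measurable (fun q : (ℝ × ℝ) × ℝ =>
      lap q.1.1 (q.1.2 - q.1.1 * q.2) - lap q.1.1 (q.1.2 + q.1.1 * q.2)) :=
    (measurable_lap_uncurry.comp (f := fun q : (ℝ × ℝ) × ℝ => (q.1.1, q.1.2 - q.1.1 * q.2))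
      (by fun_prop)).sub
    (measurable_lap_uncurry.comp (f := fun q : (ℝ × ℝ) × ℝ => (q.1.1, q.1.2 + q.1.1 * q.2))
      (by fun_prop))
  have h2 := (h1.stronglyMeasurable.integral_prod_right'
    (ν := volume.restrict (Set.Ioc (20 : ℝ) 21))).measurable
  have e : (fun p : ℝ × ℝ => psi p.1 p.2) = fun p : ℝ × ℝ => ∫ h in Set.Ioc (20 : ℝ) 21,
      (lap p.1 (p.2 - p.1 * h) - lap p.1 (p.2 + p.1 * h)) := by
    funext p
    unfold psi
    rw [intervalIntegral.integral_of_le (by norm_num)]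
  rw [e]
  exact h2

theorem measurable_phi_uncurry : Measurable fun p : ℝ × ℝ => phi p.1 p.2 := by
  have h1 : Measurable (fun q : (ℝ × ℝ) × (ℝ × ℝ) =>
      psi q.1.1 q.2.1 * psi q.1.1 q.2.2 * psi q.1.1 (q.1.2 - q.2.1 - q.2.2)) :=
    ((phiAux_measurable_psi.comp (f := fun q : (ℝ × ℝ) × (ℝ × ℝ) => (q.1.1, q.2.1))
      (by fun_prop)).mul
    (phiAux_measurable_psi.comp (f := fun q : (ℝ × ℝ) × (ℝ × ℝ) => (q.1.1, q.2.2))
      (by fun_prop))).mul
    (phiAux_measurable_psi.comp
      (f := fun q : (ℝ × ℝ) × (ℝ × ℝ) => (q.1.1, q.1.2 - q.2.1 - q.2.2)) (by fun_prop))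
  exact (h1.stronglyMeasurable.integral_prod_right' (ν := volume)).measurable

theorem phi_neg (s t : ℝ) : phi s (-t) = -phi s t := by
  unfold phi
  rw [← integral_neg_eq_self, ← integral_neg]
  refine integral_congr_ae (Filter.Eventually.of_forall (fun p => ?_))
  simp only [Prod.fst_neg, Prod.snd_neg]
  rw [show -t - -p.1 - -p.2 = -(t - p.1 - p.2) by ring, psi_neg, psi_neg, psi_neg]
  ring

theorem phiAux_psi_scale {s : ℝ} (hs : 0 < s) (y : ℝ) : psi s y = s⁻¹ * psi 1 (y / s) := by
  unfold psi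
  rw [← intervalIntegral.integral_const_mul]
  refine intervalIntegral.integral_congr (fun h _ => ?_)
  rw [lap_scale hs (y - s * h), lap_scale hs (y + s * h), mul_sub, sub_div, add_div,
    mul_div_cancel_left₀ _ hs.ne', one_mul]

theorem phi_scale {s : ℝ} (hs : 0 < s) (t : ℝ) : phi s t = s⁻¹ * phi 1 (t / s) := by
  unfold phi
  have h := Measure.integral_comp_smul (volume : Measure (ℝ × ℝ))
    (fun p : ℝ × ℝ => psi 1 p.1 * psi 1 p.2 * psi 1 (t / s - p.1 - p.2)) s⁻¹
  have e : ∀ p : ℝ × ℝ, psi s p.1 * psi s p.2 * psi s (t - p.1 - p.2) =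
      s⁻¹ ^ 3 * (psi 1 (s⁻¹ • p).1 * psi 1 (s⁻¹ • p).2 *
        psi 1 (t / s - (s⁻¹ • p).1 - (s⁻¹ • p).2)) := by
    intro p
    rw [phiAux_psi_scale hs p.1, phiAux_psi_scale hs p.2, phiAux_psi_scale hs (t - p.1 - p.2)]
    simp only [Prod.smul_fst, Prod.smul_snd, smul_eq_mul, sub_div, inv_mul_eq_div]
    ring
  simp only [e]
  rw [integral_const_mul, h]
  simp only [Module.finrank_prod, Module.finrank_self, smul_eq_mul]
  rw [abs_of_pos (by positivity), ← mul_assoc, show 1 + 1 = 2 from rfl]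
  congr 1
  field_simp

theorem phiAux_integrable_of_le {s : ℝ} (hs : 0 < s) (x₀ x₁ : ℝ) {F : ℝ × ℝ → ℝ}
    (hF : Continuous F) {K : ℝ} (hK : ∀ p, |F p| ≤ K * (lap s (x₀ - p.1) * lap s (x₁ - p.2))) :
    Integrable F := by
  have h1 : Integrable (fun p : ℝ × ℝ => lap s (x₀ - p.1) * lap s (x₁ - p.2)) :=
    Integrable.mul_prod ((prof_lap hs).intg.comp_sub_left x₀) ((prof_lap hs).intg.comp_sub_left x₁)
  exact (h1.const_mul K).mono' hF.aestronglyMeasurable (Filter.Eventually.of_forall hK)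

theorem integrable_psi_plane {s : ℝ} (hs : 0 < s) (x₀ x₁ x₂ : ℝ) :
    Integrable fun p : ℝ × ℝ => psi s (x₀ - p.1) * psi s (x₁ - p.2) * psi s (x₂ - (-p.1 - p.2)) := by
  have hc := continuous_psi s
  refine phiAux_integrable_of_le hs x₀ x₁ (K := (2 * Real.exp 21) ^ 3 * (1 / (2 * s)))
    (by fun_prop) (fun p => ?_)
  have a1 := abs_psi_le hs (x₀ - p.1)
  have a2 := abs_psi_le hs (x₁ - p.2)
  have a3 := (abs_psi_le hs (x₂ - (-p.1 - p.2))).trans
    (mul_le_mul_of_nonneg_left (lap_le hs _) (by positivity))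
  rw [abs_mul, abs_mul]
  refine (mul_le_mul (mul_le_mul a1 a2 (abs_nonneg _) ((abs_nonneg _).trans a1)) a3 (abs_nonneg _)
    (mul_nonneg ((abs_nonneg _).trans a1) ((abs_nonneg _).trans a2))).trans (le_of_eq ?_)
  ring

theorem phi_eq_plane (s x₀ x₁ x₂ : ℝ) : phi s (x₀ + x₁ + x₂) =
    ∫ p : ℝ × ℝ, psi s (x₀ - p.1) * psi s (x₁ - p.2) * psi s (x₂ - (-p.1 - p.2)) := by
  unfold phi
  rw [← integral_sub_left_eq_self _ _ ((x₀, x₁) : ℝ × ℝ)]
  refine integral_congr_ae (Filter.Eventually.of_forall (fun p => ?_))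
  simp only [Prod.fst_sub, Prod.snd_sub]
  congr 2
  ring

theorem phiAux_integrable_psi {s : ℝ} (hs : 0 < s) (t : ℝ) :
    Integrable fun p : ℝ × ℝ => psi s p.1 * psi s p.2 * psi s (t - p.1 - p.2) := by
  have h := (integrable_psi_plane hs 0 0 t).comp_neg
  refine h.congr (Filter.Eventually.of_forall (fun p => ?_))
  simp only [Prod.fst_neg, Prod.snd_neg, sub_neg_eq_add, zero_add, neg_neg]
  rw [sub_sub]

/-- The triple convolution of Laplace densities. -/
theorem phiAux_triple {s : ℝ} (hs : 0 < s) (t : ℝ) {F : ℝ × ℝ → ℝ} {K : ℝ} (hK0 : 0 ≤ K)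
    (hK : ∀ p, |F p| ≤ K * (lap s p.1 * lap s p.2 * lap s (t - p.1 - p.2))) :
    |∫ p, F p| ≤ 16 * K * lap (4 * s) t := by
  have hi : Integrable (fun p : ℝ × ℝ => lap s p.1 * lap s p.2 * lap s (t - p.1 - p.2)) := by
    refine phiAux_integrable_of_le hs 0 0 (K := 1 / (2 * s)) ?_ (fun p => ?_)
    · have := continuous_lap s
      fun_prop
    · have a1 := lap_pos hs p.1
      have a2 := lap_pos hs p.2
      have a3 := lap_pos hs (t - p.1 - p.2)
      rw [abs_of_pos (by positivity), zero_sub, zero_sub, lap_neg, lap_neg, mul_comm]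
      exact mul_le_mul_of_nonneg_right (lap_le hs _) (by positivity)
  have h1 : |∫ p, F p| ≤ ∫ p : ℝ × ℝ, K * (lap s p.1 * lap s p.2 * lap s (t - p.1 - p.2)) :=
    norm_integral_le_of_norm_le (f := F) (hi.const_mul K) (Filter.Eventually.of_forall hK)
  refine h1.trans ?_
  rw [integral_const_mul, mul_comm 16 K, mul_assoc]
  refine mul_le_mul_of_nonneg_left ?_ hK0
  rw [Measure.volume_eq_prod] at hi ⊢
  rw [integral_prod _ hi]
  have h2 : ∀ x, ∫ y, lap s x * lap s y * lap s (t - x - y) = lap s x * cv s (lap s) (t - x) := by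
    intro x
    simp only [mul_assoc]
    rw [integral_const_mul]
    rfl
  simp only [h2]
  have hs2 : 0 < 2 * s := by linarith
  have h3 : ∀ x, cv s (lap s) x ≤ 4 * lap (2 * s) x := by
    intro x
    have := cv_lap_le hs hs (le_refl _) (le_refl _) x
    rwa [max_self, mul_div_cancel_right₀ _ hs.ne', show (2 : ℝ) * 2 = 4 by norm_num] at this
  have h4 : cv s (lap (2 * s)) t ≤ 4 * lap (4 * s) t := by
    have := cv_lap_le (S := 4 * s) hs hs2 (by linarith) (by linarith) t
    rwa [max_eq_right (by linarith : s ≤ 2 * s), show 4 * s / (2 * s) = 2 by field_simp; norm_num,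
      show (2 : ℝ) * 2 = 4 by norm_num] at this
  have h5 : Integrable (fun x => lap s x * lap (2 * s) (t - x)) :=
    integrable_cv hs (continuous_lap _).measurable (B := 1 / (2 * (2 * s)))
      (fun y => by rw [abs_of_pos (lap_pos hs2 y)]; exact lap_le hs2 y) t
  calc ∫ x, lap s x * cv s (lap s) (t - x)
      ≤ ∫ x, 4 * (lap s x * lap (2 * s) (t - x)) := by
        refine integral_mono_of_nonneg (Filter.Eventually.of_forall (fun x => ?_))
          (h5.const_mul 4) (Filter.Eventually.of_forall (fun x => ?_))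
        · exact mul_nonneg (lap_pos hs x).le
            (integral_nonneg (fun y => mul_nonneg (lap_pos hs _).le (lap_pos hs _).le))
        · have := mul_le_mul_of_nonneg_left (h3 (t - x)) (lap_pos hs x).le
          simp only
          linarith
    _ = 4 * cv s (lap (2 * s)) t := by rw [integral_const_mul]; rfl
    _ ≤ 16 * lap (4 * s) t := by linarith

theorem phiAux_abs_phi_le {s : ℝ} (hs : 0 < s) (t : ℝ) :
    |phi s t| ≤ 16 * (2 * Real.exp 21) ^ 3 * lap (4 * s) t := by
  refine phiAux_triple hs t (by positivity) (fun p => ?_)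
  have a1 := abs_psi_le hs p.1
  have a2 := abs_psi_le hs p.2
  have a3 := abs_psi_le hs (t - p.1 - p.2)
  rw [abs_mul, abs_mul]
  refine (mul_le_mul (mul_le_mul a1 a2 (abs_nonneg _) ((abs_nonneg _).trans a1)) a3 (abs_nonneg _)
    (mul_nonneg ((abs_nonneg _).trans a1) ((abs_nonneg _).trans a2))).trans (le_of_eq ?_)
  ring

theorem phiAux_psi_shift {s : ℝ} (hs : 0 < s) (a : ℝ) {y : ℝ} (hy : |y| ≤ s) :
    |psi s (a - y) - psi s a| ≤ 2 * (|y| / s) * (2 * Real.exp 21) * lap s a := by
  have hc := continuous_lap s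
  have hx0 : 0 ≤ |y| / s := div_nonneg (abs_nonneg _) hs.le
  have hx1 : |y| / s ≤ 1 := (div_le_one hs).2 hy
  have he : Real.exp (|y| / s) - 1 ≤ 2 * (|y| / s) := by
    have := Real.abs_exp_sub_one_le (x := |y| / s) (by rwa [abs_of_nonneg hx0])
    rw [abs_of_nonneg hx0] at this
    exact (le_abs_self _).trans this
  unfold psi
  rw [← intervalIntegral.integral_sub (Continuous.intervalIntegrable (by fun_prop) _ _)
    (Continuous.intervalIntegrable (by fun_prop) _ _)]
  have := intervalIntegral.norm_integral_le_of_norm_le_const (a := (20 : ℝ)) (b := 21)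
    (f := fun h => lap s (a - y - s * h) - lap s (a - y + s * h) -
      (lap s (a - s * h) - lap s (a + s * h)))
    (C := 2 * (|y| / s) * (2 * Real.exp 21) * lap s a) (fun h hh => by
      have b1 := abs_lap_shift_sub hs (a - s * h) y
      have b2 := abs_lap_shift_sub hs (a + s * h) y
      have b3 := phiAux_lap_pair hs a hh
      have b4 := lap_pos hs (a - s * h)
      have b5 := lap_pos hs (a + s * h)
      rw [show a - s * h - y = a - y - s * h by ring] at b1
      rw [show a + s * h - y = a - y + s * h by ring] at b2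
      have b6 : (Real.exp (|y| / s) - 1) * (lap s (a - s * h) + lap s (a + s * h)) ≤
          2 * (|y| / s) * (2 * Real.exp 21 * lap s a) :=
        mul_le_mul he b3 (by positivity) (by positivity)
      rw [Real.norm_eq_abs, abs_le]
      rw [abs_le] at b1 b2
      constructor <;> nlinarith)
  rw [Real.norm_eq_abs] at this
  refine this.trans (le_of_eq ?_)
  norm_num

theorem phiAux_phi_shift {s : ℝ} (hs : 0 < s) (t : ℝ) {y : ℝ} (hy : |y| ≤ s) :
    |phi s (t - y) - phi s t| ≤ 16 * (2 * (|y| / s) * (2 * Real.exp 21) ^ 3) * lap (4 * s) t := by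
  unfold phi
  rw [← integral_sub (phiAux_integrable_psi hs _) (phiAux_integrable_psi hs _)]
  refine phiAux_triple hs t (by positivity) (fun p => ?_)
  have a1 := abs_psi_le hs p.1
  have a2 := abs_psi_le hs p.2
  have a3 := phiAux_psi_shift hs (t - p.1 - p.2) hy
  rw [← mul_sub, show t - y - p.1 - p.2 = t - p.1 - p.2 - y by ring, abs_mul, abs_mul]
  refine (mul_le_mul (mul_le_mul a1 a2 (abs_nonneg _) ((abs_nonneg _).trans a1)) a3 (abs_nonneg _)
    (mul_nonneg ((abs_nonneg _).trans a1) ((abs_nonneg _).trans a2))).trans (le_of_eq ?_)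
  ring

theorem abs_phi_le : ∃ C : ℝ, 0 < C ∧ ∀ s t : ℝ, 0 < s → |phi s t| ≤ C * lap (4 * s) t := by
  exact ⟨16 * (2 * Real.exp 21) ^ 3, by positivity, fun s t hs => phiAux_abs_phi_le hs t⟩

theorem phi_modulus : ∃ C : ℝ, 0 < C ∧ ∀ s : ℝ, 1 ≤ s → ∀ (ι : Type) [Fintype ι] (x : ι → ℝ),
    Sep x → ∀ y : ℝ, ∑ i, |phi s (x i - y) - phi s (x i)| ≤ C * |y| / s := by
  refine ⟨64 * (2 * Real.exp 21) ^ 3, by positivity, fun s hs1 ι _ x hx y => ?_⟩
  have hs : 0 < s := by linarith
  have h0 := sum_lap_le hx (s := 4 * s) (by linarith) 0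
  have h1 := sum_lap_le hx (s := 4 * s) (by linarith) y
  simp only [sub_zero] at h0
  have hc : 0 < (2 * Real.exp 21) ^ 3 := by positivity
  rw [mul_div_assoc]
  rcases le_total |y| s with hy | hy
  · refine (Finset.sum_le_sum (fun i _ => phiAux_phi_shift hs (x i) hy)).trans ?_
    rw [← Finset.mul_sum]
    refine (mul_le_mul_of_nonneg_left h0 (by positivity)).trans (le_of_eq ?_)
    ring
  · have hy1 : 1 ≤ |y| / s := (one_le_div hs).2 hy
    have h2 : ∀ i, |phi s (x i - y) - phi s (x i)| ≤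
        16 * (2 * Real.exp 21) ^ 3 * (lap (4 * s) (x i - y) + lap (4 * s) (x i)) := by
      intro i
      have a1 := phiAux_abs_phi_le hs (x i - y)
      have a2 := phiAux_abs_phi_le hs (x i)
      have a3 := abs_sub (phi s (x i - y)) (phi s (x i))
      linarith
    refine (Finset.sum_le_sum (fun i _ => h2 i)).trans ?_
    rw [← Finset.mul_sum, Finset.sum_add_distrib]
    nlinarith

end Crest.Agent.R72
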