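import Crest.Agent.R72.Step
import Crest.Agent.R72.Tri
import Crest.Agent.R72.Phi

set_option autoImplicit false

namespace Crest.Agent.R72

open Matrix MeasureTheory
open scoped ENNReal

section aux

variable {ι₀ ι₁ ι₂ : Type} [Fintype ι₀] [DecidableEq ι₀] [Fintype ι₁] [DecidableEq ι₁]
  [Fintype ι₂] [DecidableEq ι₂]

omit [DecidableEq ι₀] [DecidableEq ι₂] in
theorem Gain.trace_lin (A : Matrix ι₀ ι₁ ℝ) (B : Matrix ι₁ ι₂ ℝ) (W : Matrix ι₀ ι₂ ℝ)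
    (d : ι₁ → ℝ) : (Wᵀ * (A * diagonal d * B)).trace = ∑ j, (B * Wᵀ * A) j j * d j := by
  rw [← Matrix.mul_assoc, trace_mul_comm, ← Matrix.mul_assoc, ← Matrix.mul_assoc]
  simp only [trace, diag_apply, mul_diagonal]

theorem Gain.continuous_ctr {α ι : Type} [TopologicalSpace α] (s : ℝ) (x : ι → ℝ) {p : α → ℝ}
    (hp : Continuous p) : Continuous fun a => ctr (lap s) x (p a) :=
  continuous_pi fun _ => (continuous_lap s).comp (continuous_const.sub hp)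

/-- The divergence caused by translating the middle weight by `t`. -/
noncomputable def Gain.dm (F : Matrix ι₀ ι₁ ℝ) (G : Matrix ι₁ ι₂ ℝ) (u : ι₀ → ℝ) (x : ι₁ → ℝ)
    (w : ι₂ → ℝ) (s p t : ℝ) : ℝ :=
  dmid F G u (ctr (lap s) x (p + t)) (ctr (lap s) x p) w

theorem Gain.continuous_dm (F : Matrix ι₀ ι₁ ℝ) (G : Matrix ι₁ ι₂ ℝ) (u : ι₀ → ℝ) (x : ι₁ → ℝ)
    (w : ι₂ → ℝ) (s p : ℝ) : Continuous (Gain.dm F G u x w s p) :=
  continuous_dmid F G continuous_const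
    (Gain.continuous_ctr s x (continuous_const.add continuous_id)) continuous_const
    continuous_const

theorem Gain.hyp_shift (F : Matrix ι₀ ι₁ ℝ) (G : Matrix ι₁ ι₂ ℝ) (u : ι₀ → ℝ) (x : ι₁ → ℝ)
    (w : ι₂ → ℝ) {s : ℝ} (hs : 0 < s) (p : ℝ) {t : ℝ} (ht : |t| ≤ 21 * s) :
    Hyp (wt u F (ctr (lap s) x p)) (fun j => lap s (x j - p - t) / lap s (x j - p) - 1)
      (wt (ctr (lap s) x p) G w) (√(1 + Real.exp 21) * Gain.dm F G u x w s p t) := by
  have h := hyp_of_dmid F G u (v := ctr (lap s) x p) (fun j => (lap_pos hs _).le) w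
    (fun j => lap s (x j - p - t) / lap s (x j - p) - 1) (κ := Real.exp 21) (Real.exp_pos _).le
    fun j => by
      have h1 := lap_pos hs (x j - p)
      have h2 := lap_pos hs (x j - p - t)
      have h3 := lap_shift hs (x j - p) t
      have h4 : Real.exp (|t| / s) ≤ Real.exp 21 :=
        Real.exp_le_exp.2 ((div_le_iff₀ hs).2 ht)
      have h5 : lap s (x j - p - t) / lap s (x j - p) ≤ Real.exp 21 :=
        (div_le_iff₀ h1).2 (h3.trans (mul_le_mul_of_nonneg_right h4 h1.le))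
      have h6 : 0 < lap s (x j - p - t) / lap s (x j - p) := div_pos h2 h1
      constructor <;> linarith
  have e : (fun j => ctr (lap s) x p j * (1 + (lap s (x j - p - t) / lap s (x j - p) - 1))) =
      ctr (lap s) x (p + t) := by
    funext j
    have h1 := lap_pos hs (x j - p)
    simp only [ctr]
    rw [← sub_sub]
    field_simp
    ring
  rw [e] at h
  exact h

/-- The window integral of the divergences. -/
noncomputable def Gain.win (F : Matrix ι₀ ι₁ ℝ) (G : Matrix ι₁ ι₂ ℝ) (u : ι₀ → ℝ) (x : ι₁ → ℝ)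
    (w : ι₂ → ℝ) (s p : ℝ) : ℝ :=
  ∫ h in (20 : ℝ)..21, (Gain.dm F G u x w s p (s * h) + Gain.dm F G u x w s p (-(s * h)))

theorem Gain.continuous_win_integrand (F : Matrix ι₀ ι₁ ℝ) (G : Matrix ι₁ ι₂ ℝ) (u : ι₀ → ℝ)
    (x : ι₁ → ℝ) (w : ι₂ → ℝ) (s p : ℝ) : Continuous fun h : ℝ =>
      Gain.dm F G u x w s p (s * h) + Gain.dm F G u x w s p (-(s * h)) :=
  ((Gain.continuous_dm F G u x w s p).comp (continuous_const.mul continuous_id)).add
    ((Gain.continuous_dm F G u x w s p).comp (continuous_const.mul continuous_id).neg)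

theorem Gain.hyp_psi (F : Matrix ι₀ ι₁ ℝ) (G : Matrix ι₁ ι₂ ℝ) (u : ι₀ → ℝ) (x : ι₁ → ℝ)
    (w : ι₂ → ℝ) {s : ℝ} (hs : 0 < s) (p : ℝ) :
    Hyp (wt u F (ctr (lap s) x p)) (fun j => psi s (x j - p) / (2 * lap s (x j - p)))
      (wt (ctr (lap s) x p) G w) (√(1 + Real.exp 21) / 2 * Gain.win F G u x w s p) := by
  intro W
  set A := wt u F (ctr (lap s) x p) with hA
  set B := wt (ctr (lap s) x p) G w with hB
  set Q₁ := (Wᵀ * msq (A * Aᵀ) * W).trace with hQ₁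
  set Q₂ := (W * msq (Bᵀ * B) * Wᵀ).trace with hQ₂
  set c : ι₁ → ℝ := fun j => (B * Wᵀ * A) j j / lap s (x j - p) with hc
  have hcont : ∀ j, Continuous fun h : ℝ => lap s (x j - p - s * h) - lap s (x j - p + s * h) :=
    fun j => ((continuous_lap s).comp (by fun_prop)).sub ((continuous_lap s).comp (by fun_prop))
  have hpt : ∀ h ∈ Set.Icc (20 : ℝ) 21,
      ∑ j, 2 * c j * (lap s (x j - p - s * h) - lap s (x j - p + s * h)) ≤
        √(1 + Real.exp 21) * (Gain.dm F G u x w s p (s * h) + Gain.dm F G u x w s p (-(s * h)))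
          + 2 * (Q₁ + Q₂) := by
    intro h hh
    have ht : |s * h| ≤ 21 * s := by
      rw [abs_of_nonneg (mul_nonneg hs.le (by linarith [hh.1]))]
      nlinarith [hh.2]
    have h1 := Gain.hyp_shift F G u x w hs p ht W
    have h2 := (Gain.hyp_shift F G u x w hs p (t := -(s * h)) (by rwa [abs_neg])).neg W
    rw [Gain.trace_lin] at h1 h2
    rw [← hA, ← hB, ← hQ₁, ← hQ₂] at h1 h2
    have e : ∑ j, 2 * c j * (lap s (x j - p - s * h) - lap s (x j - p + s * h)) =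
        2 * ∑ j, (B * Wᵀ * A) j j * (lap s (x j - p - s * h) / lap s (x j - p) - 1) +
        2 * ∑ j, (B * Wᵀ * A) j j * -(lap s (x j - p - -(s * h)) / lap s (x j - p) - 1) := by
      rw [Finset.mul_sum, Finset.mul_sum, ← Finset.sum_add_distrib]
      refine Finset.sum_congr rfl fun j _ => ?_
      rw [hc, sub_neg_eq_add]
      ring
    rw [e]
    linarith
  have i₁ : ∀ j, IntervalIntegrable (fun h : ℝ =>
      2 * c j * (lap s (x j - p - s * h) - lap s (x j - p + s * h))) volume 20 21 :=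
    fun j => ((hcont j).intervalIntegrable _ _).const_mul _
  have i₂ : IntervalIntegrable (fun h : ℝ => √(1 + Real.exp 21) *
      (Gain.dm F G u x w s p (s * h) + Gain.dm F G u x w s p (-(s * h)))) volume 20 21 :=
    ((Gain.continuous_win_integrand F G u x w s p).intervalIntegrable _ _).const_mul _
  have i₃ : IntervalIntegrable (fun h : ℝ =>
      ∑ j, 2 * c j * (lap s (x j - p - s * h) - lap s (x j - p + s * h))) volume 20 21 :=
    Continuous.intervalIntegrable (continuous_finsetSum _ fun j _ =>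
      continuous_const.mul (hcont j)) _ _
  have hint := intervalIntegral.integral_mono_on (by norm_num : (20 : ℝ) ≤ 21) i₃
    (i₂.add (intervalIntegrable_const (c := 2 * (Q₁ + Q₂)))) hpt
  rw [intervalIntegral.integral_finsetSum fun j _ => i₁ j,
    intervalIntegral.integral_add i₂ intervalIntegrable_const] at hint
  simp only [intervalIntegral.integral_const_mul, intervalIntegral.integral_const,
    smul_eq_mul] at hint
  rw [Gain.trace_lin]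
  have e : 2 * ∑ j, (B * Wᵀ * A) j j * (psi s (x j - p) / (2 * lap s (x j - p))) =
      1 / 2 * ∑ j, 2 * c j *
        ∫ h in (20 : ℝ)..21, (lap s (x j - p - s * h) - lap s (x j - p + s * h)) := by
    rw [Finset.mul_sum, Finset.mul_sum]
    refine Finset.sum_congr rfl fun j _ => ?_
    rw [hc, psi]
    ring
  rw [e, Gain.win]
  linarith

theorem Gain.win_le (F : Matrix ι₀ ι₁ ℝ) (G : Matrix ι₁ ι₂ ℝ) (u : ι₀ → ℝ) (x : ι₁ → ℝ)
    (w : ι₂ → ℝ) {s : ℝ} (hs : 0 < s) (p : ℝ) :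
    ENNReal.ofReal (Gain.win F G u x w s p) ≤ ENNReal.ofReal (6 * Real.exp 11) *
      ∫⁻ h, ENNReal.ofReal (Gain.dm F G u x w s p h) ∂(nu s) := by
  have h0 : ∀ t, 0 ≤ Gain.dm F G u x w s p t := fun t => dmid_nonneg _ _ _ _ _ _
  refine le_trans ?_ (window_le_nu hs (g := fun h => ENNReal.ofReal (Gain.dm F G u x w s p h))
    (Gain.continuous_dm F G u x w s p).measurable.ennreal_ofReal)
  rw [Gain.win, intervalIntegral.integral_of_le (by norm_num),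
    ofReal_integral_eq_lintegral_ofReal
      ((Gain.continuous_win_integrand F G u x w s p).integrableOn_Ioc)
      (Filter.Eventually.of_forall fun h => add_nonneg (h0 _) (h0 _))]
  exact lintegral_mono fun h => (ENNReal.ofReal_add (h0 _) (h0 _)).le

theorem Gain.trace_eq (F₀ : Matrix ι₀ ι₁ ℝ) (F₁ : Matrix ι₁ ι₂ ℝ) (F₂ : Matrix ι₂ ι₀ ℝ)
    {u : ι₀ → ℝ} {v : ι₁ → ℝ} {w : ι₂ → ℝ} (hu : ∀ i, 0 < u i) (hv : ∀ i, 0 < v i)
    (hw : ∀ i, 0 < w i) (a : ι₀ → ℝ) (b : ι₁ → ℝ) (c : ι₂ → ℝ) :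
    ∑ i, ∑ j, ∑ k, F₀ i j * F₁ j k * F₂ k i * (a i * b j * c k) =
      8 * (wt u F₀ v * diagonal (fun j => b j / (2 * v j)) * wt v F₁ w *
        diagonal (fun k => c k / (2 * w k)) * wt w F₂ u *
        diagonal (fun i => a i / (2 * u i))).trace := by
  simp only [trace, diag_apply, mul_diagonal, Matrix.mul_apply (M := _ * diagonal _), wt,
    of_apply, Finset.sum_mul, Finset.mul_sum]
  refine Finset.sum_congr rfl fun i _ => ?_
  rw [Finset.sum_comm]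
  refine Finset.sum_congr rfl fun k _ => Finset.sum_congr rfl fun j _ => ?_
  have h1 := Real.mul_self_sqrt (hu i).le
  have h2 := Real.mul_self_sqrt (hv j).le
  have h3 := Real.mul_self_sqrt (hw k).le
  have h4 := Real.sqrt_pos.2 (hu i)
  have h5 := Real.sqrt_pos.2 (hv j)
  have h6 := Real.sqrt_pos.2 (hw k)
  generalize √(u i) = x at h1 h4 ⊢
  generalize √(v j) = y at h2 h5 ⊢
  generalize √(w k) = z at h3 h6 ⊢
  rw [← h1, ← h2, ← h3]
  field_simp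
  ring

theorem Gain.measurable_gain (F : Matrix ι₀ ι₁ ℝ) (G : Matrix ι₁ ι₂ ℝ) (x₀ : ι₀ → ℝ)
    (x₁ : ι₁ → ℝ) (x₂ : ι₂ → ℝ) {s : ℝ} (hs : 0 < s) {a b c : ℝ × ℝ → ℝ} (ha : Continuous a)
    (hb : Continuous b) (hc : Continuous c) : Measurable fun p : ℝ × ℝ =>
      ∫⁻ h, ENNReal.ofReal (Gain.dm F G (ctr (lap s) x₀ (a p)) x₁ (ctr (lap s) x₂ (c p)) s (b p) h)
        ∂(nu s) := by
  have := (stepLaw_nu hs).prob
  refine Measurable.lintegral_prod_right' (f := fun q : (ℝ × ℝ) × ℝ => ENNReal.ofReal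
    (Gain.dm F G (ctr (lap s) x₀ (a q.1)) x₁ (ctr (lap s) x₂ (c q.1)) s (b q.1) q.2)) ?_
  refine Measurable.ennreal_ofReal (Continuous.measurable ?_)
  exact continuous_dmid F G (Gain.continuous_ctr s x₀ (ha.comp continuous_fst))
    (Gain.continuous_ctr s x₁ ((hb.comp continuous_fst).add continuous_snd))
    (Gain.continuous_ctr s x₁ (hb.comp continuous_fst))
    (Gain.continuous_ctr s x₂ (hc.comp continuous_fst))

theorem Gain.pointwise (x₀ : ι₀ → ℝ) (x₁ : ι₁ → ℝ) (x₂ : ι₂ → ℝ) (F₀ : Matrix ι₀ ι₁ ℝ)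
    (F₁ : Matrix ι₁ ι₂ ℝ) (F₂ : Matrix ι₂ ι₀ ℝ) {s : ℝ} (hs : 0 < s) (p₀ p₁ p₂ : ℝ) :
    ENNReal.ofReal |∑ i, ∑ j, ∑ k, F₀ i j * F₁ j k * F₂ k i *
        (psi s (x₀ i - p₀) * psi s (x₁ j - p₁) * psi s (x₂ k - p₂))| ≤
      ENNReal.ofReal (8 * Real.exp 21 * (√(1 + Real.exp 21) / 2) * (6 * Real.exp 11)) *
        (∫⁻ h, ENNReal.ofReal
            (Gain.dm F₀ F₁ (ctr (lap s) x₀ p₀) x₁ (ctr (lap s) x₂ p₂) s p₁ h) ∂(nu s) +
          ∫⁻ h, ENNReal.ofReal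
            (Gain.dm F₁ F₂ (ctr (lap s) x₁ p₁) x₂ (ctr (lap s) x₀ p₀) s p₂ h) ∂(nu s) +
          ∫⁻ h, ENNReal.ofReal
            (Gain.dm F₂ F₀ (ctr (lap s) x₂ p₂) x₀ (ctr (lap s) x₁ p₁) s p₀ h) ∂(nu s)) := by
  have hd : ∀ y, |psi s y / (2 * lap s y)| ≤ Real.exp 21 := fun y => by
    have h1 := lap_pos hs y
    rw [abs_div, abs_of_pos (by positivity : 0 < 2 * lap s y), div_le_iff₀ (by positivity)]
    linarith [abs_psi_le hs y]
  have h := trilinear (Gain.hyp_psi F₀ F₁ (ctr (lap s) x₀ p₀) x₁ (ctr (lap s) x₂ p₂) hs p₁)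
    (Gain.hyp_psi F₁ F₂ (ctr (lap s) x₁ p₁) x₂ (ctr (lap s) x₀ p₀) hs p₂)
    (Gain.hyp_psi F₂ F₀ (ctr (lap s) x₂ p₂) x₀ (ctr (lap s) x₁ p₁) hs p₀)
    (Real.exp_pos 21).le (fun _ => hd _) (fun _ => hd _) (fun _ => hd _)
  have e := Gain.trace_eq F₀ F₁ F₂ (u := ctr (lap s) x₀ p₀) (v := ctr (lap s) x₁ p₁)
    (w := ctr (lap s) x₂ p₂) (fun _ => lap_pos hs _) (fun _ => lap_pos hs _)
    (fun _ => lap_pos hs _) (fun i => psi s (x₀ i - p₀)) (fun i => psi s (x₁ i - p₁))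
    (fun i => psi s (x₂ i - p₂))
  have w₁ := Gain.win_le F₀ F₁ (ctr (lap s) x₀ p₀) x₁ (ctr (lap s) x₂ p₂) hs p₁
  have w₂ := Gain.win_le F₁ F₂ (ctr (lap s) x₁ p₁) x₂ (ctr (lap s) x₀ p₀) hs p₂
  have w₀ := Gain.win_le F₂ F₀ (ctr (lap s) x₂ p₂) x₀ (ctr (lap s) x₁ p₁) hs p₀
  generalize Gain.win F₀ F₁ (ctr (lap s) x₀ p₀) x₁ (ctr (lap s) x₂ p₂) s p₁ = g₁ at h w₁
  generalize Gain.win F₁ F₂ (ctr (lap s) x₁ p₁) x₂ (ctr (lap s) x₀ p₀) s p₂ = g₂ at h w₂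
  generalize Gain.win F₂ F₀ (ctr (lap s) x₂ p₂) x₀ (ctr (lap s) x₁ p₁) s p₀ = g₀ at h w₀
  have hK : 0 ≤ 8 * Real.exp 21 * (√(1 + Real.exp 21) / 2) := by positivity
  rw [e, ENNReal.ofReal_mul hK, mul_assoc (ENNReal.ofReal _)]
  refine le_trans (ENNReal.ofReal_le_ofReal
    (q := 8 * Real.exp 21 * (√(1 + Real.exp 21) / 2) * (g₁ + g₂ + g₀)) ?_) ?_
  · rw [abs_mul, abs_of_pos (by norm_num : (0 : ℝ) < 8)]
    refine (mul_le_mul_of_nonneg_left h (by norm_num)).trans (le_of_eq ?_)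
    ring
  · rw [ENNReal.ofReal_mul hK]
    refine mul_le_mul' le_rfl ?_
    rw [mul_add, mul_add]
    exact (ENNReal.ofReal_add_le.trans (add_le_add ENNReal.ofReal_add_le le_rfl)).trans
      (add_le_add (add_le_add w₁ w₂) w₀)

end aux

/-- The form with the model kernel at one scale is controlled by the gains. -/
theorem form_le_gain : ∃ C : ℝ, 0 < C ∧
    ∀ (ι₀ ι₁ ι₂ : Type) [Fintype ι₀] [DecidableEq ι₀] [Fintype ι₁] [DecidableEq ι₁]
      [Fintype ι₂] [DecidableEq ι₂]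
      (x₀ : ι₀ → ℝ) (x₁ : ι₁ → ℝ) (x₂ : ι₂ → ℝ) (F₀ : Matrix ι₀ ι₁ ℝ) (F₁ : Matrix ι₁ ι₂ ℝ)
      (F₂ : Matrix ι₂ ι₀ ℝ) (s : ℝ), 0 < s →
      ENNReal.ofReal |Form F₀ F₁ F₂ x₀ x₁ x₂ fun _ _ => phi s| ≤ ENNReal.ofReal C *
        (Gmid (nu s) F₀ F₁ x₀ x₁ x₂ (lap s) (lap s) (lap s)
          + Gmid (nu s) F₁ F₂ x₁ x₂ x₀ (lap s) (lap s) (lap s)
          + Gmid (nu s) F₂ F₀ x₂ x₀ x₁ (lap s) (lap s) (lap s)) := by
  refine ⟨8 * Real.exp 21 * (√(1 + Real.exp 21) / 2) * (6 * Real.exp 11), by positivity, ?_⟩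
  intro ι₀ ι₁ ι₂ _ _ _ _ _ _ x₀ x₁ x₂ F₀ F₁ F₂ s hs
  have hI : ∀ i j k, Integrable fun p : ℝ × ℝ => F₀ i j * F₁ j k * F₂ k i *
      (psi s (x₀ i - p.1) * psi s (x₁ j - p.2) * psi s (x₂ k - (-p.1 - p.2))) :=
    fun i j k => (integrable_psi_plane hs _ _ _).const_mul _
  have e : (Form F₀ F₁ F₂ x₀ x₁ x₂ fun _ _ => phi s) =
      ∫ p : ℝ × ℝ, ∑ i, ∑ j, ∑ k, F₀ i j * F₁ j k * F₂ k i *
        (psi s (x₀ i - p.1) * psi s (x₁ j - p.2) * psi s (x₂ k - (-p.1 - p.2))) := by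
    rw [Form, integral_finsetSum _ fun i _ => integrable_finsetSum _ fun j _ =>
      integrable_finsetSum _ fun k _ => hI i j k]
    refine Finset.sum_congr rfl fun i _ => ?_
    rw [integral_finsetSum _ fun j _ => integrable_finsetSum _ fun k _ => hI i j k]
    refine Finset.sum_congr rfl fun j _ => ?_
    rw [integral_finsetSum _ fun k _ => hI i j k]
    refine Finset.sum_congr rfl fun k _ => ?_
    rw [integral_const_mul, phi_eq_plane]
  have e₂ : Gmid (nu s) F₁ F₂ x₁ x₂ x₀ (lap s) (lap s) (lap s) = IV fun p₀ p₁ p₂ =>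
      ∫⁻ h, ENNReal.ofReal
        (Gain.dm F₁ F₂ (ctr (lap s) x₁ p₁) x₂ (ctr (lap s) x₀ p₀) s p₂ h) ∂(nu s) :=
    (IV_cyc _).symm
  have e₀ : Gmid (nu s) F₂ F₀ x₂ x₀ x₁ (lap s) (lap s) (lap s) = IV fun p₀ p₁ p₂ =>
      ∫⁻ h, ENNReal.ofReal
        (Gain.dm F₂ F₀ (ctr (lap s) x₂ p₂) x₀ (ctr (lap s) x₁ p₁) s p₀ h) ∂(nu s) :=
    ((IV_cyc _).trans (IV_cyc _)).symm
  have e₁ : Gmid (nu s) F₀ F₁ x₀ x₁ x₂ (lap s) (lap s) (lap s) = IV fun p₀ p₁ p₂ =>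
      ∫⁻ h, ENNReal.ofReal
        (Gain.dm F₀ F₁ (ctr (lap s) x₀ p₀) x₁ (ctr (lap s) x₂ p₂) s p₁ h) ∂(nu s) := rfl
  have c₂ : Continuous fun p : ℝ × ℝ => -p.1 - p.2 := by fun_prop
  have m₁ := Gain.measurable_gain F₀ F₁ x₀ x₁ x₂ hs continuous_fst continuous_snd c₂
  have m₂ := Gain.measurable_gain F₁ F₂ x₁ x₂ x₀ hs continuous_snd c₂ continuous_fst
  rw [e, e₀, e₁, e₂, IV, IV, IV, ← lintegral_add_left m₁, ← lintegral_add_left (m₁.fun_add m₂),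
    ← lintegral_const_mul' _ _ ENNReal.ofReal_ne_top, ← Real.enorm_eq_ofReal_abs]
  refine (enorm_integral_le_lintegral_enorm _).trans (lintegral_mono fun p => ?_)
  rw [Real.enorm_eq_ofReal_abs]
  exact Gain.pointwise x₀ x₁ x₂ F₀ F₁ F₂ hs _ _ _

end Crest.Agent.R72
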