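import Crest.Agent.R72.Mat

set_option autoImplicit false

namespace Crest.Agent.R72

open Matrix MeasureTheory
open scoped ENNReal

variable {ι ι₀ ι₁ ι₂ : Type} [Fintype ι] [DecidableEq ι] [Fintype ι₀] [DecidableEq ι₀]
  [Fintype ι₁] [DecidableEq ι₁] [Fintype ι₂] [DecidableEq ι₂]

namespace Jensen

omit [Fintype ι] [DecidableEq ι] in
theorem integrable_entry (ν : Measure ℝ) [IsProbabilityMeasure ν] {P : ℝ → Matrix ι ι ℝ}
    (hP : Continuous P) (hbd : ∃ B, ∀ h i j, |P h i j| ≤ B) (i j : ι) :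
    Integrable (fun h => P h i j) ν := by
  obtain ⟨B, hB⟩ := hbd
  exact Integrable.of_bound (hP.matrix_elem i j).aestronglyMeasurable B
    (Filter.Eventually.of_forall fun h => hB h i j)

omit [DecidableEq ι] in
theorem integral_lin (ν : Measure ℝ) [IsProbabilityMeasure ν] {P : ℝ → Matrix ι ι ℝ}
    (hP : Continuous P) (hbd : ∃ B, ∀ h i j, |P h i j| ≤ B)
    {M : Matrix ι ι ℝ} (hM : ∀ i j, M i j = ∫ h, P h i j ∂ν) (c : ι → ι → ℝ) :
    Integrable (fun h => ∑ i, ∑ j, c i j * P h i j) ν ∧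
      ∫ h, ∑ i, ∑ j, c i j * P h i j ∂ν = ∑ i, ∑ j, c i j * M i j := by
  have h1 : ∀ i j, Integrable (fun h => c i j * P h i j) ν := fun i j =>
    (integrable_entry ν hP hbd i j).const_mul _
  have h2 : ∀ i, Integrable (fun h => ∑ j, c i j * P h i j) ν := fun i =>
    integrable_finsetSum _ fun j _ => h1 i j
  refine ⟨integrable_finsetSum _ fun i _ => h2 i, ?_⟩
  rw [integral_finsetSum _ fun i _ => h2 i]
  refine Finset.sum_congr rfl fun i _ => ?_
  rw [integral_finsetSum _ fun j _ => h1 i j]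
  refine Finset.sum_congr rfl fun j _ => ?_
  rw [integral_const_mul, hM]

omit [DecidableEq ι] in
theorem mean_psd (ν : Measure ℝ) [IsProbabilityMeasure ν] {P : ℝ → Matrix ι ι ℝ}
    (hP : Continuous P) (hpsd : ∀ h, (P h).PosSemidef) (hbd : ∃ B, ∀ h i j, |P h i j| ≤ B)
    {M : Matrix ι ι ℝ} (hM : ∀ i j, M i j = ∫ h, P h i j ∂ν) : M.PosSemidef := by
  refine PosSemidef.of_dotProduct_mulVec_nonneg ?_ fun x => ?_
  · ext i j
    rw [conjTranspose_apply, star_trivial, hM, hM]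
    congr 1
    ext h
    simpa using (hpsd h).1.apply i j
  · have e : ∀ N : Matrix ι ι ℝ, star x ⬝ᵥ (N *ᵥ x) = ∑ i, ∑ j, (x i * x j) * N i j := fun N => by
      simp only [dotProduct, mulVec, star_trivial, Finset.mul_sum]
      exact Finset.sum_congr rfl fun i _ => Finset.sum_congr rfl fun j _ => by ring
    rw [e, ← (integral_lin ν hP hbd hM fun i j => x i * x j).2]
    refine integral_nonneg fun h => ?_
    have := (hpsd h).dotProduct_mulVec_nonneg x
    rwa [e] at this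

theorem IV_swap01 (Φ : ℝ → ℝ → ℝ → ℝ≥0∞) : IV (fun p₀ p₁ p₂ => Φ p₁ p₀ p₂) = IV Φ := by
  unfold IV
  rw [Measure.volume_eq_prod, ← lintegral_prod_swap fun p : ℝ × ℝ => Φ p.1 p.2 (-p.1 - p.2)]
  refine lintegral_congr fun p => ?_
  simp only [Prod.fst_swap, Prod.snd_swap]
  congr 1
  ring

end Jensen

open Jensen

/-- Jensen's inequality with a gap. -/
theorem jensen_gap (ν : Measure ℝ) [IsProbabilityMeasure ν] {P : ℝ → Matrix ι ι ℝ}
    (hP : Continuous P) (hpsd : ∀ h, (P h).PosSemidef) (hbd : ∃ B, ∀ h i j, |P h i j| ≤ B)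
    {M : Matrix ι ι ℝ} (hM : ∀ i j, M i j = ∫ h, P h i j ∂ν) :
    ENNReal.ofReal (f32 M) + 1 / 2 * ∫⁻ h, ENNReal.ofReal (dl (P h) M) ∂ν ≤
      ∫⁻ h, ENNReal.ofReal (f32 (P h)) ∂ν := by
  have hMp := mean_psd ν hP hpsd hbd hM
  have hf0 := f32_nonneg hMp
  have e : ∀ N : Matrix ι ι ℝ, (msq M * N).trace = ∑ i, ∑ j, msq M j i * N i j := fun N => by
    simp only [trace, diag, mul_apply]
    exact Finset.sum_comm
  obtain ⟨hint, hval⟩ := integral_lin ν hP hbd hM fun i j => msq M j i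
  simp only [← e] at hint hval
  have ht0 : ∀ h, 0 ≤ (msq M * P h).trace := fun h => trace_mul_nonneg (msq_psd M) (hpsd h)
  have h1 : ∫⁻ h, ENNReal.ofReal (3 / 2 * (msq M * P h).trace) ∂ν =
      ENNReal.ofReal (f32 M) + ENNReal.ofReal (1 / 2 * f32 M) := by
    rw [← ofReal_integral_eq_lintegral_ofReal (hint.const_mul _)
      (Filter.Eventually.of_forall fun h => mul_nonneg (by norm_num) (ht0 h)),
      integral_const_mul, hval, trace_mul_comm, ← ENNReal.ofReal_add hf0 (by positivity)]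
    congr 1
    unfold f32
    ring
  have h2 : ∀ h, ENNReal.ofReal (3 / 2 * (msq M * P h).trace) +
      1 / 2 * ENNReal.ofReal (dl (P h) M) ≤
      ENNReal.ofReal (f32 (P h)) + ENNReal.ofReal (1 / 2 * f32 M) := fun h => by
    have e2 : (1 / 2 : ℝ≥0∞) = ENNReal.ofReal (1 / 2) := by
      rw [ENNReal.ofReal_div_of_pos (by norm_num)]; simp
    rw [e2, ← ENNReal.ofReal_mul (by norm_num),
      ← ENNReal.ofReal_add (mul_nonneg (by norm_num) (ht0 h))
        (mul_nonneg (by norm_num) (dl_nonneg (hpsd h) hMp)),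
      ← ENNReal.ofReal_add (f32_nonneg (hpsd h)) (by positivity)]
    exact ENNReal.ofReal_le_ofReal (breg_lower (hpsd h) hMp)
  have h3 := lintegral_mono (μ := ν) h2
  rw [lintegral_add_left' (hint.const_mul _).aemeasurable.ennreal_ofReal,
    lintegral_const_mul' _ _ (by simp), lintegral_add_right _ measurable_const, lintegral_const,
    measure_univ, mul_one, h1, add_right_comm] at h3
  exact (ENNReal.add_le_add_iff_right ENNReal.ofReal_ne_top).1 h3

/-- The gap for a step law with an atom at the origin. -/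
theorem jensen_step {ν : Measure ℝ} (hν : StepLaw ν) {P : ℝ → Matrix ι ι ℝ}
    (hP : Continuous P) (hpsd : ∀ h, (P h).PosSemidef) (hbd : ∃ B, ∀ h i j, |P h i j| ≤ B)
    {M : Matrix ι ι ℝ} (hM : ∀ i j, M i j = ∫ h, P h i j ∂ν) :
    ENNReal.ofReal (f32 M) + 1 / 80 * ∫⁻ h, ENNReal.ofReal (dl (P h) (P 0)) ∂ν
        + 1 / 16 * ENNReal.ofReal (dl (P 0) M) ≤
      ∫⁻ h, ENNReal.ofReal (f32 (P h)) ∂ν := by
  have := hν.prob
  have hMp := mean_psd ν hP hpsd hbd hM
  refine le_trans ?_ (jensen_gap ν hP hpsd hbd hM)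
  set I := ∫⁻ h, ENNReal.ofReal (dl (P h) M) ∂ν with hI
  set a := ENNReal.ofReal (dl (P 0) M) with ha
  have h1 : a ≤ 4 * I := by
    have h := lintegral_mono' (f := fun h => ENNReal.ofReal (dl (P h) M)) hν.atom le_rfl
    rw [lintegral_smul_measure, lintegral_dirac, smul_eq_mul] at h
    calc a = 4 * (1 / 4 * a) := by
          rw [← mul_assoc, one_div, ENNReal.mul_inv_cancel (by norm_num) (by norm_num), one_mul]
      _ ≤ 4 * I := by gcongr
  have h2 : ∫⁻ h, ENNReal.ofReal (dl (P h) (P 0)) ∂ν ≤ 20 * I := by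
    calc ∫⁻ h, ENNReal.ofReal (dl (P h) (P 0)) ∂ν
        ≤ ∫⁻ h, 4 * (ENNReal.ofReal (dl (P h) M) + a) ∂ν := by
          refine lintegral_mono fun h => ?_
          rw [ha, ← ENNReal.ofReal_add (dl_nonneg (hpsd h) hMp) (dl_nonneg (hpsd 0) hMp),
            ← ENNReal.ofReal_ofNat 4, ← ENNReal.ofReal_mul (by norm_num)]
          exact ENNReal.ofReal_le_ofReal (dl_tri (hpsd h) (hpsd 0) hMp)
      _ = 4 * (I + a) := by
          rw [lintegral_const_mul' _ _ (by simp), lintegral_add_right _ measurable_const,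
            lintegral_const, measure_univ, mul_one]
      _ ≤ 4 * (I + 4 * I) := by gcongr
      _ = 20 * I := by ring
  have e : (1 / 80 * 20 + 1 / 16 * 4 : ℝ≥0∞) = 1 / 2 := by
    rw [← ENNReal.toReal_eq_toReal_iff' (by finiteness) (by finiteness),
      ENNReal.toReal_add (by finiteness) (by finiteness)]
    simp only [ENNReal.toReal_mul, ENNReal.toReal_div, ENNReal.toReal_one, ENNReal.toReal_ofNat]
    norm_num
  rw [add_assoc, ← e, add_mul, mul_assoc, mul_assoc]
  gcongr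

theorem Prof.cvm {W : ℝ → ℝ} (hW : Prof W) {ν : Measure ℝ} (hν : StepLaw ν) :
    Prof (cvm ν W) := by
  have := hν.prob
  obtain ⟨B, hB⟩ := hW.bdd
  have hB' : ∀ y, ‖W y‖ ≤ B := fun y => by
    rw [Real.norm_eq_abs, abs_of_pos (hW.pos y)]; exact hB y
  have hc : ∀ y, Continuous fun h => W (y - h) := fun y => hW.cont.comp (by fun_prop)
  have hi : ∀ y, Integrable (fun h => W (y - h)) ν := fun y =>
    Integrable.of_bound (hc y).aestronglyMeasurable B (Filter.Eventually.of_forall fun h => hB' _)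
  have hprod : Integrable (fun p : ℝ × ℝ => W (p.1 - p.2)) (volume.prod ν) := by
    simpa using (integrable_const (μ := ν) (1 : ℝ)).convolution_integrand
      (ContinuousLinearMap.mul ℝ ℝ) hW.intg
  refine ⟨?_, fun y => ?_, ⟨B, fun y => ?_⟩, hprod.integral_prod_left, ?_⟩
  · exact continuous_of_dominated (bound := fun _ => B) (fun y => (hc y).aestronglyMeasurable)
      (fun y => Filter.Eventually.of_forall fun h => hB' _) (integrable_const B)
      (Filter.Eventually.of_forall fun h => hW.cont.comp (by fun_prop))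
  · refine (integral_pos_iff_support_of_nonneg (fun h => (hW.pos _).le) (hi y)).2 ?_
    have : (Function.support fun h => W (y - h)) = Set.univ :=
      Set.eq_univ_of_forall fun h => (hW.pos _).ne'
    rw [this, measure_univ]
    exact one_pos
  · refine (integral_mono (hi y) (integrable_const B) fun h => hB _).trans (le_of_eq ?_)
    simp
  · unfold Crest.Agent.R72.cvm
    rw [integral_integral_swap (f := fun y h => W (y - h)) hprod]
    simp only [integral_sub_right_eq_self W, hW.int_one]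
    simp

omit [Fintype ι] [DecidableEq ι] in
theorem continuous_ctr {α : Type*} [TopologicalSpace α] {W : ℝ → ℝ} (hW : Continuous W)
    (x : ι → ℝ) {p : α → ℝ} (hp : Continuous p) : Continuous fun a => ctr W x (p a) :=
  continuous_pi fun _ => hW.comp (continuous_const.sub hp)

theorem IV_shift (Φ : ℝ → ℝ → ℝ → ℝ≥0∞) (a b : ℝ) :
    IV (fun p₀ p₁ p₂ => Φ (p₀ + a) (p₁ + b) (p₂ - a - b)) = IV Φ := by
  unfold IV
  rw [← lintegral_add_right_eq_self (fun p : ℝ × ℝ => Φ p.1 p.2 (-p.1 - p.2)) (a, b)]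
  refine lintegral_congr fun p => ?_
  simp only [Prod.fst_add, Prod.snd_add]
  congr 1
  ring

theorem IV_swap (Φ : ℝ → ℝ → ℝ → ℝ≥0∞) : IV (fun p₀ p₁ p₂ => Φ p₂ p₁ p₀) = IV Φ := by
  let T : ℝ × ℝ ≃ᵐ ℝ × ℝ := MeasurableEquiv.ofInvolutive (fun p => (-p.1 - p.2, p.2))
    (fun p => by ext <;> simp) (by fun_prop)
  have hT : MeasurePreserving T (volume.prod volume) (volume.prod volume) :=
    (measurePreserving_sub_prod (volume : Measure ℝ) volume).comp
      ((Measure.measurePreserving_neg (volume : Measure ℝ)).prod (MeasurePreserving.id volume))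
  unfold IV
  rw [Measure.volume_eq_prod,
    ← hT.lintegral_comp_emb T.measurableEmbedding fun p : ℝ × ℝ => Φ p.1 p.2 (-p.1 - p.2)]
  refine lintegral_congr fun p => ?_
  change Φ (-p.1 - p.2) p.2 p.1 = Φ (-p.1 - p.2) p.2 (-(-p.1 - p.2) - p.2)
  congr 1
  ring

theorem IV_cyc (Φ : ℝ → ℝ → ℝ → ℝ≥0∞) : IV (fun p₀ p₁ p₂ => Φ p₁ p₂ p₀) = IV Φ :=
  (IV_swap fun a b c => Φ b a c).trans (IV_swap01 Φ)

theorem IV_mono {Φ Φ' : ℝ → ℝ → ℝ → ℝ≥0∞} (h : ∀ p₀ p₁, Φ p₀ p₁ (-p₀ - p₁) ≤ Φ' p₀ p₁ (-p₀ - p₁)) :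
    IV Φ ≤ IV Φ' :=
  lintegral_mono fun p => h p.1 p.2

end Crest.Agent.R72
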