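import Crest.Agent.R72.Lap

set_option autoImplicit false

namespace Crest.Agent.R72

open Matrix MeasureTheory
open scoped ENNReal

variable {ι ι' : Type} [Fintype ι] [Fintype ι']

instance mx_nonempty : Nonempty {s : ℝ // 1 ≤ s} := ⟨⟨1, le_rfl⟩⟩

theorem mx_lap_le {s : ℝ} (hs : 1 ≤ s) (y : ℝ) : lap s y ≤ 1 :=
  (lap_le (by linarith) y).trans (by rw [div_le_one (by linarith)]; linarith)

theorem mx_lap_nonneg {s : ℝ} (hs : 1 ≤ s) (y : ℝ) : 0 ≤ lap s y :=
  (lap_pos (by linarith) y).le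

theorem le_Mx (x : ι → ℝ) {g : ι → ℝ} (hg : ∀ i, 0 ≤ g i) (y : ℝ) {s : ℝ} (hs : 1 ≤ s) :
    ∑ i, lap s (x i - y) * g i ≤ Mx x g y := by
  refine le_ciSup (f := fun s : {s : ℝ // 1 ≤ s} => ∑ i, lap s (x i - y) * g i) ⟨∑ i, g i, ?_⟩ ⟨s, hs⟩
  rintro _ ⟨s, rfl⟩
  exact Finset.sum_le_sum fun i _ => mul_le_of_le_one_left (hg i) (mx_lap_le s.2 _)

theorem Mx_nonneg (x : ι → ℝ) {g : ι → ℝ} (hg : ∀ i, 0 ≤ g i) (y : ℝ) : 0 ≤ Mx x g y := by
  exact (Finset.sum_nonneg fun i _ => mul_nonneg (mx_lap_nonneg le_rfl _) (hg i)).trans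
    (le_Mx x hg y le_rfl)

theorem Mx_mono (x : ι → ℝ) {g g' : ι → ℝ} (hg : ∀ i, 0 ≤ g i) (h : ∀ i, g i ≤ g' i) (y : ℝ) :
    Mx x g y ≤ Mx x g' y := by
  refine ciSup_le fun s => le_trans ?_ (le_Mx x (fun i => (hg i).trans (h i)) y s.2)
  exact Finset.sum_le_sum fun i _ => mul_le_mul_of_nonneg_left (h i) (mx_lap_nonneg s.2 _)

theorem Mx_const_mul (x : ι → ℝ) {g : ι → ℝ} (hg : ∀ i, 0 ≤ g i) {c : ℝ} (hc : 0 ≤ c) (y : ℝ) :
    Mx x (fun i => c * g i) y = c * Mx x g y := by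
  have _ := hg
  unfold Mx
  rw [Real.mul_iSup_of_nonneg hc]
  congr 1
  funext s
  rw [Finset.mul_sum]
  exact Finset.sum_congr rfl fun i _ => by ring

theorem le_Mx2 (x : ι → ℝ) (x' : ι' → ℝ) {g : ι → ι' → ℝ} (hg : ∀ i i', 0 ≤ g i i') (y y' : ℝ)
    {s : ℝ} (hs : 1 ≤ s) :
    ∑ i, ∑ i', lap s (x i - y) * lap s (x' i' - y') * g i i' ≤ Mx2 x x' g y y' := by
  refine le_ciSup (f := fun s : {s : ℝ // 1 ≤ s} =>
    ∑ i, ∑ i', lap s (x i - y) * lap s (x' i' - y') * g i i') ⟨∑ i, ∑ i', g i i', ?_⟩ ⟨s, hs⟩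
  rintro _ ⟨s, rfl⟩
  exact Finset.sum_le_sum fun i _ => Finset.sum_le_sum fun i' _ =>
    mul_le_of_le_one_left (hg i i') (mul_le_one₀ (mx_lap_le s.2 _) (mx_lap_nonneg s.2 _)
      (mx_lap_le s.2 _))

theorem Mx2_nonneg (x : ι → ℝ) (x' : ι' → ℝ) {g : ι → ι' → ℝ} (hg : ∀ i i', 0 ≤ g i i')
    (y y' : ℝ) : 0 ≤ Mx2 x x' g y y' := by
  exact (Finset.sum_nonneg fun i _ => Finset.sum_nonneg fun i' _ => mul_nonneg
    (mul_nonneg (mx_lap_nonneg le_rfl _) (mx_lap_nonneg le_rfl _)) (hg i i')).trans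
    (le_Mx2 x x' hg y y' le_rfl)

theorem mx_dyad {s : ℝ} (hs : 0 < s) (t : ℝ) {K : ℕ} (hK : |t| / s < K) :
    lap s t ≤ ∑ k ∈ Finset.range K,
      (1 / 2 : ℝ) ^ k / (2 * s) * (if |t| ≤ (k + 1) * s then 1 else 0) := by
  have h0 : 0 ≤ |t| / s := by positivity
  have h1 : ⌊|t| / s⌋₊ ∈ Finset.range K := Finset.mem_range.2 ((Nat.floor_lt h0).2 hK)
  refine le_trans ?_ (Finset.single_le_sum (f := fun k : ℕ =>
    (1 / 2 : ℝ) ^ k / (2 * s) * (if |t| ≤ (k + 1) * s then 1 else 0))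
    (fun k _ => by positivity) h1)
  have h2 : |t| ≤ (⌊|t| / s⌋₊ + 1) * s := by
    rw [← div_le_iff₀ hs]
    exact (Nat.lt_floor_add_one _).le
  rw [if_pos h2, mul_one]
  unfold lap
  refine div_le_div_of_nonneg_right ?_ (by positivity)
  calc Real.exp (-(|t| / s)) ≤ Real.exp (⌊|t| / s⌋₊ * (-1)) :=
        Real.exp_le_exp.2 (by linarith [Nat.floor_le h0])
    _ = Real.exp (-1) ^ ⌊|t| / s⌋₊ := Real.exp_nat_mul _ _
    _ ≤ (1 / 2) ^ ⌊|t| / s⌋₊ :=
        pow_le_pow_left₀ (Real.exp_pos _).le (by linarith [Real.exp_neg_one_lt_d9]) _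

theorem mx_geom (K : ℕ) : ∑ k ∈ Finset.range K, ((k : ℝ) + 1) * (1 / 2) ^ k ≤ 4 := by
  have h : ∑ k ∈ Finset.range K, ((k : ℝ) + 1) * (1 / 2) ^ k = 4 - (2 * K + 4) * (1 / 2) ^ K := by
    induction K with
    | zero => norm_num
    | succ K ih =>
      rw [Finset.sum_range_succ, ih]
      push_cast
      ring
  have : (0 : ℝ) ≤ (2 * K + 4) * (1 / 2) ^ K := by positivity
  linarith

theorem mx_of_avg (x : ι → ℝ) {h : ι → ℝ} (hh : ∀ i, 0 ≤ h i) (y : ℝ) {l : ℝ} (hl : 0 ≤ l)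
    (H : ∀ r, 1 ≤ r → ∑ i, (if |x i - y| ≤ r then h i else 0) ≤ l * r) : Mx x h y ≤ 2 * l := by
  refine ciSup_le fun ⟨s, hs⟩ => ?_
  have hs0 : 0 < s := by linarith
  obtain ⟨K, hK⟩ := exists_nat_gt (∑ i, |x i - y| / s)
  have hK' : ∀ i, |x i - y| / s < K := fun i =>
    (Finset.single_le_sum (f := fun i => |x i - y| / s) (fun i _ => by positivity)
      (Finset.mem_univ i)).trans_lt hK
  calc ∑ i, lap s (x i - y) * h i
      ≤ ∑ i, (∑ k ∈ Finset.range K,
          (1 / 2 : ℝ) ^ k / (2 * s) * (if |x i - y| ≤ (k + 1) * s then 1 else 0)) * h i :=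
        Finset.sum_le_sum fun i _ => mul_le_mul_of_nonneg_right (mx_dyad hs0 _ (hK' i)) (hh i)
    _ = ∑ k ∈ Finset.range K, (1 / 2 : ℝ) ^ k / (2 * s) *
          ∑ i, (if |x i - y| ≤ (k + 1) * s then h i else 0) := by
        simp only [Finset.sum_mul, Finset.mul_sum]
        rw [Finset.sum_comm]
        refine Finset.sum_congr rfl fun k _ => Finset.sum_congr rfl fun i _ => ?_
        split_ifs <;> ring
    _ ≤ ∑ k ∈ Finset.range K, (1 / 2 : ℝ) ^ k / (2 * s) * (l * ((k + 1) * s)) := by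
        refine Finset.sum_le_sum fun k _ => mul_le_mul_of_nonneg_left (H _ ?_) (by positivity)
        have : (0 : ℝ) ≤ k := Nat.cast_nonneg k
        nlinarith
    _ = l / 2 * ∑ k ∈ Finset.range K, ((k : ℝ) + 1) * (1 / 2) ^ k := by
        rw [Finset.mul_sum]
        refine Finset.sum_congr rfl fun k _ => ?_
        field_simp
    _ ≤ l / 2 * 4 := mul_le_mul_of_nonneg_left (mx_geom K) (by positivity)
    _ = 2 * l := by ring

theorem mx_count {y : ι → ℝ} (hy : Sep y) {r : ℝ} (hr : 1 ≤ r) (c : ℝ) :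
    ∑ j, (if |y j - c| ≤ 4 * r then (1 : ℝ) else 0) ≤ 4 * Real.exp 4 * r := by
  have hr0 : 0 < r := by linarith
  calc ∑ j, (if |y j - c| ≤ 4 * r then (1 : ℝ) else 0)
      ≤ ∑ j, 2 * Real.exp 4 * r * lap r (y j - c) := by
        refine Finset.sum_le_sum fun j _ => ?_
        split_ifs with h
        · have h1 : 2 * Real.exp 4 * r * lap r (y j - c) = Real.exp (4 - |y j - c| / r) := by
            unfold lap
            rw [sub_eq_add_neg 4, Real.exp_add]
            field_simp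
          rw [h1]
          refine Real.one_le_exp ?_
          rw [sub_nonneg, div_le_iff₀ hr0]
          exact h
        · exact mul_nonneg (by positivity) (mx_lap_nonneg hr _)
    _ = 2 * Real.exp 4 * r * ∑ j, lap r (y j - c) := by rw [Finset.mul_sum]
    _ ≤ 2 * Real.exp 4 * r * 2 := mul_le_mul_of_nonneg_left (sum_lap_le hy hr c) (by positivity)
    _ = 4 * Real.exp 4 * r := by ring

theorem mx_weak (x : ι → ℝ) {y : ι' → ℝ} (hy : Sep y) {h : ι → ℝ} (hh : ∀ i, 0 ≤ h i) {l : ℝ}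
    (hl : 0 < l) :
    l * ∑ j, (if 2 * l < Mx x h (y j) then (1 : ℝ) else 0) ≤ 4 * Real.exp 4 * ∑ i, h i := by
  classical
  have h1 : ∀ j, ∃ r : ℝ, 2 * l < Mx x h (y j) →
      1 ≤ r ∧ l * r < ∑ i, (if |x i - y j| ≤ r then h i else 0) := by
    intro j
    by_cases hj : 2 * l < Mx x h (y j)
    · by_contra hcon
      push Not at hcon
      exact absurd (mx_of_avg x hh (y j) hl.le fun r hr => (hcon r).2 hr) (not_le.2 hj)
    · exact ⟨0, fun h => absurd h hj⟩
  choose r hr using h1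
  obtain ⟨u, hu, hdisj, hcov⟩ := Vitali.exists_disjoint_subfamily_covering_enlargement_closedBall
    {j | 2 * l < Mx x h (y j)} y r (∑ j, |r j|) (fun j _ => (le_abs_self _).trans
      (Finset.single_le_sum (f := fun j => |r j|) (fun j _ => abs_nonneg _) (Finset.mem_univ j)))
    4 (by norm_num)
  let U : Finset ι' := Finset.univ.filter (· ∈ u)
  have hU : ∀ b, b ∈ U ↔ b ∈ u := fun b => by simp [U]
  have h2 : ∑ j, (if 2 * l < Mx x h (y j) then (1 : ℝ) else 0) ≤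
      ∑ b ∈ U, 4 * Real.exp 4 * r b := by
    calc ∑ j, (if 2 * l < Mx x h (y j) then (1 : ℝ) else 0)
        ≤ ∑ j, ∑ b ∈ U, (if |y j - y b| ≤ 4 * r b then (1 : ℝ) else 0) := by
          refine Finset.sum_le_sum fun j _ => ?_
          split_ifs with hj
          · obtain ⟨b, hb, hsub⟩ := hcov j hj
            have h3 := hsub (Metric.mem_closedBall_self (by linarith [(hr j hj).1]))
            rw [Metric.mem_closedBall, Real.dist_eq] at h3
            refine le_trans ?_ (Finset.single_le_sum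
              (f := fun b => if |y j - y b| ≤ 4 * r b then (1 : ℝ) else 0)
              (fun b _ => by positivity) ((hU b).2 hb))
            rw [if_pos h3]
          · exact Finset.sum_nonneg fun b _ => by positivity
      _ = ∑ b ∈ U, ∑ j, (if |y j - y b| ≤ 4 * r b then (1 : ℝ) else 0) := Finset.sum_comm
      _ ≤ ∑ b ∈ U, 4 * Real.exp 4 * r b :=
          Finset.sum_le_sum fun b hb => mx_count hy (hr b (hu ((hU b).1 hb))).1 _
  have h3 : ∑ b ∈ U, l * r b ≤ ∑ i, h i := by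
    calc ∑ b ∈ U, l * r b ≤ ∑ b ∈ U, ∑ i, (if |x i - y b| ≤ r b then h i else 0) :=
          Finset.sum_le_sum fun b hb => (hr b (hu ((hU b).1 hb))).2.le
      _ = ∑ i, ∑ b ∈ U, (if |x i - y b| ≤ r b then h i else 0) := Finset.sum_comm
      _ ≤ ∑ i, h i := by
          refine Finset.sum_le_sum fun i _ => ?_
          by_cases hex : ∃ b ∈ U, |x i - y b| ≤ r b
          · obtain ⟨b, hb, hb'⟩ := hex
            rw [Finset.sum_eq_single_of_mem b hb, if_pos hb']
            intro c hc hcb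
            refine if_neg fun hc' => ?_
            have := hdisj ((hU c).1 hc) ((hU b).1 hb) hcb
            have h5 : x i ∈ Metric.closedBall (y c) (r c) := by
              rwa [Metric.mem_closedBall, Real.dist_eq]
            exact Set.disjoint_left.1 this h5 (by rwa [Metric.mem_closedBall, Real.dist_eq])
          · rw [Finset.sum_eq_zero fun b hb => if_neg fun hb' => hex ⟨b, hb, hb'⟩]
            exact hh i
  calc l * ∑ j, (if 2 * l < Mx x h (y j) then (1 : ℝ) else 0)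
      ≤ l * ∑ b ∈ U, 4 * Real.exp 4 * r b := mul_le_mul_of_nonneg_left h2 hl.le
    _ = 4 * Real.exp 4 * ∑ b ∈ U, l * r b := by
        simp only [Finset.mul_sum]
        exact Finset.sum_congr rfl fun b _ => by ring
    _ ≤ 4 * Real.exp 4 * ∑ i, h i := mul_le_mul_of_nonneg_left h3 (by positivity)

theorem mx_weak' {x : ι → ℝ} (hx : Sep x) {y : ι' → ℝ} (hy : Sep y) {g : ι → ℝ}
    (hg : ∀ i, 0 ≤ g i) {l : ℝ} (hl : 0 < l) :
    l * ∑ j, (if l < Mx x g (y j) / 4 then (1 : ℝ) else 0) ≤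
      4 * Real.exp 4 * ∑ i, (if l < g i then g i else 0) := by
  have hh : ∀ i, 0 ≤ (if l < g i then g i else 0) := fun i => by
    split_ifs
    · exact hg i
    · exact le_rfl
  refine le_trans (mul_le_mul_of_nonneg_left (Finset.sum_le_sum fun j _ => ?_) hl.le)
    (mx_weak x hy hh hl)
  have h1 : Mx x g (y j) ≤ Mx x (fun i => if l < g i then g i else 0) (y j) + 2 * l := by
    refine ciSup_le fun ⟨s, hs⟩ => ?_
    calc ∑ i, lap s (x i - y j) * g i
        ≤ ∑ i, (lap s (x i - y j) * (if l < g i then g i else 0) + l * lap s (x i - y j)) := by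
          refine Finset.sum_le_sum fun i _ => ?_
          have := mx_lap_nonneg hs (x i - y j)
          split_ifs with h
          · nlinarith
          · nlinarith [not_lt.1 h]
      _ ≤ _ := by
          rw [Finset.sum_add_distrib, ← Finset.mul_sum]
          have := sum_lap_le hx hs (y j)
          exact add_le_add (le_Mx x hh _ hs) (by nlinarith)
  split_ifs with h2 h3
  · exact le_rfl
  · exact absurd (by linarith) h3
  · exact zero_le_one
  · exact le_rfl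

theorem mx_layer {q a : ℝ} (hq : -1 < q) (ha : 0 ≤ a) :
    IntegrableOn (fun t : ℝ => if t < a then t ^ q else 0) (Set.Ioi 0) ∧
      ∫ t in Set.Ioi (0 : ℝ), (if t < a then t ^ q else 0) = a ^ (q + 1) / (q + 1) := by
  have h1 : (fun t : ℝ => if t < a then t ^ q else 0) = (Set.Iio a).indicator fun t => t ^ q := by
    funext t
    simp [Set.indicator_apply]
  rw [h1]
  constructor
  · rw [integrableOn_indicator_iff measurableSet_Iio, Set.Iio_inter_Ioi]
    exact (intervalIntegrable_iff_integrableOn_Ioo_of_le ha).1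
      (intervalIntegral.intervalIntegrable_rpow' hq)
  · rw [setIntegral_indicator measurableSet_Iio, Set.Ioi_inter_Iio,
      ← integral_Ioc_eq_integral_Ioo, ← intervalIntegral.integral_of_le ha,
      integral_rpow (Or.inl hq), Real.zero_rpow (by linarith), sub_zero]

/-- The discrete Hardy–Littlewood maximal inequality. -/
theorem max_ineq {p : ℝ} (hp : 1 < p) : ∃ C : ℝ, 0 < C ∧
    ∀ (ι J : Type) [Fintype ι] [Fintype J] (x : ι → ℝ) (y : J → ℝ), Sep x → Sep y →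
      ∀ g : ι → ℝ, (∀ i, 0 ≤ g i) → ∑ j, Mx x g (y j) ^ p ≤ C * ∑ i, g i ^ p := by
  refine ⟨4 ^ p * (p * (4 * Real.exp 4 / (p - 1))), ?_, ?_⟩
  · have : 0 < p - 1 := by linarith
    positivity
  intro ι J _ _ x y hx hy g hg
  have hp0 : 0 < p := by linarith
  have hp1 : 0 < p - 1 := by linarith
  have hM : ∀ j, 0 ≤ Mx x g (y j) / 4 := fun j => by
    have := Mx_nonneg x hg (y j)
    positivity
  have L1 := fun j => mx_layer (q := p - 1) (by linarith) (hM j)
  have L2 := fun i => mx_layer (q := p - 2) (by linarith) (hg i)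
  have h1 : ∫ t in Set.Ioi (0 : ℝ), ∑ j, (if t < Mx x g (y j) / 4 then t ^ (p - 1) else 0) ≤
      ∫ t in Set.Ioi (0 : ℝ), ∑ i, 4 * Real.exp 4 * g i *
        (if t < g i then t ^ (p - 2) else 0) := by
    refine setIntegral_mono_on (integrable_finsetSum _ fun j _ => (L1 j).1)
      (integrable_finsetSum _ fun i _ => (L2 i).1.const_mul _) measurableSet_Ioi fun t ht => ?_
    have ht0 : 0 < t := ht
    have h2 := mul_le_mul_of_nonneg_left (mx_weak' hx hy hg ht0) (Real.rpow_nonneg ht0.le (p - 2))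
    have h3 : t ^ (p - 1) = t ^ (p - 2) * t := by
      rw [← Real.rpow_add_one ht0.ne']
      congr 1
      ring
    convert h2 using 1
    · simp only [Finset.mul_sum]
      refine Finset.sum_congr rfl fun j _ => ?_
      split_ifs
      · rw [h3, mul_one]
      · simp
    · simp only [Finset.mul_sum]
      refine Finset.sum_congr rfl fun i _ => ?_
      split_ifs <;> ring
  rw [integral_finsetSum _ fun j _ => (L1 j).1,
    integral_finsetSum _ fun i _ => (L2 i).1.const_mul _] at h1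
  simp only [integral_const_mul, fun j => (L1 j).2, fun i => (L2 i).2] at h1
  have h4 : ∀ j, Mx x g (y j) ^ p = 4 ^ p * (p * ((Mx x g (y j) / 4) ^ (p - 1 + 1) / (p - 1 + 1))) := by
    intro j
    rw [sub_add_cancel, Real.div_rpow (Mx_nonneg x hg _) (by norm_num)]
    have : (0 : ℝ) < 4 ^ p := by positivity
    field_simp
  have h5 : ∀ i, 4 * Real.exp 4 * g i * (g i ^ (p - 2 + 1) / (p - 2 + 1)) =
      4 * Real.exp 4 / (p - 1) * g i ^ p := by
    intro i
    have h6 : g i ^ p = g i ^ (p - 1) * g i := by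
      rw [← Real.rpow_add_one' (hg i) (by linarith), sub_add_cancel]
    rw [h6, show p - 2 + 1 = p - 1 by ring]
    ring
  simp only [h5] at h1
  simp only [h4, ← Finset.mul_sum] at h1 ⊢
  rw [mul_assoc, mul_assoc]
  exact mul_le_mul_of_nonneg_left (mul_le_mul_of_nonneg_left h1 hp0.le) (by positivity)

/-- The two-dimensional maximal inequality along the plane `x₀ + x₁ + x₂ = 0`. -/
theorem max2_ineq {p : ℝ} (hp : 1 < p) : ∃ C : ℝ, 0 < C ∧
    ∀ (ι₀ ι₁ ι₂ : Type) [Fintype ι₀] [Fintype ι₁] [Fintype ι₂] (x₀ : ι₀ → ℝ) (x₁ : ι₁ → ℝ)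
      (x₂ : ι₂ → ℝ), Sep x₀ → Sep x₁ → Sep x₂ → ∀ g : ι₁ → ι₂ → ℝ, (∀ j k, 0 ≤ g j k) →
      ∑ i, ∑ j, Mx2 x₁ x₂ g (x₁ j) (-x₀ i - x₁ j) ^ p ≤ C * ∑ j, ∑ k, g j k ^ p := by
  classical
  obtain ⟨C, hC, hmax⟩ := max_ineq hp
  refine ⟨Real.exp 1 ^ p * (C * C), by positivity, ?_⟩
  intro ι₀ ι₁ ι₂ _ _ _ x₀ x₁ x₂ h₀ h₁ h₂ g hg
  let Φ : ι₁ → ℤ → ℝ := fun j n => Mx x₁ (fun j' => Mx x₂ (g j') n) (x₁ j)
  have hΦ : ∀ j n, 0 ≤ Φ j n := fun j n => Mx_nonneg _ (fun j' => Mx_nonneg _ (hg j') _) _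
  have h1 : ∀ j (c : ℝ), Mx2 x₁ x₂ g (x₁ j) c ≤ Real.exp 1 * Φ j ⌊c⌋ := by
    intro j c
    refine ciSup_le fun ⟨s, hs⟩ => ?_
    refine le_trans ?_ (mul_le_mul_of_nonneg_left
      (le_Mx x₁ (fun j' => Mx_nonneg _ (hg j') _) (x₁ j) hs) (Real.exp_pos 1).le)
    rw [Finset.mul_sum]
    refine Finset.sum_le_sum fun j' _ => ?_
    rw [mul_left_comm]
    simp only [mul_assoc, ← Finset.mul_sum]
    refine mul_le_mul_of_nonneg_left ?_ (mx_lap_nonneg hs _)
    refine le_trans ?_ (mul_le_mul_of_nonneg_left (le_Mx x₂ (hg j') _ hs) (Real.exp_pos 1).le)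
    rw [Finset.mul_sum]
    refine Finset.sum_le_sum fun k _ => ?_
    rw [← mul_assoc]
    refine mul_le_mul_of_nonneg_right ?_ (hg j' k)
    have h3 := lap_shift (s := s) (by linarith) (x₂ k - ⌊c⌋) (Int.fract c)
    rw [show x₂ k - ⌊c⌋ - Int.fract c = x₂ k - c by rw [Int.fract]; ring] at h3
    refine h3.trans (mul_le_mul_of_nonneg_right (Real.exp_le_exp.2 ?_) (mx_lap_nonneg hs _))
    rw [abs_of_nonneg (Int.fract_nonneg c), div_le_one (by linarith)]
    linarith [Int.fract_lt_one c]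
  let S : Finset ℤ := Finset.univ.image fun q : ι₀ × ι₁ => ⌊-x₀ q.1 - x₁ q.2⌋
  have hS : Sep fun n : S => ((n : ℤ) : ℝ) := by
    intro n m hnm
    have : (n : ℤ) - m ≠ 0 := sub_ne_zero.2 fun h => hnm (Subtype.ext h)
    change (1 : ℝ) ≤ |((n : ℤ) : ℝ) - ((m : ℤ) : ℝ)|
    exact_mod_cast Int.one_le_abs this
  have h4 : ∀ j, ∑ i, Φ j ⌊-x₀ i - x₁ j⌋ ^ p ≤ ∑ n : S, Φ j n ^ p := by
    intro j
    rw [Finset.sum_coe_sort S fun n => Φ j n ^ p,
      ← Finset.sum_image (s := Finset.univ) (g := fun i => ⌊-x₀ i - x₁ j⌋)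
        (f := fun n => Φ j n ^ p)]
    · refine Finset.sum_le_sum_of_subset_of_nonneg ?_ fun n _ _ => Real.rpow_nonneg (hΦ j n) p
      intro n hn
      obtain ⟨i, -, rfl⟩ := Finset.mem_image.1 hn
      exact Finset.mem_image.2 ⟨(i, j), Finset.mem_univ _, rfl⟩
    · intro i _ i' _ hii
      by_contra hne
      have h5 := Int.abs_sub_lt_one_of_floor_eq_floor hii
      have h6 := h₀ i' i (Ne.symm hne)
      rw [show -x₀ i - x₁ j - (-x₀ i' - x₁ j) = x₀ i' - x₀ i by ring] at h5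
      linarith
  calc ∑ i, ∑ j, Mx2 x₁ x₂ g (x₁ j) (-x₀ i - x₁ j) ^ p
      ≤ ∑ i, ∑ j, Real.exp 1 ^ p * Φ j ⌊-x₀ i - x₁ j⌋ ^ p := by
        refine Finset.sum_le_sum fun i _ => Finset.sum_le_sum fun j _ => ?_
        rw [← Real.mul_rpow (Real.exp_pos 1).le (hΦ _ _)]
        exact Real.rpow_le_rpow (Mx2_nonneg _ _ hg _ _) (h1 j _) (by linarith)
    _ = Real.exp 1 ^ p * ∑ j, ∑ i, Φ j ⌊-x₀ i - x₁ j⌋ ^ p := by
        rw [Finset.sum_comm]
        simp only [Finset.mul_sum]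
    _ ≤ Real.exp 1 ^ p * (C * C * ∑ j, ∑ k, g j k ^ p) := by
        refine mul_le_mul_of_nonneg_left ?_ (by positivity)
        calc ∑ j, ∑ i, Φ j ⌊-x₀ i - x₁ j⌋ ^ p ≤ ∑ j, ∑ n : S, Φ j n ^ p :=
              Finset.sum_le_sum fun j _ => h4 j
          _ = ∑ n : S, ∑ j, Φ j n ^ p := Finset.sum_comm
          _ ≤ ∑ n : S, C * ∑ j, Mx x₂ (g j) ((n : ℤ) : ℝ) ^ p :=
              Finset.sum_le_sum fun n _ =>
                hmax ι₁ ι₁ x₁ x₁ h₁ h₁ _ fun j' => Mx_nonneg _ (hg j') _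
          _ = C * ∑ j, ∑ n : S, Mx x₂ (g j) ((n : ℤ) : ℝ) ^ p := by
              rw [← Finset.mul_sum, Finset.sum_comm]
          _ ≤ C * ∑ j, C * ∑ k, g j k ^ p :=
              mul_le_mul_of_nonneg_left (Finset.sum_le_sum fun j _ =>
                hmax ι₂ S x₂ _ h₂ hS _ (hg j)) hC.le
          _ = C * C * ∑ j, ∑ k, g j k ^ p := by rw [← Finset.mul_sum, mul_assoc]
    _ = _ := by ring

end Crest.Agent.R72
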