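import Crest.Agent.R72.Step
import Crest.Agent.R72.Max

set_option autoImplicit false

namespace Crest.Agent.R72

open Matrix MeasureTheory
open scoped ENNReal

theorem jp_integral_eq_cv (s b c : ℝ) (f : ℝ → ℝ) :
    ∫ p, lap s (b - p) * f (c - p) = cv s f (c - b) := by
  rw [← integral_add_right_eq_self (fun p => lap s (b - p) * f (c - p)) b, cv]
  congr 1
  funext y
  rw [show b - (y + b) = -y by ring, lap_neg, show c - (y + b) = c - b - y by ring]

theorem jp_integrable_lap {s : ℝ} (hs : 0 < s) (a : ℝ) : Integrable fun p => lap s (a - p) :=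
  (prof_lap hs).intg.comp_sub_left a

theorem jp_integral_lap {s : ℝ} (hs : 0 < s) (a : ℝ) : ∫ p, lap s (a - p) = 1 := by
  rw [integral_sub_left_eq_self (lap s) volume a, (prof_lap hs).int_one]

theorem jp_abs_lap_le {s : ℝ} (hs : 0 < s) (y : ℝ) : |lap s y| ≤ 1 / (2 * s) := by
  rw [abs_of_pos (lap_pos hs y)]
  exact lap_le hs y

theorem jp_cv_le {s : ℝ} (hs : 0 < s) (t : ℝ) : cv s (lap s) t ≤ 4 * lap (2 * s) t := by
  have h := cv_lap_le hs hs le_rfl le_rfl t
  rw [max_self, mul_div_assoc, div_self hs.ne'] at h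
  linarith

theorem jp_cv_le' {s : ℝ} (hs : 0 < s) (t : ℝ) : cv s (lap (2 * s)) t ≤ 4 * lap (4 * s) t := by
  have h := cv_lap_le (S := 4 * s) hs (by positivity : 0 < 2 * s) (by linarith) (by linarith) t
  rw [max_eq_right (by linarith), show 4 * s / (2 * s) = 2 by field_simp; norm_num] at h
  linarith

theorem jp_integrable {s : ℝ} (hs : 0 < s) (a b : ℝ) {c : ℝ × ℝ → ℝ} (hc : Continuous c) :
    Integrable fun p : ℝ × ℝ => lap s (a - p.1) * lap s (b - p.2) * lap s (c p) := by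
  have h := (jp_integrable_lap hs a).mul_prod (jp_integrable_lap hs b)
  exact h.mul_bdd ((continuous_lap s).comp hc).aestronglyMeasurable
    (Filter.Eventually.of_forall fun p => jp_abs_lap_le hs (c p))

theorem jp_row {s : ℝ} (hs : 0 < s) (a b c : ℝ) :
    ∫ p : ℝ × ℝ, lap s (a - p.1) * lap s (b - p.2) * lap s (c - p.2) ≤ 4 * lap (2 * s) (c - b) := by
  simp only [mul_assoc]
  rw [Measure.volume_eq_prod, integral_prod_mul (fun p => lap s (a - p))
    (fun p => lap s (b - p) * lap s (c - p)), jp_integral_lap hs, one_mul, jp_integral_eq_cv]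
  exact jp_cv_le hs _

theorem jp_col {s : ℝ} (hs : 0 < s) (a b c : ℝ) :
    ∫ p : ℝ × ℝ, lap s (a - p.1) * lap s (b - p.2) * lap s (c - p.1) ≤ 4 * lap (2 * s) (c - a) := by
  simp only [mul_right_comm _ (lap s (b - _))]
  rw [Measure.volume_eq_prod, integral_prod_mul (fun p => lap s (a - p) * lap s (c - p))
    (fun p => lap s (b - p)), jp_integral_lap hs, mul_one, jp_integral_eq_cv]
  exact jp_cv_le hs _

theorem jp_diag {s : ℝ} (hs : 0 < s) (a b c : ℝ) :
    ∫ p : ℝ × ℝ, lap s (a - p.1) * lap s (b - p.2) * lap s (c - (-p.1 - p.2)) ≤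
      16 * lap (4 * s) (c - (-a - b)) := by
  have hi := jp_integrable hs a b (c := fun p => c - (-p.1 - p.2)) (by fun_prop)
  rw [Measure.volume_eq_prod] at hi ⊢
  rw [integral_prod _ hi]
  have h2 : 0 < 2 * s := by positivity
  have h3 : Integrable fun x => lap s (a - x) * lap (2 * s) (-c - b - x) :=
    (jp_integrable_lap hs a).mul_bdd
      ((continuous_lap _).comp (by fun_prop)).aestronglyMeasurable
      (Filter.Eventually.of_forall fun p => jp_abs_lap_le h2 _)
  calc _ ≤ ∫ x, 4 * (lap s (a - x) * lap (2 * s) (-c - b - x)) := by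
        refine integral_mono hi.integral_prod_left (h3.const_mul 4) fun x => ?_
        have e : ∀ y, lap s (c - (-x - y)) = lap s (-c - x - y) := fun y => by
          rw [← lap_neg]
          congr 1
          ring
        simp only [mul_assoc, e]
        rw [integral_const_mul, jp_integral_eq_cv, show -c - x - b = -c - b - x by ring]
        have h4 := mul_le_mul_of_nonneg_left (jp_cv_le hs (-c - b - x)) (lap_pos hs (a - x)).le
        linarith
    _ ≤ _ := by
        rw [integral_const_mul, jp_integral_eq_cv, show c - (-a - b) = -(-c - b - a) by ring,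
          lap_neg]
        linarith [jp_cv_le' hs (-c - b - a)]

theorem jp_sum {s : ℝ} (hs : 0 < s) (a b : ℝ) {κ : Type} [Fintype κ] {c : κ → ℝ × ℝ → ℝ}
    (hc : ∀ k, Continuous (c k)) {g B : κ → ℝ} (hg : ∀ k, 0 ≤ g k) {K : ℝ}
    (hB : ∀ k, ∫ p : ℝ × ℝ, lap s (a - p.1) * lap s (b - p.2) * lap s (c k p) ≤ K * B k) :
    (Integrable fun p : ℝ × ℝ => lap s (a - p.1) * lap s (b - p.2) * ∑ k, lap s (c k p) * g k) ∧
      ∫ p : ℝ × ℝ, lap s (a - p.1) * lap s (b - p.2) * ∑ k, lap s (c k p) * g k ≤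
        K * ∑ k, B k * g k := by
  simp only [Finset.mul_sum, ← mul_assoc]
  have hi := fun k => (jp_integrable hs a b (hc k)).mul_const (g k)
  refine ⟨integrable_finsetSum _ fun k _ => hi k, ?_⟩
  rw [integral_finsetSum _ fun k _ => hi k]
  refine Finset.sum_le_sum fun k _ => ?_
  rw [integral_mul_const]
  exact mul_le_mul_of_nonneg_right (hB k) (hg k)

/-- The cost of changing the left matrix in the integrated interaction term. -/
theorem theta_jump : ∃ C : ℝ, 0 < C ∧
    ∀ (ι₀ ι₁ ι₂ : Type) [Fintype ι₀] [DecidableEq ι₀] [Fintype ι₁] [DecidableEq ι₁]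
      [Fintype ι₂] [DecidableEq ι₂]
      (x₀ : ι₀ → ℝ) (x₁ : ι₁ → ℝ) (x₂ : ι₂ → ℝ) (F F' : Matrix ι₀ ι₁ ℝ) (G : Matrix ι₁ ι₂ ℝ)
      (s γ : ℝ), 1 ≤ s → 0 < γ →
      Theta F G x₀ x₁ x₂ (lap s) (lap s) (lap s) ≤ Theta F' G x₀ x₁ x₂ (lap s) (lap s) (lap s) +
        ENNReal.ofReal (C * ∑ i, ∑ j, |F' i j - F i j| *
          (γ⁻¹ * Mx x₁ (fun y => F i y ^ 2) (x₁ j) + γ * (Mx x₀ (fun x => F x j ^ 2) (x₀ i)
            + Mx x₂ (fun k => G j k ^ 2) (-x₀ i - x₁ j)))) := by
  refine ⟨24, by norm_num, fun ι₀ ι₁ ι₂ _ _ _ _ _ _ x₀ x₁ x₂ F F' G s γ hs hγ => ?_⟩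
  have hs0 : 0 < s := by linarith
  let e : ι₀ → ι₁ → ℝ × ℝ → ℝ := fun i j p =>
    γ⁻¹ * (lap s (x₀ i - p.1) * lap s (x₁ j - p.2) * ∑ y, lap s (x₁ y - p.2) * F i y ^ 2) +
      γ * (lap s (x₀ i - p.1) * lap s (x₁ j - p.2) * ∑ x, lap s (x₀ x - p.1) * F x j ^ 2 +
        lap s (x₀ i - p.1) * lap s (x₁ j - p.2) * ∑ k, lap s (x₂ k - (-p.1 - p.2)) * G j k ^ 2)
  have he : ∀ i j, Integrable (e i j) ∧ ∫ p, e i j p ≤
      16 * (γ⁻¹ * Mx x₁ (fun y => F i y ^ 2) (x₁ j) + γ * (Mx x₀ (fun x => F x j ^ 2) (x₀ i)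
        + Mx x₂ (fun k => G j k ^ 2) (-x₀ i - x₁ j))) := by
    intro i j
    obtain ⟨a1, a2⟩ := jp_sum hs0 (x₀ i) (x₁ j) (c := fun y p => x₁ y - p.2)
      (fun _ => by fun_prop) (fun y => sq_nonneg (F i y)) fun y => jp_row hs0 _ _ (x₁ y)
    obtain ⟨b1, b2⟩ := jp_sum hs0 (x₀ i) (x₁ j) (c := fun x p => x₀ x - p.1)
      (fun _ => by fun_prop) (fun x => sq_nonneg (F x j)) fun x => jp_col hs0 _ _ (x₀ x)
    obtain ⟨c1, c2⟩ := jp_sum hs0 (x₀ i) (x₁ j) (c := fun k p => x₂ k - (-p.1 - p.2))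
      (fun _ => by fun_prop) (fun k => sq_nonneg (G j k)) fun k => jp_diag hs0 _ _ (x₂ k)
    have a3 := le_Mx x₁ (fun y => sq_nonneg (F i y)) (x₁ j) (s := 2 * s) (by linarith)
    have b3 := le_Mx x₀ (fun x => sq_nonneg (F x j)) (x₀ i) (s := 2 * s) (by linarith)
    have c3 := le_Mx x₂ (fun k => sq_nonneg (G j k)) (-x₀ i - x₁ j) (s := 4 * s) (by linarith)
    have a4 := Mx_nonneg x₁ (fun y => sq_nonneg (F i y)) (x₁ j)
    have b4 := Mx_nonneg x₀ (fun x => sq_nonneg (F x j)) (x₀ i)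
    refine ⟨(a1.const_mul _).add ((b1.add c1).const_mul _), ?_⟩
    simp only [e]
    rw [integral_add (a1.const_mul _) ((b1.fun_add c1).const_mul _), integral_const_mul,
      integral_const_mul, integral_add b1 c1, mul_add 16, mul_left_comm 16, mul_left_comm 16]
    exact add_le_add (mul_le_mul_of_nonneg_left (by linarith) (by positivity))
      (mul_le_mul_of_nonneg_left (by linarith) hγ.le)
  let E : ℝ × ℝ → ℝ := fun p => 3 / 2 * ∑ i, ∑ j, |F' i j - F i j| * e i j p
  have hi : ∀ i, Integrable fun p => ∑ j, |F' i j - F i j| * e i j p := fun i =>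
    integrable_finsetSum _ fun j _ => (he i j).1.const_mul _
  have hE : Integrable E := (integrable_finsetSum _ fun i _ => hi i).const_mul _
  have hE0 : ∀ p, 0 ≤ E p := fun p => by
    have h1 := fun y => (lap_pos hs0 y).le
    refine mul_nonneg (by norm_num) (Finset.sum_nonneg fun i _ => Finset.sum_nonneg fun j _ =>
      mul_nonneg (abs_nonneg _) ?_)
    have h2 := mul_nonneg (h1 (x₀ i - p.1)) (h1 (x₁ j - p.2))
    exact add_nonneg (mul_nonneg (by positivity) (mul_nonneg h2 (Finset.sum_nonneg fun _ _ =>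
      mul_nonneg (h1 _) (sq_nonneg _)))) (mul_nonneg hγ.le (add_nonneg
        (mul_nonneg h2 (Finset.sum_nonneg fun _ _ => mul_nonneg (h1 _) (sq_nonneg _)))
        (mul_nonneg h2 (Finset.sum_nonneg fun _ _ => mul_nonneg (h1 _) (sq_nonneg _)))))
  unfold Theta IV
  calc _ ≤ ∫⁻ p : ℝ × ℝ, (ENNReal.ofReal (Psi F' G (ctr (lap s) x₀ p.1) (ctr (lap s) x₁ p.2)
          (ctr (lap s) x₂ (-p.1 - p.2))) + ENNReal.ofReal (E p)) := by
        refine lintegral_mono fun p => le_trans (ENNReal.ofReal_le_ofReal ?_)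
          ENNReal.ofReal_add_le
        refine (Psi_jump F F' G (fun _ => (lap_pos hs0 _).le) (fun _ => (lap_pos hs0 _).le)
          (fun _ => (lap_pos hs0 _).le) hγ).trans (le_of_eq ?_)
        simp only [E, e]
        congr 2
        exact Finset.sum_congr rfl fun i _ => Finset.sum_congr rfl fun j _ => by ring
    _ ≤ _ := by
        rw [lintegral_add_right' _ hE.aemeasurable.ennreal_ofReal,
          ← ofReal_integral_eq_lintegral_ofReal hE (Filter.Eventually.of_forall hE0)]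
        refine add_le_add_right (ENNReal.ofReal_le_ofReal ?_) _
        simp only [E]
        rw [integral_const_mul, integral_finsetSum _ fun i _ => hi i,
          show (24 : ℝ) = 3 / 2 * 16 by norm_num, mul_assoc]
        refine mul_le_mul_of_nonneg_left ?_ (by norm_num)
        rw [Finset.mul_sum]
        refine Finset.sum_le_sum fun i _ => ?_
        rw [integral_finsetSum _ fun j _ => (he i j).1.const_mul _, Finset.mul_sum]
        refine Finset.sum_le_sum fun j _ => ?_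
        rw [integral_const_mul, mul_left_comm]
        exact mul_le_mul_of_nonneg_left (he i j).2 (abs_nonneg _)

end Crest.Agent.R72
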