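import Crest.Agent.R72.Lap1

set_option autoImplicit false

namespace Crest.Agent.R72

open Matrix MeasureTheory
open scoped ENNReal

/-! ### Convolution with Laplace densities -/

theorem integrable_cv {s : ℝ} (hs : 0 < s) {f : ℝ → ℝ} (hf : Measurable f) {B : ℝ}
    (hB : ∀ y, |f y| ≤ B) (t : ℝ) : Integrable fun y => lap s y * f (t - y) := by
  exact (prof_lap hs).intg.mul_bdd (c := B)
    (hf.comp (measurable_const.sub measurable_id)).aestronglyMeasurable
    (ae_of_all _ fun y => hB _)

theorem measurable_cv (s : ℝ) {f : ℝ → ℝ} (hf : Measurable f) : Measurable (cv s f) := by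
  have h : Measurable fun p : ℝ × ℝ => lap s p.2 * f (p.1 - p.2) :=
    ((continuous_lap s).measurable.comp measurable_snd).mul
      (hf.comp (measurable_fst.sub measurable_snd))
  exact (h.stronglyMeasurable.integral_prod_right' (ν := volume)).measurable

theorem cv_eq_swap (s : ℝ) (f : ℝ → ℝ) (t : ℝ) : cv s f t = ∫ y, lap s (t - y) * f y := by
  rw [cv, ← integral_sub_left_eq_self (fun y => lap s y * f (t - y)) volume t]
  simp

theorem abs_cv_le_const {s : ℝ} (hs : 0 < s) {f : ℝ → ℝ} {B : ℝ} (hB : ∀ y, |f y| ≤ B) (t : ℝ) :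
    |cv s f t| ≤ B := by
  have h := norm_integral_le_of_norm_le (f := fun y => lap s y * f (t - y))
    ((prof_lap hs).intg.mul_const B) (ae_of_all _ fun y => by
      rw [Real.norm_eq_abs, abs_mul, abs_of_pos (lap_pos hs y)]
      exact mul_le_mul_of_nonneg_left (hB _) (lap_pos hs y).le)
  rwa [integral_mul_const, (prof_lap hs).int_one, one_mul] at h

theorem abs_cv_le {s : ℝ} (hs : 0 < s) {f g : ℝ → ℝ} (hg : Measurable g) {B : ℝ}
    (hB : ∀ y, |g y| ≤ B) (hfg : ∀ y, |f y| ≤ g y) (t : ℝ) : |cv s f t| ≤ cv s g t := by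
  exact norm_integral_le_of_norm_le (f := fun y => lap s y * f (t - y))
    (integrable_cv hs hg hB t) (ae_of_all _ fun y => by
      rw [Real.norm_eq_abs, abs_mul, abs_of_pos (lap_pos hs y)]
      exact mul_le_mul_of_nonneg_left (hfg _) (lap_pos hs y).le)

theorem cv_const_mul (s c : ℝ) (f : ℝ → ℝ) (t : ℝ) :
    cv s (fun y => c * f y) t = c * cv s f t := by
  rw [cv, cv, ← integral_const_mul]
  exact integral_congr_ae (ae_of_all _ fun y => by ring)

theorem cv_add {s : ℝ} (hs : 0 < s) {f g : ℝ → ℝ} (hf : Measurable f) (hg : Measurable g)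
    {B B' : ℝ} (hB : ∀ y, |f y| ≤ B) (hB' : ∀ y, |g y| ≤ B') (t : ℝ) :
    cv s (fun y => f y + g y) t = cv s f t + cv s g t := by
  rw [cv, cv, cv, ← integral_add (integrable_cv hs hf hB t) (integrable_cv hs hg hB' t)]
  exact integral_congr_ae (ae_of_all _ fun y => by ring)

theorem cv_comm {a b : ℝ} (ha : 0 < a) (hb : 0 < b) {f : ℝ → ℝ} (hf : Measurable f) {B : ℝ}
    (hB : ∀ y, |f y| ≤ B) : cv a (cv b f) = cv b (cv a f) := by
  funext t
  have hi : Integrable (Function.uncurry fun y z => lap a y * lap b z * f (t - y - z))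
      (volume.prod volume) :=
    ((prof_lap ha).intg.mul_prod (prof_lap hb).intg).mul_bdd (c := B)
      (hf.comp ((measurable_const.sub measurable_fst).sub measurable_snd)).aestronglyMeasurable
      (ae_of_all _ fun y => hB _)
  have h := integral_integral_swap hi
  simp only [cv, ← integral_const_mul]
  refine Eq.trans ?_ (h.trans ?_)
  · simp only [mul_assoc]
  · refine integral_congr_ae (ae_of_all _ fun z => integral_congr_ae (ae_of_all _ fun y => ?_))
    simp only
    rw [sub_right_comm]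
    ring

theorem cv_lap_comm (a b : ℝ) : cv a (lap b) = cv b (lap a) := by
  funext t
  rw [cv_eq_swap, cv]
  simp only [mul_comm]

theorem abs_lap_le {s : ℝ} (hs : 0 < s) (y : ℝ) : |lap s y| ≤ 1 / (2 * s) := by
  rw [abs_of_pos (lap_pos hs y)]
  exact lap_le hs y

theorem cv_lap_le' {a b S : ℝ} (ha : 0 < a) (hb : 0 < b) (haS : 2 * a ≤ S) (hbS : b ≤ S)
    (t : ℝ) : cv a (lap b) t ≤ 2 * (S / b) * lap S t := by
  have hS : 0 < S := by linarith
  have h1 := integral_lap_exp_le ha haS
  simp only [mul_sub, mul_one] at h1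
  rw [integral_sub (integrable_lap_exp ha haS) (prof_lap ha).intg, (prof_lap ha).int_one] at h1
  have h2 : 2 * a / S ≤ 1 := (div_le_one hS).2 haS
  have h3 : cv a (lap b) t ≤ ∫ y, lap a y * Real.exp (|y| / S) * (S / b * lap S t) := by
    refine integral_mono (integrable_cv ha (continuous_lap b).measurable (abs_lap_le hb) t)
      ((integrable_lap_exp ha haS).mul_const _) fun y => ?_
    simp only
    rw [mul_assoc]
    refine mul_le_mul_of_nonneg_left ((lap_le_scale hb hbS _).trans ?_) (lap_pos ha y).le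
    rw [mul_left_comm]
    exact mul_le_mul_of_nonneg_left (lap_shift hS t y) (by positivity)
  rw [integral_mul_const, mul_assoc] at *
  exact h3.trans (mul_le_mul_of_nonneg_right (by linarith)
    (mul_nonneg (by positivity) (lap_pos hS t).le))

theorem cv_lap_le {a b S : ℝ} (ha : 0 < a) (hb : 0 < b) (haS : 2 * a ≤ S) (hbS : 2 * b ≤ S)
    (t : ℝ) : cv a (lap b) t ≤ 2 * (S / max a b) * lap S t := by
  rcases le_total a b with h | h
  · rw [max_eq_right h]
    exact cv_lap_le' ha hb haS (by linarith) t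
  · rw [max_eq_left h, cv_lap_comm]
    exact cv_lap_le' hb ha hbS (by linarith) t

theorem lap2_le {σ S : ℝ} (hσ : 0 < σ) (h : 2 * σ ≤ S) (y : ℝ) : lap2 σ S y ≤ 2 * lap S y := by
  have hS : 0 < S := by linarith
  have := cv_lap_le' hσ hS h le_rfl y
  rwa [div_self hS.ne', mul_one, cv_lap_comm] at this

theorem le_lap2 {σ S : ℝ} (hσ : 0 < σ) (h : σ ≤ S) (y : ℝ) : lap S y ≤ 2 * lap2 σ S y := by
  have hS : 0 < S := by linarith
  have h2 : 0 < σ / 2 := by linarith
  rw [lap2, cv_lap_comm, cv, ← integral_const_mul, ← one_mul (lap S y), ← (prof_lap h2).int_one,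
    ← integral_mul_const]
  refine integral_mono ((prof_lap h2).intg.mul_const _)
    ((integrable_cv hσ (continuous_lap S).measurable (abs_lap_le hS) y).const_mul _) fun z => ?_
  have e := lap_mul_exp h2 z
  rw [show 2 * (σ / 2) = σ by ring] at e
  have k := lap_shift hS (y - z) (-z)
  rw [sub_neg_eq_add, sub_add_cancel, abs_neg] at k
  simp only
  rw [← mul_assoc, ← e, mul_assoc]
  refine mul_le_mul_of_nonneg_left (k.trans ?_) (lap_pos h2 z).le
  exact mul_le_mul_of_nonneg_right
    (Real.exp_le_exp.2 (div_le_div_of_nonneg_left (abs_nonneg z) hσ h)) (lap_pos hS _).le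

theorem Prof.abs_le {W : ℝ → ℝ} (hW : Prof W) : ∃ B, ∀ y, |W y| ≤ B := by
  obtain ⟨B, hB⟩ := hW.bdd
  exact ⟨B, fun y => by rw [abs_of_pos (hW.pos y)]; exact hB y⟩

theorem prof_cv {s : ℝ} (hs : 0 < s) {W : ℝ → ℝ} (hW : Prof W) : Prof (cv s W) := by
  obtain ⟨B, hB⟩ := hW.abs_le
  have e : cv s W = convolution (lap s) W (ContinuousLinearMap.mul ℝ ℝ) volume := rfl
  refine ⟨?_, fun y => ?_, ⟨B, fun y => (le_abs_self _).trans (abs_cv_le_const hs hB y)⟩, ?_, ?_⟩
  · refine continuous_of_dominated (bound := fun y => lap s y * B)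
      (fun t => (integrable_cv hs hW.cont.measurable hB t).aestronglyMeasurable)
      (fun t => ae_of_all _ fun y => ?_) ((prof_lap hs).intg.mul_const B)
      (ae_of_all _ fun y => continuous_const.mul (hW.cont.comp (continuous_sub_right y)))
    rw [Real.norm_eq_abs, abs_mul, abs_of_pos (lap_pos hs y)]
    exact mul_le_mul_of_nonneg_left (hB _) (lap_pos hs y).le
  · exact integral_pos_of_integrable_nonneg_nonzero (x := 0)
      ((continuous_lap s).mul (hW.cont.comp (continuous_sub_left y)))
      (integrable_cv hs hW.cont.measurable hB y) (fun z => (mul_pos (lap_pos hs z) (hW.pos _)).le)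
      (mul_pos (lap_pos hs _) (hW.pos _)).ne'
  · rw [e]
    exact (prof_lap hs).intg.integrable_convolution _ hW.intg
  · rw [e, integral_convolution _ (prof_lap hs).intg hW.intg, (prof_lap hs).int_one, hW.int_one]
    simp

/-! ### The step law -/

theorem measurable_ofReal_lap (s : ℝ) : Measurable fun y => ENNReal.ofReal (lap s y) :=
  (continuous_lap s).measurable.ennreal_ofReal

theorem lintegral_lapM (s : ℝ) {g : ℝ → ℝ≥0∞} (hg : Measurable g) :
    ∫⁻ h, g h ∂(lapM s) = ∫⁻ h, ENNReal.ofReal (lap s h) * g h :=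
  lintegral_withDensity_eq_lintegral_mul _ (measurable_ofReal_lap s) hg

theorem isProb_lapM {s : ℝ} (hs : 0 < s) : IsProbabilityMeasure (lapM s) := by
  refine ⟨?_⟩
  rw [lapM, withDensity_apply _ MeasurableSet.univ, Measure.restrict_univ,
    ← ofReal_integral_eq_lintegral_ofReal (prof_lap hs).intg
      (ae_of_all _ fun y => (lap_pos hs y).le), (prof_lap hs).int_one, ENNReal.ofReal_one]

theorem integral_lapM {s : ℝ} (hs : 0 < s) (f : ℝ → ℝ) :
    ∫ h, f h ∂(lapM s) = ∫ h, lap s h * f h := by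
  rw [lapM, integral_withDensity_eq_integral_toReal_smul (measurable_ofReal_lap s)
    (ae_of_all _ fun _ => ENNReal.ofReal_lt_top)]
  simp only [ENNReal.toReal_ofReal (lap_pos hs _).le, smul_eq_mul]

theorem stepLaw_nu {s : ℝ} (hs : 0 < s) : StepLaw (nu s) := by
  have h2 : 0 < 2 * s := by linarith
  have := isProb_lapM h2
  refine ⟨⟨?_⟩, ?_, Measure.le_add_right le_rfl⟩
  · simp only [nu, Measure.add_apply, Measure.smul_apply, measure_univ, smul_eq_mul, mul_one]
    rw [ENNReal.div_add_div_same, show (1 + 3 : ℝ≥0∞) = 4 by norm_num,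
      ENNReal.div_self (by norm_num) (by norm_num)]
  · rw [nu, Measure.map_add _ _ measurable_neg, Measure.map_smul, Measure.map_smul,
      Measure.map_dirac' measurable_neg, neg_zero]
    congr 2
    refine Measure.ext_of_lintegral _ fun f hf => ?_
    rw [lintegral_map hf measurable_neg, lintegral_lapM _ hf,
      lintegral_lapM _ (g := fun a => f (-a)) (hf.comp measurable_neg), ← lintegral_neg_eq_self]
    simp only [lap_neg, neg_neg]

theorem cvm_nu {s : ℝ} (hs : 0 < s) {W : ℝ → ℝ} (hW : Prof W) (y : ℝ) :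
    cvm (nu s) W y = 1 / 4 * W y + 3 / 4 * cv (2 * s) W y := by
  have h2 : 0 < 2 * s := by linarith
  have := isProb_lapM h2
  obtain ⟨B, hB⟩ := hW.abs_le
  have hi : ∀ (μ : Measure ℝ) [IsFiniteMeasure μ], Integrable (fun h => W (y - h)) μ :=
    fun μ _ => Integrable.of_bound
      (hW.cont.comp (continuous_sub_left y)).aestronglyMeasurable B (ae_of_all _ fun _ => hB _)
  rw [cvm, nu, integral_add_measure ((hi _).smul_measure (by finiteness))
    ((hi _).smul_measure (by finiteness)), integral_smul_measure, integral_smul_measure,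
    integral_dirac, integral_lapM h2, cv]
  simp

theorem cv_lap_two {s t : ℝ} (hs : 0 < s) (ht : 0 ≤ t) :
    cv (2 * s) (lap s) t = 4 / 3 * lap (2 * s) t - 1 / 3 * lap s t := by
  have h2 : 0 < 2 * s := by linarith
  have hi := integrable_cv h2 (continuous_lap s).measurable (abs_lap_le hs) t
  have a1 : 0 < 3 / (2 * s) := by positivity
  have a2 : 0 < 1 / (2 * s) := by positivity
  have key : ∀ (A : Set ℝ) (c a : ℝ), MeasurableSet A →
      (∀ y ∈ A, -(|y| / (2 * s)) + -(|t - y| / s) = c + a * y) →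
      ∫ y in A, lap (2 * s) y * lap s (t - y) =
        Real.exp c / (8 * s ^ 2) * ∫ y in A, Real.exp (a * y) := by
    intro A c a hA h
    rw [← integral_const_mul]
    refine setIntegral_congr_fun hA fun y hy => ?_
    simp only [lap]
    rw [div_mul_div_comm, ← Real.exp_add, h y hy, Real.exp_add]
    field_simp
    ring
  have e1 := key (Set.Iic 0) (-(t / s)) (3 / (2 * s)) measurableSet_Iic fun y hy => by
    have : y ≤ 0 := hy
    rw [abs_of_nonpos this, abs_of_nonneg (by linarith)]
    field_simp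
    ring
  have e2 := key (Set.Ioc 0 t) (-(t / s)) (1 / (2 * s)) measurableSet_Ioc fun y hy => by
    rw [abs_of_pos hy.1, abs_of_nonneg (by linarith [hy.2])]
    field_simp
    ring
  have e3 := key (Set.Ioi t) (t / s) (-(3 / (2 * s))) measurableSet_Ioi fun y hy => by
    have : t < y := hy
    rw [abs_of_nonneg (by linarith), abs_of_nonpos (by linarith)]
    field_simp
    ring
  rw [← intervalIntegral.integral_of_le ht, ← intervalIntegral.integral_of_le ht,
    ← intervalIntegral.integral_Iic_sub_Iic hi.integrableOn hi.integrableOn,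
    ← intervalIntegral.integral_Iic_sub_Iic (integrableOn_exp_mul_Iic a2 _)
      (integrableOn_exp_mul_Iic a2 _), e1, integral_exp_mul_Iic a1, integral_exp_mul_Iic a2,
    integral_exp_mul_Iic a2, sub_eq_iff_eq_add] at e2
  rw [integral_exp_mul_Ioi (by linarith)] at e3
  rw [cv, ← intervalIntegral.integral_Iic_add_Ioi (b := t) hi.integrableOn hi.integrableOn, e2, e3]
  simp only [lap, abs_of_nonneg ht, mul_zero, Real.exp_zero]
  obtain ⟨E, hE⟩ : ∃ E, E = Real.exp (-(t / (2 * s))) := ⟨_, rfl⟩
  have hE0 : 0 < E := hE ▸ Real.exp_pos _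
  have k1 : Real.exp (-(t / s)) = E ^ 2 := by
    rw [hE, ← Real.exp_nat_mul]
    congr 1
    field_simp
    ring
  have k2 : Real.exp (t / s) = (E ^ 2)⁻¹ := by rw [← k1, Real.exp_neg, inv_inv]
  have k3 : Real.exp (1 / (2 * s) * t) = E⁻¹ := by
    rw [hE, ← Real.exp_neg]
    congr 1
    ring
  have k4 : Real.exp (-(3 / (2 * s)) * t) = E ^ 3 := by
    rw [hE, ← Real.exp_nat_mul]
    congr 1
    push_cast
    ring
  rw [k1, k2, k3, k4, ← hE]
  field_simp
  ring

theorem cvm_nu_lap {s : ℝ} (hs : 0 < s) : cvm (nu s) (lap s) = lap (2 * s) := by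
  funext y
  rw [cvm_nu hs (prof_lap hs)]
  rcases le_total 0 y with h | h
  · rw [cv_lap_two hs h]
    ring
  · have e : cv (2 * s) (lap s) y = cv (2 * s) (lap s) (-y) := by
      rw [cv, cv, ← integral_neg_eq_self]
      refine integral_congr_ae (ae_of_all _ fun z => ?_)
      simp only
      rw [lap_neg, ← lap_neg s (-y - z)]
      congr 2
      ring
    rw [e, cv_lap_two hs (neg_nonneg.2 h), lap_neg, lap_neg]
    ring

theorem cvm_nu_lap2_left {σ S : ℝ} (hσ : 0 < σ) (hS : 0 < S) :
    cvm (nu σ) (lap2 σ S) = lap2 (2 * σ) S := by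
  funext y
  have h2 : 0 < 2 * σ := by linarith
  have hm := (continuous_lap σ).measurable
  have hp := prof_cv h2 (prof_lap hσ)
  obtain ⟨B, hB⟩ := hp.abs_le
  rw [lap2, lap2, cvm_nu hσ (prof_cv hS (prof_lap hσ)), cv_comm h2 hS hm (abs_lap_le hσ),
    ← cv_const_mul, ← cv_const_mul, ← cv_add hS (hm.const_mul _) (hp.cont.measurable.const_mul _)
      (B := |1 / 4| * (1 / (2 * σ))) (B' := |3 / 4| * B)
      (fun y => by rw [abs_mul]; exact mul_le_mul_of_nonneg_left (abs_lap_le hσ y) (abs_nonneg _))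
      (fun y => by rw [abs_mul]; exact mul_le_mul_of_nonneg_left (hB y) (abs_nonneg _)),
    ← cvm_nu_lap hσ]
  congr 1
  funext z
  rw [cvm_nu hσ (prof_lap hσ)]

theorem cvm_nu_lap2_right {σ S : ℝ} (hσ : 0 < σ) (hS : 0 < S) :
    cvm (nu S) (lap2 σ S) = lap2 σ (2 * S) := by
  have := cvm_nu_lap2_left hS hσ
  rwa [lap2, lap2, cv_lap_comm σ S, cv_lap_comm σ (2 * S)] at this

/-- The window of translations used in the model kernel is dominated by the step law. -/
theorem window_le_nu {s : ℝ} (hs : 0 < s) {g : ℝ → ℝ≥0∞} (hg : Measurable g) :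
    ∫⁻ h in Set.Ioc (20 : ℝ) 21, (g (s * h) + g (-(s * h))) ≤
      ENNReal.ofReal (6 * Real.exp 11) * ∫⁻ h, g h ∂(nu s) := by
  have hm1 : Measurable fun h => g (s * h) := hg.comp (measurable_const_mul s)
  have hm2 : Measurable fun h => g (-(s * h)) := hg.comp (measurable_const_mul s).neg
  have hF : Measurable fun h => ENNReal.ofReal (lap (2 * s) h) * g h :=
    (measurable_ofReal_lap _).mul hg
  have h1 : ENNReal.ofReal (3 / 4) * ∫⁻ h, ENNReal.ofReal (lap (2 * s) h) * g h ≤
      ∫⁻ h, g h ∂(nu s) := by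
    rw [nu, lintegral_add_measure, lintegral_smul_measure, lintegral_smul_measure,
      lintegral_lapM _ hg, ENNReal.ofReal_div_of_pos (by norm_num)]
    simp
  have h2 : ∫⁻ h, ENNReal.ofReal (lap (2 * s) h) * g h =
      ENNReal.ofReal s * ∫⁻ h, ENNReal.ofReal (lap (2 * s) (s * h)) * g (s * h) := by
    rw [← lintegral_map hF (measurable_const_mul s), Real.map_volume_mul_left hs.ne',
      lintegral_smul_measure, smul_eq_mul, ← mul_assoc, ← ENNReal.ofReal_mul hs.le,
      abs_of_pos (inv_pos.2 hs), mul_inv_cancel₀ hs.ne', ENNReal.ofReal_one, one_mul]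
  refine le_trans ?_ (mul_le_mul_right h1 _)
  rw [h2, lintegral_add_left hm1, ← lintegral_indicator measurableSet_Ioc,
    ← lintegral_indicator measurableSet_Ioc,
    ← lintegral_neg_eq_self ((Set.Ioc (20 : ℝ) 21).indicator fun h => g (-(s * h))),
    ← lintegral_add_left (hm1.indicator measurableSet_Ioc), ← mul_assoc, ← mul_assoc,
    ← lintegral_const_mul' _ _ (by finiteness)]
  refine lintegral_mono fun h => ?_
  have k : |h| ≤ 21 → g (s * h) ≤ ENNReal.ofReal (6 * Real.exp 11) * ENNReal.ofReal (3 / 4) *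
      ENNReal.ofReal s * (ENNReal.ofReal (lap (2 * s) (s * h)) * g (s * h)) := by
    intro hh
    rw [← mul_assoc, ← ENNReal.ofReal_mul (by positivity), ← ENNReal.ofReal_mul (by positivity),
      ← ENNReal.ofReal_mul (by positivity)]
    refine le_mul_of_one_le_left' (ENNReal.one_le_ofReal.2 ?_)
    have e : |s * h| / (2 * s) = |h| / 2 := by
      rw [abs_mul, abs_of_pos hs]
      field_simp
    have e2 : 1 ≤ Real.exp 11 * Real.exp (-(|h| / 2)) := by
      rw [← Real.exp_add]
      exact Real.one_le_exp (by linarith)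
    rw [lap, e]
    have : 6 * Real.exp 11 * (3 / 4) * s * (Real.exp (-(|h| / 2)) / (2 * (2 * s))) =
        9 / 8 * (Real.exp 11 * Real.exp (-(|h| / 2))) := by
      field_simp
      ring
    rw [this]
    linarith
  simp only [Set.indicator, Set.mem_Ioc]
  split_ifs with a b b
  · linarith [a.1, b.1]
  · rw [add_zero]
    exact k (abs_le.2 ⟨by linarith [a.1], a.2⟩)
  · rw [zero_add, mul_neg, neg_neg]
    exact k (abs_le.2 ⟨by linarith [b.2], by linarith [b.1]⟩)
  · simp

end Crest.Agent.R72
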