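import Crest.Agent.R72.Defs

set_option autoImplicit false

namespace Crest.Agent.R72

open Matrix MeasureTheory
open scoped ENNReal

theorem lap1_integrable_comp_abs {f : ℝ → ℝ} (hf : IntegrableOn f (Set.Ioi 0)) :
    Integrable fun y => f |y| := by
  have h1 : IntegrableOn (fun y => f |y|) (Set.Ioi 0) :=
    hf.congr_fun (fun y hy => by rw [abs_of_pos hy]) measurableSet_Ioi
  have h2 : IntegrableOn (fun y => f |y|) (Set.Iio 0) := by
    have h0 : IntegrableOn (fun y => f |y|) (Set.Ioi (-0 : ℝ)) := by rwa [neg_zero]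
    have := h0.comp_neg_Iio
    simpa using this
  rw [← integrableOn_univ, ← Set.Iio_union_Ici (a := (0 : ℝ)), integrableOn_union,
    integrableOn_Ici_iff_integrableOn_Ioi]
  exact ⟨h2, h1⟩

theorem lap1_integrable_exp {c : ℝ} (hc : 0 < c) :
    Integrable fun y : ℝ => Real.exp (-c * |y|) :=
  lap1_integrable_comp_abs (f := fun y => Real.exp (-c * y))
    (integrableOn_exp_mul_Ioi (by linarith) 0)

theorem lap1_integral_exp {c : ℝ} (hc : 0 < c) : ∫ y : ℝ, Real.exp (-c * |y|) = 2 / c := by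
  rw [integral_comp_abs (f := fun y => Real.exp (-c * y)), integral_exp_mul_Ioi (by linarith)]
  simp only [mul_zero, Real.exp_zero]
  field_simp

theorem lap1_eq (s y : ℝ) : lap s y = (2 * s)⁻¹ * Real.exp (-s⁻¹ * |y|) := by
  unfold lap
  rw [div_eq_inv_mul, div_eq_inv_mul, neg_mul]

theorem lap_pos {s : ℝ} (hs : 0 < s) (y : ℝ) : 0 < lap s y := by
  unfold lap
  positivity

theorem lap_neg (s y : ℝ) : lap s (-y) = lap s y := by
  simp [lap]

theorem lap_le {s : ℝ} (hs : 0 < s) (y : ℝ) : lap s y ≤ 1 / (2 * s) := by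
  unfold lap
  gcongr
  rw [Real.exp_le_one_iff, neg_nonpos]
  positivity

theorem continuous_lap (s : ℝ) : Continuous (lap s) := by
  unfold lap
  fun_prop

theorem measurable_lap_uncurry : Measurable fun p : ℝ × ℝ => lap p.1 p.2 := by
  unfold lap
  fun_prop

theorem prof_lap {s : ℝ} (hs : 0 < s) : Prof (lap s) := by
  have h : lap s = fun y => (2 * s)⁻¹ * Real.exp (-s⁻¹ * |y|) := funext (lap1_eq s)
  refine ⟨continuous_lap s, lap_pos hs, ⟨_, lap_le hs⟩, ?_, ?_⟩
  · rw [h]
    exact (lap1_integrable_exp (inv_pos.2 hs)).const_mul _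
  · rw [h, integral_const_mul, lap1_integral_exp (inv_pos.2 hs)]
    field_simp

theorem lap_scale {s : ℝ} (hs : 0 < s) (y : ℝ) : lap s y = s⁻¹ * lap 1 (y / s) := by
  unfold lap
  rw [abs_div, abs_of_pos hs, div_one]
  field_simp

theorem lap_shift {s : ℝ} (hs : 0 < s) (y h : ℝ) :
    lap s (y - h) ≤ Real.exp (|h| / s) * lap s y := by
  unfold lap
  rw [← mul_div_assoc, ← Real.exp_add]
  gcongr
  have : |y| ≤ |y - h| + |h| := by
    calc |y| = |(y - h) + h| := by ring_nf
      _ ≤ _ := abs_add_le _ _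
  rw [← sub_eq_add_neg, ← sub_div, ← neg_div]
  gcongr
  linarith

theorem abs_lap_shift_sub {s : ℝ} (hs : 0 < s) (y h : ℝ) :
    |lap s (y - h) - lap s y| ≤ (Real.exp (|h| / s) - 1) * lap s y := by
  have h1 := lap_shift hs y h
  have h2 := lap_shift hs (y - h) (-h)
  rw [sub_neg_eq_add, sub_add_cancel, abs_neg] at h2
  have h3 := lap_pos hs y
  have h4 := lap_pos hs (y - h)
  have h5 : 1 ≤ Real.exp (|h| / s) := Real.one_le_exp (by positivity)
  set E := Real.exp (|h| / s)
  set a := lap s (y - h)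
  set b := lap s y
  rw [abs_le]
  constructor
  · by_contra hcon
    push Not at hcon
    have h6 : a < (2 - E) * b := by linarith
    have h7 : E * a < E * ((2 - E) * b) := mul_lt_mul_of_pos_left h6 (by linarith)
    nlinarith [mul_nonneg h3.le (sq_nonneg (E - 1))]
  · linarith

theorem lap_le_scale {s s' : ℝ} (hs : 0 < s) (h : s ≤ s') (y : ℝ) :
    lap s y ≤ s' / s * lap s' y := by
  have hs' : 0 < s' := hs.trans_le h
  unfold lap
  have : s' / s * (Real.exp (-(|y| / s')) / (2 * s')) = Real.exp (-(|y| / s')) / (2 * s) := by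
    field_simp
  rw [this]
  gcongr

theorem lap_mul_exp {s : ℝ} (hs : 0 < s) (y : ℝ) :
    lap s y * Real.exp (|y| / (2 * s)) = 2 * lap (2 * s) y := by
  unfold lap
  rw [div_mul_eq_mul_div, ← Real.exp_add]
  have : -(|y| / s) + |y| / (2 * s) = -(|y| / (2 * s)) := by
    field_simp
    ring
  rw [this]
  field_simp

theorem lap1_mul_exp_eq (a b y : ℝ) :
    lap a y * Real.exp (|y| / b) = (2 * a)⁻¹ * Real.exp (-(a⁻¹ - b⁻¹) * |y|) := by
  rw [lap1_eq, mul_assoc, ← Real.exp_add]
  congr 2
  ring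

theorem lap1_inv_sub_pos {a b : ℝ} (ha : 0 < a) (hab : 2 * a ≤ b) : 0 < a⁻¹ - b⁻¹ := by
  rw [sub_pos]
  exact inv_strictAnti₀ ha (by linarith)

theorem integrable_lap_exp {a b : ℝ} (ha : 0 < a) (hab : 2 * a ≤ b) :
    Integrable fun y => lap a y * Real.exp (|y| / b) := by
  simp_rw [lap1_mul_exp_eq]
  exact (lap1_integrable_exp (lap1_inv_sub_pos ha hab)).const_mul _

theorem integral_lap_exp_le {a b : ℝ} (ha : 0 < a) (hab : 2 * a ≤ b) :
    ∫ y, lap a y * (Real.exp (|y| / b) - 1) ≤ 2 * a / b := by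
  simp_rw [mul_sub, mul_one]
  rw [integral_sub (integrable_lap_exp ha hab) (prof_lap ha).intg, (prof_lap ha).int_one]
  simp_rw [lap1_mul_exp_eq]
  rw [integral_const_mul, lap1_integral_exp (lap1_inv_sub_pos ha hab)]
  have hb : 0 < b := by linarith
  have hba : 0 < b - a := by linarith
  have : (2 * a)⁻¹ * (2 / (a⁻¹ - b⁻¹)) - 1 = a / (b - a) := by
    field_simp
    ring
  rw [this, div_le_div_iff₀ hba hb]
  nlinarith

theorem integrable_lap_abs {s : ℝ} (hs : 0 < s) : Integrable fun y => lap s y * |y| := by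
  refine ((integrable_lap_exp hs le_rfl).const_mul (2 * s)).mono' ?_ (ae_of_all _ fun y => ?_)
  · exact ((continuous_lap s).mul continuous_abs).aestronglyMeasurable
  · have h1 := lap_pos hs y
    rw [Real.norm_eq_abs, abs_of_nonneg (by positivity), mul_left_comm]
    gcongr
    have h2 := Real.add_one_le_exp (|y| / (2 * s))
    calc |y| = 2 * s * (|y| / (2 * s)) := by field_simp
      _ ≤ _ := by gcongr; linarith

theorem integral_lap_abs {s : ℝ} (hs : 0 < s) : ∫ y, lap s y * |y| = s := by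
  simp_rw [lap1_eq, mul_assoc]
  rw [integral_const_mul, integral_comp_abs (f := fun y => Real.exp (-s⁻¹ * y) * y)]
  have h := Real.integral_rpow_mul_exp_neg_mul_Ioi (a := 2) (r := s⁻¹) two_pos (inv_pos.2 hs)
  have h2 : ∫ t in Set.Ioi (0 : ℝ), Real.exp (-s⁻¹ * t) * t =
      ∫ t in Set.Ioi (0 : ℝ), t ^ ((2 : ℝ) - 1) * Real.exp (-(s⁻¹ * t)) := by
    refine setIntegral_congr_fun measurableSet_Ioi fun t _ => ?_
    norm_num [mul_comm]
  rw [h2, h, Real.Gamma_two, Real.rpow_two]
  field_simp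

theorem sum_lap_le {ι : Type} [Fintype ι] {x : ι → ℝ} (hx : Sep x) {s : ℝ} (hs : 1 ≤ s)
    (p : ℝ) : ∑ i, lap s (x i - p) ≤ 2 := by
  classical
  have hs0 : 0 < s := by linarith
  let I : ι → Set ℝ := fun i => Set.Ioo (x i - p - 1 / 2) (x i - p + 1 / 2)
  have hE : Real.exp (1 / 2) ≤ 2 := by
    have h1 : Real.exp (1 / 2) * Real.exp (1 / 2) < 2 * 2 := by
      rw [← Real.exp_add]
      norm_num
      linarith [Real.exp_one_lt_d9]
    exact (mul_self_lt_mul_self_iff (Real.exp_pos _).le (by norm_num)).2 h1 |>.le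
  have h1 : ∀ i, lap s (x i - p) ≤ 2 * ∫ y in I i, lap s y := by
    intro i
    have h2 : ∫ _ in I i, lap s (x i - p) / 2 ≤ ∫ y in I i, lap s y := by
      refine setIntegral_mono_on (by simp [I]) (prof_lap hs0).intg.integrableOn
        measurableSet_Ioo fun y hy => ?_
      have h3 := lap_shift hs0 y (y - (x i - p))
      rw [sub_sub_cancel] at h3
      have h4 : |y - (x i - p)| ≤ 1 / 2 := by
        rw [abs_le]
        constructor <;> linarith [hy.1, hy.2]
      have h5 : Real.exp (|y - (x i - p)| / s) ≤ 2 := by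
        refine le_trans (Real.exp_le_exp.2 ?_) hE
        exact (div_le_self (abs_nonneg _) hs).trans h4
      have h6 := lap_pos hs0 y
      nlinarith
    rw [setIntegral_const] at h2
    have h3 : volume.real (I i) = 1 := by
      simp only [I, Real.volume_real_Ioo]
      norm_num
    rw [h3, one_smul] at h2
    linarith
  have h2 : ∑ i, ∫ y in I i, lap s y ≤ 1 := by
    rw [← integral_iUnion_fintype (fun _ => measurableSet_Ioo) ?_
      fun _ => (prof_lap hs0).intg.integrableOn, ← (prof_lap hs0).int_one]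
    · exact setIntegral_le_integral (prof_lap hs0).intg (ae_of_all _ fun y => (lap_pos hs0 y).le)
    · intro i j hij
      rw [Function.onFun, Set.disjoint_left]
      intro y hi hj
      have h3 := hx i j hij
      have : |x i - x j| < 1 := by
        rw [abs_lt]
        constructor <;> linarith [hi.1, hi.2, hj.1, hj.2]
      linarith
  calc ∑ i, lap s (x i - p) ≤ ∑ i, 2 * ∫ y in I i, lap s y := Finset.sum_le_sum fun i _ => h1 i
    _ = 2 * ∑ i, ∫ y in I i, lap s y := by rw [Finset.mul_sum]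
    _ ≤ 2 := by linarith

theorem Sep.add_const {ι : Type} {x : ι → ℝ} (hx : Sep x) (c : ℝ) : Sep fun i => x i + c := by
  intro i j hij
  simpa using hx i j hij

theorem Sep.neg {ι : Type} {x : ι → ℝ} (hx : Sep x) : Sep fun i => -x i := by
  intro i j hij
  have := hx j i hij.symm
  simpa [neg_add_eq_sub] using this

end Crest.Agent.R72
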