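import Crest.Agent.R72.Defs

set_option autoImplicit false

namespace Crest.Agent.R72

open Matrix MeasureTheory
open scoped ENNReal

/-- Measurable selection of a maximiser among finitely many measurable functions. -/
theorem lin_exists_sel {X : Type*} [MeasurableSpace X] (f : ℕ → X → ℝ)
    (hf : ∀ k, Measurable (f k)) (N : ℕ) :
    ∃ sel : X → Fin (N + 1), (∀ π, MeasurableSet {z | sel z = π}) ∧
      ∀ z k, k ≤ N → f k z ≤ f (sel z) z := by
  classical
  have hex : ∀ z, ∃ k, k < N + 1 ∧ ∀ l, l ≤ N → f l z ≤ f k z := by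
    intro z
    obtain ⟨k, hk, h⟩ := Finset.exists_max_image (Finset.range (N + 1)) (fun k => f k z)
      ⟨0, by simp⟩
    exact ⟨k, Finset.mem_range.1 hk, fun l hl => h l (Finset.mem_range.2 (by omega))⟩
  have hm : Measurable fun z => Nat.find (hex z) := by
    refine measurable_find hex fun k => ?_
    have : {z | k < N + 1 ∧ ∀ l, l ≤ N → f l z ≤ f k z} =
        {_z | k < N + 1} ∩ ⋂ l, ⋂ _ : l ≤ N, {z | f l z ≤ f k z} := by
      ext z
      simp
    rw [this]
    refine MeasurableSet.inter (MeasurableSet.const _) ?_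
    exact MeasurableSet.iInter fun l => MeasurableSet.iInter fun _ =>
      measurableSet_le (hf l) (hf k)
  refine ⟨fun z => ⟨Nat.find (hex z), (Nat.find_spec (hex z)).1⟩, fun π => ?_, fun z k hk => ?_⟩
  · have : {z | (⟨Nat.find (hex z), (Nat.find_spec (hex z)).1⟩ : Fin (N + 1)) = π} =
        (fun z => Nat.find (hex z)) ⁻¹' {(π : ℕ)} := by
      ext z
      simp only [Set.mem_setOf_eq, Set.mem_preimage, Set.mem_singleton_iff, Fin.ext_iff]
    rw [this]
    exact hm (measurableSet_singleton _)
  · exact (Nat.find_spec (hex z)).2 k hk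

/-- Linearisation and duality for a countable supremum. -/
theorem lin_sup {X : Type*} [MeasurableSpace X] (μ : Measure X) [SigmaFinite μ]
    (T : ℕ → X → ℝ) (hT : ∀ k, Measurable (T k)) (D : ℝ) (hD : 0 ≤ D)
    (h : ∀ (N : ℕ) (sel : X → Fin (N + 1)), (∀ π, MeasurableSet {z | sel z = π}) →
      ∀ H : X → ℝ, Measurable H → Integrable (fun z => |H z| ^ 3) μ →
        Integrable (fun z => H z * T (sel z) z) μ ∧
        ∫ z, H z * T (sel z) z ∂μ ≤ D * (∫ z, |H z| ^ 3 ∂μ) ^ (1 / 3 : ℝ)) :
    (∫⁻ z, (⨆ k, ENNReal.ofReal (T k z)) ^ (3 / 2 : ℝ) ∂μ) ^ (2 / 3 : ℝ) ≤ ENNReal.ofReal D := by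
  classical
  -- the truncated maximal functions
  let M : ℕ → X → ℝ := fun N z => partialSups (fun k => T k z) N
  have hM : ∀ N, Measurable (M N) := by
    intro N
    induction N with
    | zero => simpa [M] using hT 0
    | succ N ih =>
      have : M (N + 1) = fun z => max (M N z) (T (N + 1) z) := by
        ext z
        simp only [M, partialSups_add_one]
      rw [this]
      exact ih.max (hT _)
  let U : ℕ → X → ℝ := fun N => (spanningSets μ N).indicator fun z => min (max (M N z) 0) N
  have hU : ∀ N, Measurable (U N) := fun N =>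
    (((hM N).max measurable_const).min measurable_const).indicator
      (measurableSet_spanningSets μ N)
  have hU0 : ∀ N z, 0 ≤ U N z := fun N z =>
    Set.indicator_nonneg (fun z _ => le_min (le_max_right _ _) (Nat.cast_nonneg _)) z
  have hUN : ∀ N z, U N z ≤ N := fun N z => by
    simp only [U, Set.indicator_apply]
    split_ifs
    · exact min_le_right _ _
    · exact Nat.cast_nonneg _
  have hUM : ∀ N z, U N z ≤ max (M N z) 0 := fun N z => by
    simp only [U, Set.indicator_apply]
    split_ifs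
    · exact min_le_left _ _
    · exact le_max_right _ _
  have hUmono : ∀ z, Monotone fun N => U N z := by
    intro z N N' hN
    simp only [U, Set.indicator_apply]
    by_cases hz : z ∈ spanningSets μ N
    · rw [if_pos hz, if_pos (monotone_spanningSets μ hN hz)]
      exact min_le_min (max_le_max ((partialSups _).monotone hN) le_rfl) (Nat.cast_le.2 hN)
    · rw [if_neg hz]
      split_ifs
      · exact le_min (le_max_right _ _) (Nat.cast_nonneg _)
      · exact le_rfl
  have hsup : ∀ z, (⨆ k, ENNReal.ofReal (T k z)) ≤ ⨆ N, ENNReal.ofReal (U N z) := by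
    intro z
    refine iSup_le fun k => ?_
    obtain ⟨N1, hN1⟩ := exists_nat_ge (T k z)
    let N := max (max k N1) (spanningSetsIndex μ z)
    refine le_iSup_of_le N (ENNReal.ofReal_le_ofReal ?_)
    have hz : z ∈ spanningSets μ N := mem_spanningSets_of_index_le μ z (le_max_right _ _)
    simp only [U, Set.indicator_of_mem hz]
    refine le_min (le_max_of_le_left ?_) (hN1.trans (Nat.cast_le.2 ?_))
    · exact le_partialSups_of_le (fun k => T k z) ((le_max_left _ _).trans (le_max_left _ _))
    · exact (le_max_right _ _).trans (le_max_left _ _)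
  -- the bound for one truncation
  have hone : ∀ N, ∫⁻ z, ENNReal.ofReal (U N z) ^ (3 / 2 : ℝ) ∂μ ≤
      ENNReal.ofReal D ^ (3 / 2 : ℝ) := by
    intro N
    obtain ⟨sel, hsel, hmax⟩ := lin_exists_sel T hT N
    let H : X → ℝ := fun z => √(U N z)
    have hH : Measurable H := (hU N).sqrt
    have hH0 : ∀ z, 0 ≤ H z := fun z => Real.sqrt_nonneg _
    have hH3 : ∀ z, |H z| ^ 3 = U N z ^ (3 / 2 : ℝ) := fun z => by
      rw [abs_of_nonneg (hH0 z)]
      simp only [H, Real.sqrt_eq_rpow]
      rw [← Real.rpow_natCast, ← Real.rpow_mul (hU0 N z)]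
      norm_num
    have hHi : Integrable (fun z => |H z| ^ 3) μ := by
      have h1 : Integrable ((spanningSets μ N).indicator fun _ => √(N : ℝ) ^ 3) μ := by
        rw [integrable_indicator_iff (measurableSet_spanningSets μ N)]
        exact integrableOn_const (measure_spanningSets_lt_top μ N).ne
      refine h1.mono' (hH.abs.pow_const 3).aestronglyMeasurable (ae_of_all _ fun z => ?_)
      rw [Real.norm_eq_abs, abs_of_nonneg (by positivity), abs_of_nonneg (hH0 z)]
      by_cases hz : z ∈ spanningSets μ N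
      · rw [Set.indicator_of_mem hz]
        gcongr
        exact Real.sqrt_le_sqrt (hUN N z)
      · simp [H, U, hz]
    obtain ⟨hi, hle⟩ := h N sel hsel H hH hHi
    have hpt : ∀ z, |H z| ^ 3 ≤ H z * T (sel z) z := by
      intro z
      have h1 : M N z ≤ T (sel z) z := partialSups_le _ _ _ fun k hk => hmax z k hk
      have h2 : H z * H z = U N z := Real.mul_self_sqrt (hU0 N z)
      rw [abs_of_nonneg (hH0 z)]
      rcases le_total (M N z) 0 with h3 | h3
      · have h4 : U N z = 0 := le_antisymm ((hUM N z).trans (max_le h3 le_rfl)) (hU0 N z)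
        have h5 : H z = 0 := by simp [H, h4]
        simp [h5]
      · have h4 : U N z ≤ T (sel z) z := (hUM N z).trans (max_le h1 (h3.trans h1))
        calc H z ^ 3 = H z * U N z := by rw [← h2]; ring
          _ ≤ _ := mul_le_mul_of_nonneg_left h4 (hH0 z)
    have hI := (integral_mono hHi hi hpt).trans hle
    set I := ∫ z, |H z| ^ 3 ∂μ with hIdef
    have hI0 : 0 ≤ I := integral_nonneg fun z => by positivity
    have hI2 : I ≤ D ^ (3 / 2 : ℝ) := by
      rcases hI0.eq_or_lt with h0 | h0
      · rw [← h0]; positivity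
      · have h1 : I = I ^ (2 / 3 : ℝ) * I ^ (1 / 3 : ℝ) := by
          rw [← Real.rpow_add h0]; norm_num
        have h2 : I ^ (2 / 3 : ℝ) ≤ D := by
          refine le_of_mul_le_mul_right ?_ (Real.rpow_pos_of_pos h0 (1 / 3 : ℝ))
          rw [← h1]
          exact hI
        calc I = (I ^ (2 / 3 : ℝ)) ^ (3 / 2 : ℝ) := by
              rw [← Real.rpow_mul hI0]; norm_num
          _ ≤ _ := by gcongr
    have h3 : ∫⁻ z, ENNReal.ofReal (U N z) ^ (3 / 2 : ℝ) ∂μ = ENNReal.ofReal I := by
      rw [hIdef, ofReal_integral_eq_lintegral_ofReal hHi (ae_of_all _ fun z => by positivity)]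
      refine lintegral_congr fun z => ?_
      rw [hH3, ENNReal.ofReal_rpow_of_nonneg (hU0 N z) (by norm_num)]
    rw [h3, ENNReal.ofReal_rpow_of_nonneg hD (by norm_num)]
    exact ENNReal.ofReal_le_ofReal hI2
  have hfin : ∫⁻ z, (⨆ k, ENNReal.ofReal (T k z)) ^ (3 / 2 : ℝ) ∂μ ≤
      ENNReal.ofReal D ^ (3 / 2 : ℝ) := by
    calc ∫⁻ z, (⨆ k, ENNReal.ofReal (T k z)) ^ (3 / 2 : ℝ) ∂μ
        ≤ ∫⁻ z, ⨆ N, ENNReal.ofReal (U N z) ^ (3 / 2 : ℝ) ∂μ := by
          refine lintegral_mono fun z => ?_
          have := (ENNReal.orderIsoRpow (3 / 2 : ℝ) (by norm_num)).map_iSup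
            fun N => ENNReal.ofReal (U N z)
          simp only [ENNReal.orderIsoRpow_apply] at this
          rw [← this]
          exact ENNReal.rpow_le_rpow (hsup z) (by norm_num)
      _ = ⨆ N, ∫⁻ z, ENNReal.ofReal (U N z) ^ (3 / 2 : ℝ) ∂μ := by
          refine lintegral_iSup (fun N => (hU N).ennreal_ofReal.pow_const _) fun N N' hN z => ?_
          exact ENNReal.rpow_le_rpow (ENNReal.ofReal_le_ofReal (hUmono z hN)) (by norm_num)
      _ ≤ _ := iSup_le hone
  calc _ ≤ (ENNReal.ofReal D ^ (3 / 2 : ℝ)) ^ (2 / 3 : ℝ) :=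
        ENNReal.rpow_le_rpow hfin (by norm_num)
    _ = _ := by
        rw [← ENNReal.rpow_mul]
        norm_num

/-- The integral against the multiplier of a family of disjoint annuli with signs. -/
theorem lin_integral_mult {n : ℕ} (ε R σ : Fin n → ℝ)
    (hd : ∀ i j, i ≠ j → ∀ r : ℝ, ¬((ε i < r ∧ r < R i) ∧ (ε j < r ∧ r < R j)))
    (g : ℝ → ℝ) (hg : Integrable fun t => g t * (mult ε R σ |t| / t)) :
    ∫ t, g t * (mult ε R σ |t| / t) =
      ∑ j, σ j * ∫ t in {t : ℝ | ε j < |t| ∧ |t| < R j}, g t / t := by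
  have hA : ∀ j, MeasurableSet {t : ℝ | ε j < |t| ∧ |t| < R j} := fun j =>
    (measurableSet_lt measurable_const measurable_abs).inter
      (measurableSet_lt measurable_abs measurable_const)
  have hi : ∀ j, IntegrableOn (fun t => σ j * (g t / t)) {t : ℝ | ε j < |t| ∧ |t| < R j} := by
    intro j
    refine (hg.integrableOn (s := {t : ℝ | ε j < |t| ∧ |t| < R j})).congr_fun
      (fun t ht => ?_) (hA j)
    have : mult ε R σ |t| = σ j := by
      unfold mult
      rw [Finset.sum_eq_single j]
      · rw [if_pos (show ε j < |t| ∧ |t| < R j from ht), mul_one]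
      · intro i _ hij
        rw [if_neg fun h => hd i j hij _ ⟨h, ht⟩, mul_zero]
      · simp
    simp only [this]
    ring
  have h1 : ∀ t, g t * (mult ε R σ |t| / t) =
      ∑ j, ({t : ℝ | ε j < |t| ∧ |t| < R j}).indicator (fun t => σ j * (g t / t)) t := by
    intro t
    unfold mult
    rw [Finset.sum_div, Finset.mul_sum]
    refine Finset.sum_congr rfl fun j _ => ?_
    simp only [Set.indicator_apply, Set.mem_setOf_eq]
    split_ifs
    · ring
    · simp
  simp_rw [h1]
  rw [integral_finset_sum _ fun j _ => (integrable_indicator_iff (hA j)).2 (hi j)]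
  refine Finset.sum_congr rfl fun j _ => ?_
  rw [integral_indicator (hA j), integral_const_mul]

theorem lin_abs_mult_le {n : ℕ} (ε R σ : Fin n → ℝ) (hσ : ∀ j, |σ j| ≤ 1)
    (hd : ∀ i j, i ≠ j → ∀ r : ℝ, ¬((ε i < r ∧ r < R i) ∧ (ε j < r ∧ r < R j))) (r : ℝ) :
    |mult ε R σ r| ≤ 1 := by
  unfold mult
  by_cases h : ∃ j, ε j < r ∧ r < R j
  · obtain ⟨j, hj⟩ := h
    rw [Finset.sum_eq_single j]
    · rw [if_pos hj, mul_one]
      exact hσ j
    · intro i _ hij
      rw [if_neg fun h => hd i j hij _ ⟨h, hj⟩, mul_zero]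
    · simp
  · push Not at h
    rw [Finset.sum_eq_zero]
    · simp
    · intro j _
      rw [if_neg fun h' => (h j h'.1).not_gt h'.2, mul_zero]

end Crest.Agent.R72
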