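import Crest.Agent.R72.Defs
import Crest.Prelude.Def_TriangularHilbert

set_option autoImplicit false

namespace Crest.Agent.R72

open Matrix MeasureTheory
open scoped ENNReal

open Crest.AnalysisR

theorem measurable_annular {F G : ℝ × ℝ → ℂ} (hF : Measurable F) (hG : Measurable G) (ε R : ℝ) :
    Measurable (annularTriangularHT F G ε R) := by
  have h : Measurable fun p : (ℝ × ℝ) × ℝ =>
      F (p.1.1 + p.2, p.1.2) * G (p.1.1, p.1.2 + p.2) / (p.2 : ℂ) := by
    refine Measurable.div (Measurable.mul (hF.comp ?_) (hG.comp ?_)) ?_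
    · fun_prop
    · fun_prop
    · exact Complex.measurable_ofReal.comp measurable_snd
  exact (h.stronglyMeasurable.integral_prod_right'
    (ν := volume.restrict {t : ℝ | ε < abs t ∧ abs t < R})).measurable

theorem measurable_annulusCount {F G : ℝ × ℝ → ℂ} (hF : Measurable F) (hG : Measurable G)
    (n : ℕ) : Measurable (annulusCount n F G) := by
  unfold annulusCount
  refine Measurable.iSup fun m => Measurable.iSup_Prop _ ?_
  refine Measurable.iSup fun ε => Measurable.iSup fun R => ?_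
  refine Measurable.iSup_Prop _ (Measurable.iSup_Prop _ ?_)
  exact Finset.measurable_fun_sum _ fun j _ => (measurable_annular hF hG _ _).enorm

/-- An almost-everywhere property holds along almost every line in a fixed direction. -/
theorem MeasAux.ae_line {p : ℝ × ℝ → Prop} (hp : ∀ᵐ w : ℝ × ℝ, p w) (e : ℝ → ℝ × ℝ)
    (he : Measurable e) : ∀ᵐ z : ℝ × ℝ, ∀ᵐ t : ℝ, p (z + e t) := by
  obtain ⟨N, hN, hNm, hN0⟩ := exists_measurable_superset_of_null (ae_iff.1 hp)
  have h1 : ∀ᵐ t : ℝ, ∀ᵐ z : ℝ × ℝ, z + e t ∉ N := by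
    refine Filter.Eventually.of_forall fun t => ?_
    exact (measurePreserving_add_right (volume : Measure (ℝ × ℝ)) (e t)).quasiMeasurePreserving.ae
      (p := fun w => w ∉ N) (measure_eq_zero_iff_ae_notMem.1 hN0)
  have hm : MeasurableSet {x : (ℝ × ℝ) × ℝ | x.1 + e x.2 ∉ N} :=
    ((measurable_fst.add (he.comp measurable_snd)) hNm).compl
  have h2 : ∀ᵐ z : ℝ × ℝ, ∀ᵐ t : ℝ, z + e t ∉ N :=
    (Measure.ae_ae_comm (μ := (volume : Measure (ℝ × ℝ))) (ν := (volume : Measure ℝ))
      (p := fun z t => z + e t ∉ N) hm).2 h1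
  filter_upwards [h2] with z hz
  filter_upwards [hz] with t ht
  by_contra hc
  exact ht (hN hc)

theorem annular_congr_ae {F F' G G' : ℝ × ℝ → ℂ} (hF : F =ᵐ[volume] F') (hG : G =ᵐ[volume] G') :
    ∀ᵐ z : ℝ × ℝ, ∀ ε R : ℝ, annularTriangularHT F G ε R z = annularTriangularHT F' G' ε R z := by
  have h1 := MeasAux.ae_line hF (fun t => (t, 0)) (by fun_prop)
  have h2 := MeasAux.ae_line hG (fun t => (0, t)) (by fun_prop)
  filter_upwards [h1, h2] with z hz1 hz2 ε R
  unfold annularTriangularHT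
  refine integral_congr_ae (ae_restrict_of_ae ?_)
  filter_upwards [hz1, hz2] with t ht1 ht2
  have e1 : z + (t, 0) = (z.1 + t, z.2) := by ext <;> simp
  have e2 : z + (0, t) = (z.1, z.2 + t) := by ext <;> simp
  rw [e1] at ht1
  rw [e2] at ht2
  rw [ht1, ht2]

theorem annulusCount_congr_ae {F F' G G' : ℝ × ℝ → ℂ} (hF : F =ᵐ[volume] F')
    (hG : G =ᵐ[volume] G') (n : ℕ) : annulusCount n F G =ᵐ[volume] annulusCount n F' G' := by
  filter_upwards [annular_congr_ae hF hG] with z hz
  unfold annulusCount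
  simp only [hz]

theorem aemeasurable_annulusCount {F G : ℝ × ℝ → ℂ} (hF : AEStronglyMeasurable F volume)
    (hG : AEStronglyMeasurable G volume) (n : ℕ) : AEMeasurable (annulusCount n F G) volume := by
  refine (measurable_annulusCount hF.stronglyMeasurable_mk.measurable
    hG.stronglyMeasurable_mk.measurable n).aemeasurable.congr ?_
  exact (annulusCount_congr_ae hF.ae_eq_mk hG.ae_eq_mk n).symm

theorem MeasAux.annular_le_re_im {F G : ℝ × ℝ → ℂ} (hF : Measurable F) (hG : Measurable G)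
    (ε R : ℝ) (z : ℝ × ℝ) : ‖annularTriangularHT F G ε R z‖ₑ ≤
      ‖annularTriangularHT (fun w => ((F w).re : ℂ)) (fun w => ((G w).re : ℂ)) ε R z‖ₑ
        + ‖annularTriangularHT (fun w => ((F w).re : ℂ)) (fun w => ((G w).im : ℂ)) ε R z‖ₑ
        + ‖annularTriangularHT (fun w => ((F w).im : ℂ)) (fun w => ((G w).re : ℂ)) ε R z‖ₑ
        + ‖annularTriangularHT (fun w => ((F w).im : ℂ)) (fun w => ((G w).im : ℂ)) ε R z‖ₑ := by
  unfold annularTriangularHT
  set μ : Measure ℝ := volume.restrict {t : ℝ | ε < abs t ∧ abs t < R}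
  by_cases hI : Integrable (fun t : ℝ => F (z.1 + t, z.2) * G (z.1, z.2 + t) / (t : ℂ)) μ
  swap
  · rw [integral_undef hI]; simp
  have key : ∀ a b : ℂ → ℝ, Measurable a → Measurable b → (∀ x, |a x| ≤ ‖x‖) → (∀ x, |b x| ≤ ‖x‖) →
      Integrable (fun t : ℝ =>
        ((a (F (z.1 + t, z.2)) : ℝ) : ℂ) * ((b (G (z.1, z.2 + t)) : ℝ) : ℂ) / (t : ℂ)) μ := by
    intro a b ha hb ha' hb'
    refine hI.mono (Measurable.aestronglyMeasurable ?_) (Filter.Eventually.of_forall fun t => ?_)
    · refine Measurable.div (Measurable.mul ?_ ?_) Complex.measurable_ofReal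
      · exact Complex.measurable_ofReal.comp (ha.comp (hF.comp (by fun_prop)))
      · exact Complex.measurable_ofReal.comp (hb.comp (hG.comp (by fun_prop)))
    · simp only [norm_div, norm_mul, Complex.norm_real, Real.norm_eq_abs]
      refine div_le_div_of_nonneg_right ?_ (abs_nonneg _)
      exact mul_le_mul (ha' _) (hb' _) (abs_nonneg _) (norm_nonneg _)
  have i1 := key _ _ Complex.measurable_re Complex.measurable_re Complex.abs_re_le_norm
    Complex.abs_re_le_norm
  have i2 := key _ _ Complex.measurable_re Complex.measurable_im Complex.abs_re_le_norm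
    Complex.abs_im_le_norm
  have i3 := key _ _ Complex.measurable_im Complex.measurable_re Complex.abs_im_le_norm
    Complex.abs_re_le_norm
  have i4 := key _ _ Complex.measurable_im Complex.measurable_im Complex.abs_im_le_norm
    Complex.abs_im_le_norm
  have hsplit : (fun t : ℝ => F (z.1 + t, z.2) * G (z.1, z.2 + t) / (t : ℂ)) = fun t : ℝ =>
      ((F (z.1 + t, z.2)).re : ℂ) * ((G (z.1, z.2 + t)).re : ℂ) / (t : ℂ)
      + Complex.I * (((F (z.1 + t, z.2)).re : ℂ) * ((G (z.1, z.2 + t)).im : ℂ) / (t : ℂ))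
      + Complex.I * (((F (z.1 + t, z.2)).im : ℂ) * ((G (z.1, z.2 + t)).re : ℂ) / (t : ℂ))
      - ((F (z.1 + t, z.2)).im : ℂ) * ((G (z.1, z.2 + t)).im : ℂ) / (t : ℂ) := by
    funext t
    conv_lhs => rw [← Complex.re_add_im (F (z.1 + t, z.2)), ← Complex.re_add_im (G (z.1, z.2 + t))]
    have := Complex.I_mul_I
    linear_combination (((F (z.1 + t, z.2)).im : ℂ) * ((G (z.1, z.2 + t)).im : ℂ) / (t : ℂ)) * this
  rw [hsplit, integral_sub ((i1.fun_add (i2.const_mul _)).fun_add (i3.const_mul _)) i4,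
    integral_add (i1.fun_add (i2.const_mul _)) (i3.const_mul _), integral_add i1 (i2.const_mul _),
    integral_const_mul, integral_const_mul]
  have hI' : ∀ x : ℂ, ‖Complex.I * x‖ₑ = ‖x‖ₑ := fun x => by
    rw [← ofReal_norm, ← ofReal_norm, norm_mul, Complex.norm_I, one_mul]
  refine (enorm_sub_le).trans (add_le_add ?_ le_rfl)
  refine (enorm_add_le _ _).trans (add_le_add ?_ (hI' _).le)
  exact (enorm_add_le _ _).trans (add_le_add le_rfl (hI' _).le)

theorem MeasAux.le_annulusCount (n : ℕ) (F G : ℝ × ℝ → ℂ) (z : ℝ × ℝ) {m : ℕ} (hm : m ≤ n)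
    (ε R : Fin m → ℚ) (h1 : ∀ j, 0 < ε j ∧ ε j < R j)
    (h2 : ∀ i j, i ≠ j → R i ≤ ε j ∨ R j ≤ ε i) :
    ∑ j, ‖annularTriangularHT F G (ε j : ℝ) (R j : ℝ) z‖ₑ ≤ annulusCount n F G z := by
  unfold annulusCount
  exact le_iSup_of_le m (le_iSup_of_le hm (le_iSup_of_le ε (le_iSup_of_le R
    (le_iSup_of_le h1 (le_iSup_of_le h2 le_rfl)))))

/-- Reduction to real and imaginary parts. -/
theorem annulusCount_le_re_im {F G : ℝ × ℝ → ℂ} (hF : Measurable F) (hG : Measurable G) (n : ℕ)
    (z : ℝ × ℝ) : annulusCount n F G z ≤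
      annulusCount n (fun w => ((F w).re : ℂ)) (fun w => ((G w).re : ℂ)) z
        + annulusCount n (fun w => ((F w).re : ℂ)) (fun w => ((G w).im : ℂ)) z
        + annulusCount n (fun w => ((F w).im : ℂ)) (fun w => ((G w).re : ℂ)) z
        + annulusCount n (fun w => ((F w).im : ℂ)) (fun w => ((G w).im : ℂ)) z := by
  conv_lhs => unfold annulusCount
  refine iSup_le fun m => iSup_le fun hm => iSup_le fun ε => iSup_le fun R => iSup_le fun h1 =>
    iSup_le fun h2 => ?_
  refine (Finset.sum_le_sum fun j _ => MeasAux.annular_le_re_im hF hG (ε j : ℝ) (R j : ℝ) z).trans ?_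
  simp only [Finset.sum_add_distrib]
  exact add_le_add (add_le_add (add_le_add (MeasAux.le_annulusCount n _ _ z hm ε R h1 h2)
    (MeasAux.le_annulusCount n _ _ z hm ε R h1 h2)) (MeasAux.le_annulusCount n _ _ z hm ε R h1 h2))
    (MeasAux.le_annulusCount n _ _ z hm ε R h1 h2)

end Crest.Agent.R72
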