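import Crest.Agent.R72.DC
import Crest.Agent.R72.Meas
import Crest.Agent.R72.LinAux

set_option autoImplicit false

namespace Crest.Agent.R72

open Matrix MeasureTheory
open scoped ENNReal

open Crest.AnalysisR

/-- The real annular transform. -/
noncomputable def linB (F G : ℝ × ℝ → ℝ) (ε R : ℝ) (z : ℝ × ℝ) : ℝ :=
  ∫ t in {t : ℝ | ε < |t| ∧ |t| < R}, F (z.1 + t, z.2) * G (z.1, z.2 + t) / t

theorem linB_eq (F G : ℝ × ℝ → ℝ) (ε R : ℝ) (z : ℝ × ℝ) :
    annularTriangularHT (fun w => (F w : ℂ)) (fun w => (G w : ℂ)) ε R z = (linB F G ε R z : ℝ) := by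
  unfold annularTriangularHT linB
  rw [← integral_complex_ofReal]
  push_cast
  rfl

theorem measurable_linB {F G : ℝ × ℝ → ℝ} (hF : Measurable F) (hG : Measurable G) (ε R : ℝ) :
    Measurable (linB F G ε R) := by
  have h := measurable_annular (F := fun w => (F w : ℂ)) (G := fun w => (G w : ℂ))
    (Complex.measurable_ofReal.comp hF) (Complex.measurable_ofReal.comp hG) ε R
  have h2 : linB F G ε R = fun z =>
      (annularTriangularHT (fun w => (F w : ℂ)) (fun w => (G w : ℂ)) ε R z).re := by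
    ext z
    rw [linB_eq, Complex.ofReal_re]
  rw [h2]
  exact Complex.measurable_re.comp h

/-- Padded signed configurations of annuli. -/
def LinCfg (n : ℕ) : Type :=
  {c : (Fin n → ℚ) × (Fin n → ℚ) × (Fin n → ℚ) // (∀ j, 0 < c.1 j) ∧ (∀ j, |c.2.2 j| ≤ 1) ∧
    ∀ i j, i ≠ j → ∀ r : ℝ,
      ¬(((c.1 i : ℝ) < r ∧ r < (c.2.1 i : ℝ)) ∧ ((c.1 j : ℝ) < r ∧ r < (c.2.1 j : ℝ)))}

instance (n : ℕ) : Countable (LinCfg n) := by
  unfold LinCfg
  infer_instance

instance (n : ℕ) : Nonempty (LinCfg n) :=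
  ⟨⟨(fun _ => 1, fun _ => 1, fun _ => 1), fun _ => one_pos, fun _ => by simp,
    fun _ _ _ r h => by
      have h1 := h.1.1
      have h2 := h.1.2
      exact lt_asymm h1 h2⟩⟩

/-- The signed sum attached to a configuration. -/
noncomputable def linT {n : ℕ} (F G : ℝ × ℝ → ℝ) (c : LinCfg n) (z : ℝ × ℝ) : ℝ :=
  ∑ j, (c.1.2.2 j : ℝ) * linB F G (c.1.1 j) (c.1.2.1 j) z

theorem lin_count_le (n : ℕ) (F G : ℝ × ℝ → ℝ) (z : ℝ × ℝ) :
    annulusCount n (fun w => (F w : ℂ)) (fun w => (G w : ℂ)) z ≤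
      ⨆ c : LinCfg n, ENNReal.ofReal (linT F G c z) := by
  classical
  unfold annulusCount
  refine iSup_le fun m => iSup_le fun hm => iSup_le fun ε => iSup_le fun R =>
    iSup_le fun h1 => iSup_le fun h2 => ?_
  let ε' : Fin n → ℚ := fun j => if h : (j : ℕ) < m then ε ⟨j, h⟩ else 1
  let R' : Fin n → ℚ := fun j => if h : (j : ℕ) < m then R ⟨j, h⟩ else 1
  let σ' : Fin n → ℚ := fun j =>
    if h : (j : ℕ) < m then (if 0 ≤ linB F G (ε ⟨j, h⟩) (R ⟨j, h⟩) z then 1 else -1) else 0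
  let c : LinCfg n := ⟨(ε', R', σ'), fun j => by
      simp only [ε']
      split_ifs with h
      · exact (h1 _).1
      · exact one_pos, fun j => by
      simp only [σ']
      split_ifs <;> simp, fun i j hij r h => by
      simp only [ε', R'] at h
      by_cases hi : (i : ℕ) < m
      · by_cases hj : (j : ℕ) < m
        · simp only [dif_pos hi, dif_pos hj] at h
          have hne : (⟨i, hi⟩ : Fin m) ≠ ⟨j, hj⟩ := fun h => hij (Fin.ext (Fin.mk.inj h))
          rcases h2 _ _ hne with h3 | h3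
          · have h4 : (R ⟨i, hi⟩ : ℝ) ≤ ε ⟨j, hj⟩ := by exact_mod_cast h3
            linarith [h.1.2, h.2.1]
          · have h4 : (R ⟨j, hj⟩ : ℝ) ≤ ε ⟨i, hi⟩ := by exact_mod_cast h3
            linarith [h.1.1, h.2.2]
        · simp only [dif_neg hj] at h
          exact lt_asymm h.2.1 h.2.2
      · simp only [dif_neg hi] at h
        exact lt_asymm h.1.1 h.1.2⟩
  refine le_iSup_of_le c (le_of_eq ?_)
  have h3 : linT F G c z = ∑ j : Fin m, |linB F G (ε j) (R j) z| := by
    unfold linT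
    symm
    refine Finset.sum_of_injOn (Fin.castLE hm) (Fin.castLE_injective hm).injOn (by simp) ?_ ?_
    · intro j _ hj
      have : ¬(j : ℕ) < m := fun h => hj ⟨⟨j, h⟩, by simp, by simp⟩
      simp [c, σ', this]
    · intro j _
      have hj : ((Fin.castLE hm j : Fin n) : ℕ) < m := j.2
      simp only [c, σ', ε', R', dif_pos hj, Fin.val_castLE, Fin.eta]
      split_ifs with h
      · rw [abs_of_nonneg h]; simp
      · rw [abs_of_neg (not_le.1 h)]; simp
  rw [h3, ENNReal.ofReal_sum_of_nonneg fun _ _ => abs_nonneg _]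
  refine Finset.sum_congr rfl fun j _ => ?_
  rw [linB_eq, ← ofReal_norm_eq_enorm, Complex.norm_real, Real.norm_eq_abs]

/-- The annulus-count estimate for real measurable functions. -/
theorem count_real : ∃ C : ℝ, 0 < C ∧ ∀ n : ℕ, 1 ≤ n → ∀ F G : ℝ × ℝ → ℝ,
    Measurable F → Measurable G → Integrable (fun z => |F z| ^ 3) →
    Integrable (fun z => |G z| ^ 3) →
    (∫⁻ z, annulusCount n (fun w => (F w : ℂ)) (fun w => (G w : ℂ)) z ^ (3 / 2 : ℝ)) ^ (2 / 3 : ℝ) ≤
      ENNReal.ofReal (C * (√n * Real.log (2 + n)) *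
        (∫ z, |F z| ^ 3) ^ (1 / 3 : ℝ) * (∫ z, |G z| ^ 3) ^ (1 / 3 : ℝ)) := by
  obtain ⟨C, hC, hdual⟩ := dual_bound
  refine ⟨C, hC, fun n hn F G hF hG hF3 hG3 => ?_⟩
  obtain ⟨e, he⟩ := exists_surjective_nat (LinCfg n)
  have hT : ∀ k, Measurable (linT F G (e k)) := fun k =>
    Finset.measurable_sum _ fun j _ => (measurable_linB hF hG _ _).const_mul _
  have hlog : 0 ≤ Real.log (2 + n) :=
    Real.log_nonneg (by linarith [(Nat.cast_nonneg n : (0 : ℝ) ≤ n)])
  have hF0 : 0 ≤ ∫ z, |F z| ^ 3 := integral_nonneg fun z => by positivity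
  have hG0 : 0 ≤ ∫ z, |G z| ^ 3 := integral_nonneg fun z => by positivity
  refine le_trans ?_ (lin_sup volume (fun k => linT F G (e k)) hT _ (by positivity) ?_)
  · refine ENNReal.rpow_le_rpow (lintegral_mono fun z => ?_) (by norm_num)
    refine ENNReal.rpow_le_rpow ((lin_count_le n F G z).trans ?_) (by norm_num)
    exact (he.iSup_comp fun c => ENNReal.ofReal (linT F G c z)).ge
  · intro N sel hsel H hH hH3
    obtain ⟨hi, hle⟩ := hdual n hn (Fin (N + 1)) (fun π j => ((e π).1.1 j : ℝ))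
      (fun π j => ((e π).1.2.1 j : ℝ)) (fun π j => ((e π).1.2.2 j : ℝ))
      (fun π j => by exact_mod_cast (e π).2.1 j)
      (fun π j => by exact_mod_cast (e π).2.2.1 j)
      (fun π r => lin_abs_mult_le _ _ _ (fun j => by exact_mod_cast (e π).2.2.1 j)
        (e π).2.2.2 r) sel hsel H F G hH hF hG hH3 hF3 hG3
    rw [Measure.volume_eq_prod] at hi hle
    rw [integral_prod _ hi] at hle
    have hae : (fun z : ℝ × ℝ => ∫ t, H z * (F (z.1 + t, z.2) * G (z.1, z.2 + t) *
        (mult (fun j => ((e (sel z)).1.1 j : ℝ)) (fun j => ((e (sel z)).1.2.1 j : ℝ))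
          (fun j => ((e (sel z)).1.2.2 j : ℝ)) |t| / t))) =ᵐ[volume]
        fun z => H z * linT F G (e (sel z)) z := by
      filter_upwards [hi.prod_right_ae] with z hz
      rw [integral_const_mul]
      by_cases h0 : H z = 0
      · simp [h0]
      · congr 1
        have hz' := (integrable_const_mul_iff (IsUnit.mk0 _ h0) _).1 hz
        exact lin_integral_mult _ _ _ (e (sel z)).2.2.2
          (fun t => F (z.1 + t, z.2) * G (z.1, z.2 + t)) hz'
    refine ⟨hi.integral_prod_left.congr hae, ?_⟩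
    rw [integral_congr_ae hae] at hle
    refine (le_abs_self _).trans (hle.trans_eq ?_)
    ring

end Crest.Agent.R72
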