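import Crest.Agent.R72.Gain
import Crest.Agent.R72.Jump

set_option autoImplicit false

namespace Crest.Agent.R72

open Matrix MeasureTheory
open scoped ENNReal

section aux

variable {ι₀ ι₁ ι₂ : Type} [Fintype ι₀] [DecidableEq ι₀] [Fintype ι₁] [DecidableEq ι₁]
  [Fintype ι₂] [DecidableEq ι₂]

/-- The integrated Bellman function at scale `s`. -/
noncomputable def longBel (F₀ : Matrix ι₀ ι₁ ℝ) (F₁ : Matrix ι₁ ι₂ ℝ) (F₂ : Matrix ι₂ ι₀ ℝ)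
    (x₀ : ι₀ → ℝ) (x₁ : ι₁ → ℝ) (x₂ : ι₂ → ℝ) (s : ℝ) : ℝ≥0∞ :=
  Theta F₀ F₁ x₀ x₁ x₂ (lap s) (lap s) (lap s) + Theta F₁ F₂ x₁ x₂ x₀ (lap s) (lap s) (lap s)
    + Theta F₂ F₀ x₂ x₀ x₁ (lap s) (lap s) (lap s)
    + 240 * (NN F₀ x₀ x₁ (lap s) (lap s) + NN F₁ x₁ x₂ (lap s) (lap s)
      + NN F₂ x₂ x₀ (lap s) (lap s))

theorem long_theta_step (F : Matrix ι₀ ι₁ ℝ) (G : Matrix ι₁ ι₂ ℝ) (x₀ : ι₀ → ℝ) (x₁ : ι₁ → ℝ)
    (x₂ : ι₂ → ℝ) {s : ℝ} (hs : 0 < s) :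
    Theta F G x₀ x₁ x₂ (lap (2 * s)) (lap (2 * s)) (lap (2 * s))
        + 1 / 80 * Gmid (nu s) F G x₀ x₁ x₂ (lap s) (lap s) (lap s) ≤
      Theta F G x₀ x₁ x₂ (lap s) (lap s) (lap s) +
        3 / 2 * (Gout (nu s) F x₀ x₁ (lap s) (lap s) + Gout (nu s) Gᵀ x₂ x₁ (lap s) (lap s)) := by
  have h1 := step_outer F G x₀ x₁ x₂ (stepLaw_nu hs) (prof_lap hs)
    (prof_lap (s := 2 * s) (by positivity)) (prof_lap hs)
  have h2 := step_mid F G x₀ x₁ x₂ (stepLaw_nu hs) (prof_lap hs) (prof_lap hs) (prof_lap hs)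
  rw [cvm_nu_lap hs] at h1 h2
  exact ((add_le_add h1 le_rfl).trans le_self_add).trans h2

theorem long_nn_step1 (F : Matrix ι₀ ι₁ ℝ) (x₀ : ι₀ → ℝ) (x₁ : ι₁ → ℝ) {s : ℝ} (hs : 0 < s) :
    NN F x₀ x₁ (lap (2 * s)) (lap (2 * s)) + 1 / 80 * Gout (nu s) F x₀ x₁ (lap s) (lap s) ≤
      NN F x₀ x₁ (lap s) (lap s) := by
  have h1 := step_pure F x₀ x₁ (stepLaw_nu hs) (prof_lap hs) (prof_lap hs)
  have h2 := step_pure Fᵀ x₁ x₀ (stepLaw_nu hs) (prof_lap hs)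
    (prof_lap (s := 2 * s) (by positivity))
  rw [cvm_nu_lap hs] at h1 h2
  rw [← NN_transpose, ← NN_transpose] at h2
  exact (add_le_add (le_self_add.trans h2) le_rfl).trans h1

theorem long_nn_step (F : Matrix ι₀ ι₁ ℝ) (x₀ : ι₀ → ℝ) (x₁ : ι₁ → ℝ) {s : ℝ} (hs : 0 < s) :
    240 * NN F x₀ x₁ (lap (2 * s)) (lap (2 * s)) +
        3 / 2 * (Gout (nu s) F x₀ x₁ (lap s) (lap s) + Gout (nu s) Fᵀ x₁ x₀ (lap s) (lap s)) ≤
      240 * NN F x₀ x₁ (lap s) (lap s) := by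
  have h1 := long_nn_step1 F x₀ x₁ hs
  have h2 := long_nn_step1 Fᵀ x₁ x₀ hs
  rw [← NN_transpose, ← NN_transpose] at h2
  have h3 := mul_le_mul_right (add_le_add h1 h2) 120
  have e : (3 / 2 : ℝ≥0∞) = 120 * (1 / 80) := by
    rw [← ENNReal.toReal_eq_toReal_iff' (by finiteness) (by finiteness)]
    simp only [ENNReal.toReal_mul, ENNReal.toReal_div, ENNReal.toReal_ofNat, ENNReal.toReal_one]
    norm_num
  rw [e]
  refine le_of_eq_of_le ?_ (h3.trans_eq ?_) <;> ring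

theorem longBel_step (F₀ : Matrix ι₀ ι₁ ℝ) (F₁ : Matrix ι₁ ι₂ ℝ) (F₂ : Matrix ι₂ ι₀ ℝ)
    (x₀ : ι₀ → ℝ) (x₁ : ι₁ → ℝ) (x₂ : ι₂ → ℝ) {s : ℝ} (hs : 0 < s) :
    longBel F₀ F₁ F₂ x₀ x₁ x₂ (2 * s) + 1 / 80 *
        (Gmid (nu s) F₀ F₁ x₀ x₁ x₂ (lap s) (lap s) (lap s)
          + Gmid (nu s) F₁ F₂ x₁ x₂ x₀ (lap s) (lap s) (lap s)
          + Gmid (nu s) F₂ F₀ x₂ x₀ x₁ (lap s) (lap s) (lap s)) ≤
      longBel F₀ F₁ F₂ x₀ x₁ x₂ s := by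
  have h1 := add_le_add (add_le_add (long_theta_step F₀ F₁ x₀ x₁ x₂ hs)
    (long_theta_step F₁ F₂ x₁ x₂ x₀ hs)) (long_theta_step F₂ F₀ x₂ x₀ x₁ hs)
  have h2 := add_le_add (add_le_add (long_nn_step F₀ x₀ x₁ hs) (long_nn_step F₁ x₁ x₂ hs))
    (long_nn_step F₂ x₂ x₀ hs)
  unfold longBel
  calc _ = _ + 240 * (NN F₀ x₀ x₁ (lap (2 * s)) (lap (2 * s))
          + NN F₁ x₁ x₂ (lap (2 * s)) (lap (2 * s)) + NN F₂ x₂ x₀ (lap (2 * s)) (lap (2 * s))) := ?_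
    _ ≤ _ := add_le_add h1 le_rfl
    _ = (Theta F₀ F₁ x₀ x₁ x₂ (lap s) (lap s) (lap s) + Theta F₁ F₂ x₁ x₂ x₀ (lap s) (lap s) (lap s)
          + Theta F₂ F₀ x₂ x₀ x₁ (lap s) (lap s) (lap s)) + _ := ?_
    _ ≤ _ + _ := add_le_add le_rfl h2
    _ = _ := ?_
  all_goals ring

omit [DecidableEq ι₀] [DecidableEq ι₁] in
theorem long_cub_nonneg (F : Matrix ι₀ ι₁ ℝ) : 0 ≤ cub F :=
  Finset.sum_nonneg fun _ _ => Finset.sum_nonneg fun _ _ => by positivity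

theorem longBel_le (F₀ : Matrix ι₀ ι₁ ℝ) (F₁ : Matrix ι₁ ι₂ ℝ) (F₂ : Matrix ι₂ ι₀ ℝ)
    {x₀ : ι₀ → ℝ} {x₁ : ι₁ → ℝ} {x₂ : ι₂ → ℝ} (h₀ : Sep x₀) (h₁ : Sep x₁) (h₂ : Sep x₂) {s : ℝ}
    (hs : 1 ≤ s) :
    longBel F₀ F₁ F₂ x₀ x₁ x₂ s ≤ ENNReal.ofReal (968 * (cub F₀ + cub F₁ + cub F₂)) := by
  have hp := prof_lap (s := s) (by linarith)
  have a₀ := sum_lap_le h₀ hs
  have a₁ := sum_lap_le h₁ hs
  have a₂ := sum_lap_le h₂ hs
  have c₀ := long_cub_nonneg F₀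
  have c₁ := long_cub_nonneg F₁
  have c₂ := long_cub_nonneg F₂
  refine (add_le_add (add_le_add (add_le_add (Theta_le F₀ F₁ x₀ x₁ x₂ hp hp hp zero_le_two a₀ a₁ a₂)
    (Theta_le F₁ F₂ x₁ x₂ x₀ hp hp hp zero_le_two a₁ a₂ a₀))
    (Theta_le F₂ F₀ x₂ x₀ x₁ hp hp hp zero_le_two a₂ a₀ a₁))
    (mul_le_mul_right (add_le_add (add_le_add (NN_le F₀ x₀ x₁ hp hp zero_le_two a₀ a₁)
      (NN_le F₁ x₁ x₂ hp hp zero_le_two a₁ a₂)) (NN_le F₂ x₂ x₀ hp hp zero_le_two a₂ a₀))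
      240)).trans_eq ?_
  rw [← ENNReal.ofReal_ofNat 240, ← ENNReal.ofReal_add (by positivity) (by positivity),
    ← ENNReal.ofReal_add (by positivity) (by positivity),
    ← ENNReal.ofReal_add (by positivity) (by positivity),
    ← ENNReal.ofReal_add (by positivity) (by positivity), ← ENNReal.ofReal_mul (by positivity),
    ← ENNReal.ofReal_add (by positivity) (by positivity)]
  congr 1
  ring

end aux

/-- The jump of the interaction term for rescaled multipliers. -/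
theorem long_theta_jump : ∃ C : ℝ, 0 < C ∧
    ∀ (ι₀ ι₁ ι₂ : Type) [Fintype ι₀] [DecidableEq ι₀] [Fintype ι₁] [DecidableEq ι₁]
      [Fintype ι₂] [DecidableEq ι₂]
      (x₀ : ι₀ → ℝ) (x₁ : ι₁ → ℝ) (x₂ : ι₂ → ℝ) (H F F' : Matrix ι₀ ι₁ ℝ) (G : Matrix ι₁ ι₂ ℝ)
      (s l : ℝ) (d M : ι₀ → ι₁ → ℝ), 1 ≤ s → 0 < l → l ≤ 1 →
      (∀ i j, F i j ^ 2 ≤ l ^ 2 * H i j ^ 2) → (∀ i j, |F' i j - F i j| = l * d i j) →
      (∀ i j, Mx x₁ (fun y => H i y ^ 2) (x₁ j) + Mx x₀ (fun x => H x j ^ 2) (x₀ i)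
        + Mx x₂ (fun k => G j k ^ 2) (-x₀ i - x₁ j) ≤ M i j) →
      Theta F G x₀ x₁ x₂ (lap s) (lap s) (lap s) ≤ Theta F' G x₀ x₁ x₂ (lap s) (lap s) (lap s) +
        ENNReal.ofReal (C * l ^ 2 * ∑ i, ∑ j, d i j * M i j) := by
  obtain ⟨C, hC, h⟩ := theta_jump
  refine ⟨C, hC, fun ι₀ ι₁ ι₂ _ _ _ _ _ _ x₀ x₁ x₂ H F F' G s l d M hs hl hl1 hF hd hM => ?_⟩
  refine (h ι₀ ι₁ ι₂ x₀ x₁ x₂ F F' G s l hs hl).trans (add_le_add le_rfl
    (ENNReal.ofReal_le_ofReal ?_))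
  rw [mul_assoc]
  refine mul_le_mul_of_nonneg_left ?_ hC.le
  simp only [Finset.mul_sum]
  refine Finset.sum_le_sum fun i _ => Finset.sum_le_sum fun j _ => ?_
  have hd0 : 0 ≤ l * d i j := hd i j ▸ abs_nonneg _
  have a1 := Mx_mono x₁ (fun y => sq_nonneg (F i y)) (fun y => hF i y) (x₁ j)
  have a2 := Mx_mono x₀ (fun x => sq_nonneg (F x j)) (fun x => hF x j) (x₀ i)
  rw [Mx_const_mul _ (fun _ => sq_nonneg _) (sq_nonneg l)] at a1 a2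
  have a3 := Mx_nonneg x₀ (fun x => sq_nonneg (H x j)) (x₀ i)
  have a4 : l⁻¹ * Mx x₁ (fun y => F i y ^ 2) (x₁ j) ≤ l * Mx x₁ (fun y => H i y ^ 2) (x₁ j) := by
    rw [inv_mul_le_iff₀ hl]; linarith
  have a5 : l ^ 2 * Mx x₀ (fun x => H x j ^ 2) (x₀ i) ≤ Mx x₀ (fun x => H x j ^ 2) (x₀ i) :=
    mul_le_of_le_one_left a3 (pow_le_one₀ hl.le hl1)
  have a6 := mul_le_mul_of_nonneg_left (a2.trans a5) hl.le
  have a7 := mul_le_mul_of_nonneg_left (hM i j) hl.le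
  rw [hd, show l ^ 2 * (d i j * M i j) = l * d i j * (l * M i j) by ring]
  exact mul_le_mul_of_nonneg_left (by linarith) hd0

theorem long_young {a b : ℝ} (ha : 0 ≤ a) (hb : 0 ≤ b) : a * b ≤ a ^ 3 + b ^ (3 / 2 : ℝ) := by
  have h := Real.young_inequality_of_nonneg ha hb (p := 3) (q := 3 / 2)
    ⟨by norm_num, by norm_num, by norm_num⟩
  have h1 : a ^ (3 : ℝ) = a ^ 3 := by exact_mod_cast Real.rpow_natCast a 3
  have h2 : 0 ≤ a ^ 3 := by positivity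
  have h3 : 0 ≤ b ^ (3 / 2 : ℝ) := by positivity
  rw [h1] at h
  linarith

theorem long_sq_rpow (a : ℝ) : (a ^ 2) ^ (3 / 2 : ℝ) = |a| ^ 3 := by
  rw [← sq_abs, ← Real.rpow_natCast, ← Real.rpow_mul (abs_nonneg a), ← Real.rpow_natCast]
  norm_num

/-- The long variation estimate for the model kernel. -/
theorem long_bound : ∃ C : ℝ, 0 < C ∧
    ∀ (ι₀ ι₁ ι₂ : Type) [Fintype ι₀] [DecidableEq ι₀] [Fintype ι₁] [DecidableEq ι₁]
      [Fintype ι₂] [DecidableEq ι₂]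
      (x₀ : ι₀ → ℝ) (x₁ : ι₁ → ℝ) (x₂ : ι₂ → ℝ), Sep x₀ → Sep x₁ → Sep x₂ →
      ∀ (H : Matrix ι₀ ι₁ ℝ) (F₁ : Matrix ι₁ ι₂ ℝ) (F₂ : Matrix ι₂ ι₀ ℝ) (u : ℝ) (K : ℕ)
        (m : ℕ → ι₀ → ι₁ → ℝ) (ν : ℝ), 1 ≤ u → 1 ≤ ν → (∀ q i₀ i₁, |m q i₀ i₁| ≤ 1) →
        (∀ i₀ i₁, ∑ q ∈ Finset.range K, |m (q + 1) i₀ i₁ - m q i₀ i₁| ≤ ν) →
        |Form H F₁ F₂ x₀ x₁ x₂ fun i₀ i₁ t => ∑ q ∈ Finset.range K, m q i₀ i₁ * phi (u * 2 ^ q) t| ≤
          C * √ν * (cub H + cub F₁ + cub F₂) := by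
  obtain ⟨Cg, hCg, hg⟩ := form_le_gain
  obtain ⟨Cj, hCj, hj⟩ := long_theta_jump
  obtain ⟨Cm, hCm, hm⟩ := max_ineq (p := 3 / 2) (by norm_num)
  refine ⟨80 * Cg * (968 + 242 * Cj * (4 + 2 * Cm)), by positivity, ?_⟩
  intro ι₀ ι₁ ι₂ _ _ _ _ _ _ x₀ x₁ x₂ h₀ h₁ h₂ H F₁ F₂ u K m ν hu hν hm1 hvar
  have hsν : 1 ≤ √ν := Real.one_le_sqrt.2 hν
  set l := (√ν)⁻¹ with hl
  have hl0 : 0 < l := by positivity
  have hl1 : l ≤ 1 := inv_le_one_of_one_le₀ hsν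
  have hlν : l ^ 2 * ν = 1 := by
    rw [hl, inv_pow, Real.sq_sqrt (by linarith), inv_mul_cancel₀ (by linarith)]
  let Hq : ℕ → Matrix ι₀ ι₁ ℝ := fun q => Matrix.of fun i j => l * (m q i j * H i j)
  have hH2 : ∀ q i j, Hq q i j ^ 2 ≤ l ^ 2 * H i j ^ 2 := by
    intro q i j
    have : m q i j ^ 2 ≤ 1 := by rw [← sq_abs]; exact pow_le_one₀ (abs_nonneg _) (hm1 q i j)
    simp only [Hq, Matrix.of_apply, mul_pow]
    exact mul_le_mul_of_nonneg_left (mul_le_of_le_one_left (sq_nonneg _) this) (sq_nonneg _)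
  let d : ℕ → ι₀ → ι₁ → ℝ := fun q i j => |m (q + 1) i j - m q i j| * |H i j|
  have hd : ∀ q i j, |Hq q i j - Hq (q + 1) i j| = l * d q i j := by
    intro q i j
    simp only [Hq, d, Matrix.of_apply]
    rw [← mul_sub, ← sub_mul, abs_mul, abs_mul, abs_of_pos hl0, abs_sub_comm]
  let A : ι₀ → ι₁ → ℝ := fun i j => Mx x₁ (fun y => H i y ^ 2) (x₁ j)
  let B : ι₀ → ι₁ → ℝ := fun i j => Mx x₀ (fun x => H x j ^ 2) (x₀ i)
  let D : ι₀ → ι₁ → ℝ := fun i j => Mx x₂ (fun k => F₁ j k ^ 2) (-x₀ i - x₁ j)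
  let E : ι₀ → ι₁ → ℝ := fun i j => Mx x₂ (fun k => F₂ k i ^ 2) (-x₁ j - x₀ i)
  have hA : ∀ i j, 0 ≤ A i j := fun i j => Mx_nonneg _ (fun _ => sq_nonneg _) _
  have hB : ∀ i j, 0 ≤ B i j := fun i j => Mx_nonneg _ (fun _ => sq_nonneg _) _
  have hD : ∀ i j, 0 ≤ D i j := fun i j => Mx_nonneg _ (fun _ => sq_nonneg _) _
  have hE : ∀ i j, 0 ≤ E i j := fun i j => Mx_nonneg _ (fun _ => sq_nonneg _) _
  let J : ℕ → ℝ := fun q => Cj * l ^ 2 * ∑ i, ∑ j, d q i j * (A i j + B i j + D i j + E i j)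
  have hJ0 : ∀ q, 0 ≤ J q := fun q => mul_nonneg (by positivity) (Finset.sum_nonneg fun i _ =>
    Finset.sum_nonneg fun j _ => mul_nonneg (by positivity)
      (by linarith [hA i j, hB i j, hD i j, hE i j]))
  have jump : ∀ q s, 1 ≤ s → longBel (Hq (q + 1)) F₁ F₂ x₀ x₁ x₂ s ≤
      longBel (Hq q) F₁ F₂ x₀ x₁ x₂ s + 242 * ENNReal.ofReal (J q) := by
    intro q s hs
    have j1 := hj ι₀ ι₁ ι₂ x₀ x₁ x₂ H (Hq (q + 1)) (Hq q) F₁ s l (d q)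
      (fun i j => A i j + B i j + D i j + E i j) hs hl0 hl1 (hH2 _) (hd q)
      (fun i j => le_add_of_nonneg_right (hE i j))
    have j2 := hj ι₁ ι₀ ι₂ x₁ x₀ x₂ Hᵀ (Hq (q + 1))ᵀ (Hq q)ᵀ F₂ᵀ s l (fun j i => d q i j)
      (fun j i => A i j + B i j + D i j + E i j) hs hl0 hl1 (fun j i => hH2 _ i j)
      (fun j i => hd q i j) (fun j i => by
        change B i j + A i j + E i j ≤ _
        linarith [hD i j])
    have j3 := hj ι₀ ι₁ ι₂ x₀ x₁ x₂ H (Hq (q + 1)) (Hq q) 0 s l (d q)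
      (fun i j => A i j + B i j + D i j + E i j) hs hl0 hl1 (hH2 _) (hd q) (fun i j => by
        have := Mx_mono x₂ (g := fun k => (0 : Matrix ι₁ ι₂ ℝ) j k ^ 2) (g' := fun k => F₁ j k ^ 2)
          (fun _ => sq_nonneg _) (fun k => by simpa using sq_nonneg _) (-x₀ i - x₁ j)
        change A i j + B i j + _ ≤ A i j + B i j + D i j + E i j
        linarith [hE i j])
    rw [← Theta_swap, ← Theta_swap, Finset.sum_comm] at j2
    rw [Theta_zero, Theta_zero] at j3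
    unfold longBel
    refine (add_le_add (add_le_add (add_le_add j1 le_rfl) j2)
      (mul_le_mul_right (add_le_add (add_le_add j3 le_rfl) le_rfl) 240)).trans_eq ?_
    simp only [J]
    ring
  have hs1 : ∀ q : ℕ, 1 ≤ u * 2 ^ q := fun q =>
    one_le_mul_of_one_le_of_one_le hu (one_le_pow₀ one_le_two)
  let G : ℕ → ℝ≥0∞ := fun q =>
    Gmid (nu (u * 2 ^ q)) (Hq q) F₁ x₀ x₁ x₂ (lap (u * 2 ^ q)) (lap (u * 2 ^ q)) (lap (u * 2 ^ q))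
      + Gmid (nu (u * 2 ^ q)) F₁ F₂ x₁ x₂ x₀ (lap (u * 2 ^ q)) (lap (u * 2 ^ q)) (lap (u * 2 ^ q))
      + Gmid (nu (u * 2 ^ q)) F₂ (Hq q) x₂ x₀ x₁ (lap (u * 2 ^ q)) (lap (u * 2 ^ q))
        (lap (u * 2 ^ q))
  have tele : ∀ n : ℕ, 1 / 80 * ∑ q ∈ Finset.range n, G q + longBel (Hq n) F₁ F₂ x₀ x₁ x₂ (u * 2 ^ n) ≤
      longBel (Hq 0) F₁ F₂ x₀ x₁ x₂ (u * 2 ^ 0) +
        242 * ENNReal.ofReal (∑ q ∈ Finset.range n, J q) := by
    intro n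
    induction n with
    | zero => simp
    | succ n ih =>
      have a1 := jump n _ (hs1 (n + 1))
      have a2 := longBel_step (Hq n) F₁ F₂ x₀ x₁ x₂ (s := u * 2 ^ n) (by linarith [hs1 n])
      rw [show 2 * (u * 2 ^ n) = u * 2 ^ (n + 1) by ring] at a2
      rw [Finset.sum_range_succ, Finset.sum_range_succ,
        ENNReal.ofReal_add (Finset.sum_nonneg fun q _ => hJ0 q) (hJ0 n)]
      calc _ ≤ 1 / 80 * (∑ q ∈ Finset.range n, G q + G n) +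
            (longBel (Hq n) F₁ F₂ x₀ x₁ x₂ (u * 2 ^ (n + 1)) + 242 * ENNReal.ofReal (J n)) :=
            add_le_add le_rfl a1
        _ = 1 / 80 * ∑ q ∈ Finset.range n, G q +
            (longBel (Hq n) F₁ F₂ x₀ x₁ x₂ (u * 2 ^ (n + 1)) + 1 / 80 * G n) +
              242 * ENNReal.ofReal (J n) := by ring
        _ ≤ _ := add_le_add (add_le_add le_rfl a2) le_rfl
        _ ≤ _ := add_le_add ih le_rfl
        _ = _ := by ring
  have c₀ := long_cub_nonneg H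
  have c₁ := long_cub_nonneg F₁
  have c₂ := long_cub_nonneg F₂
  have hcub : cub (Hq 0) ≤ cub H := Finset.sum_le_sum fun i _ => Finset.sum_le_sum fun j _ =>
    pow_le_pow_left₀ (abs_nonneg _) (sq_le_sq.1 ((hH2 0 i j).trans
      (mul_le_of_le_one_left (sq_nonneg _) (pow_le_one₀ hl0.le hl1)))) 3
  have sA : ∑ i, ∑ j, A i j ^ (3 / 2 : ℝ) ≤ Cm * cub H := by
    simp only [cub, Finset.mul_sum (f := fun i => ∑ j, |H i j| ^ 3)]
    refine Finset.sum_le_sum fun i _ => ?_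
    simpa only [long_sq_rpow] using hm ι₁ ι₁ x₁ x₁ h₁ h₁ (fun y => H i y ^ 2) fun _ => sq_nonneg _
  have sB : ∑ i, ∑ j, B i j ^ (3 / 2 : ℝ) ≤ Cm * cub H := by
    rw [cub, Finset.sum_comm, Finset.sum_comm (f := fun i j => |H i j| ^ 3), Finset.mul_sum]
    refine Finset.sum_le_sum fun j _ => ?_
    simpa only [long_sq_rpow] using hm ι₀ ι₀ x₀ x₀ h₀ h₀ (fun x => H x j ^ 2) fun _ => sq_nonneg _
  have sD : ∑ i, ∑ j, D i j ^ (3 / 2 : ℝ) ≤ Cm * cub F₁ := by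
    rw [cub, Finset.sum_comm, Finset.mul_sum]
    refine Finset.sum_le_sum fun j _ => ?_
    simpa only [long_sq_rpow] using hm ι₂ ι₀ x₂ (fun i => -x₀ i - x₁ j) h₂
      (h₀.neg.add_const (-x₁ j)) (fun k => F₁ j k ^ 2) fun _ => sq_nonneg _
  have sE : ∑ i, ∑ j, E i j ^ (3 / 2 : ℝ) ≤ Cm * cub F₂ := by
    rw [cub, Finset.sum_comm (f := fun k i => |F₂ k i| ^ 3), Finset.mul_sum]
    refine Finset.sum_le_sum fun i _ => ?_
    simpa only [long_sq_rpow] using hm ι₂ ι₁ x₂ (fun j => -x₁ j - x₀ i) h₂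
      (h₁.neg.add_const (-x₀ i)) (fun k => F₂ k i ^ 2) fun _ => sq_nonneg _
  have hJ : ∑ q ∈ Finset.range K, J q ≤ Cj * (4 + 2 * Cm) * (cub H + cub F₁ + cub F₂) := by
    have b1 : ∑ q ∈ Finset.range K, ∑ i, ∑ j, d q i j * (A i j + B i j + D i j + E i j) ≤
        ν * ∑ i, ∑ j, (4 * |H i j| ^ 3 + A i j ^ (3 / 2 : ℝ) + B i j ^ (3 / 2 : ℝ) +
          D i j ^ (3 / 2 : ℝ) + E i j ^ (3 / 2 : ℝ)) := by
      rw [Finset.sum_comm, Finset.mul_sum]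
      refine Finset.sum_le_sum fun i _ => ?_
      rw [Finset.sum_comm, Finset.mul_sum]
      refine Finset.sum_le_sum fun j _ => ?_
      simp only [d, mul_assoc]
      rw [← Finset.sum_mul]
      have := abs_nonneg (H i j)
      refine mul_le_mul (hvar i j) ?_ (mul_nonneg this
        (by linarith [hA i j, hB i j, hD i j, hE i j])) (by linarith)
      linarith [long_young this (hA i j), long_young this (hB i j), long_young this (hD i j),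
        long_young this (hE i j)]
    simp only [Finset.sum_add_distrib, ← Finset.mul_sum] at b1
    have b2 : ∑ i, ∑ j, |H i j| ^ 3 = cub H := rfl
    rw [b2] at b1
    simp only [J, ← Finset.mul_sum]
    rw [mul_assoc, mul_assoc]
    refine mul_le_mul_of_nonneg_left ((mul_le_mul_of_nonneg_left b1 (sq_nonneg l)).trans ?_) hCj.le
    rw [← mul_assoc, hlν, one_mul]
    nlinarith [mul_nonneg hCm.le c₁, mul_nonneg hCm.le c₂, mul_nonneg hCm.le c₀]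
  have hG : ∑ q ∈ Finset.range K, G q ≤
      ENNReal.ofReal (80 * ((968 + 242 * Cj * (4 + 2 * Cm)) * (cub H + cub F₁ + cub F₂))) := by
    have b1 := (le_self_add.trans (tele K)).trans (add_le_add
      (longBel_le (Hq 0) F₁ F₂ h₀ h₁ h₂ (hs1 0))
      (mul_le_mul_right (ENNReal.ofReal_le_ofReal hJ) 242))
    have b2 := mul_le_mul_right b1 80
    rw [← mul_assoc, one_div, ENNReal.mul_inv_cancel (by norm_num) (by norm_num), one_mul] at b2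
    refine b2.trans ?_
    have := long_cub_nonneg (Hq 0)
    rw [← ENNReal.ofReal_ofNat 242, ← ENNReal.ofReal_ofNat 80, ← ENNReal.ofReal_mul (by positivity),
      ← ENNReal.ofReal_add (by positivity) (by positivity), ← ENNReal.ofReal_mul (by positivity)]
    exact ENNReal.ofReal_le_ofReal (by linarith)
  have hF : l * Form H F₁ F₂ x₀ x₁ x₂
      (fun i₀ i₁ t => ∑ q ∈ Finset.range K, m q i₀ i₁ * phi (u * 2 ^ q) t) =
      ∑ q ∈ Finset.range K, Form (Hq q) F₁ F₂ x₀ x₁ x₂ fun _ _ => phi (u * 2 ^ q) := by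
    simp only [Form, Finset.mul_sum, Hq, Matrix.of_apply]
    rw [Finset.sum_comm (s := Finset.range K)]
    refine Finset.sum_congr rfl fun i _ => ?_
    rw [Finset.sum_comm (s := Finset.range K)]
    refine Finset.sum_congr rfl fun j _ => ?_
    rw [Finset.sum_comm (s := Finset.range K)]
    refine Finset.sum_congr rfl fun k _ => Finset.sum_congr rfl fun q _ => by ring
  have hfin : ∑ q ∈ Finset.range K, |Form (Hq q) F₁ F₂ x₀ x₁ x₂ fun _ _ => phi (u * 2 ^ q)| ≤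
      Cg * (80 * ((968 + 242 * Cj * (4 + 2 * Cm)) * (cub H + cub F₁ + cub F₂))) := by
    rw [← ENNReal.ofReal_le_ofReal_iff (by positivity), ENNReal.ofReal_mul hCg.le,
      ENNReal.ofReal_sum_of_nonneg fun _ _ => abs_nonneg _]
    refine le_trans ?_ (mul_le_mul_right hG _)
    rw [Finset.mul_sum]
    exact Finset.sum_le_sum fun q _ => hg ι₀ ι₁ ι₂ x₀ x₁ x₂ _ F₁ F₂ _ (by linarith [hs1 q])
  have h3 := (Finset.abs_sum_le_sum_abs _ _).trans hfin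
  rw [← hF, abs_mul, abs_of_pos hl0, hl, inv_mul_le_iff₀ (by linarith)] at h3
  linarith

end Crest.Agent.R72
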