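import Crest.Agent.R72.Defs

set_option autoImplicit false

namespace Crest.Agent.R72

open Matrix MeasureTheory
open scoped ENNReal

variable {ι ι₀ ι₁ ι₂ : Type} [Fintype ι] [DecidableEq ι] [Fintype ι₀] [DecidableEq ι₀]
  [Fintype ι₁] [DecidableEq ι₁] [Fintype ι₂] [DecidableEq ι₂]

open scoped MatrixOrder in
theorem msq_psd (P : Matrix ι ι ℝ) : (msq P).PosSemidef :=
  nonneg_iff_posSemidef.1 (CFC.sqrt_nonneg P)

omit [Fintype ι] [DecidableEq ι] in
theorem Mat.psd_transpose {P : Matrix ι ι ℝ} (hP : P.PosSemidef) : Pᵀ = P := by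
  have := hP.1.eq
  rwa [conjTranspose_eq_transpose_of_trivial] at this

theorem msq_transpose (P : Matrix ι ι ℝ) : (msq P)ᵀ = msq P := Mat.psd_transpose (msq_psd P)

open scoped MatrixOrder in
theorem msq_mul_self {P : Matrix ι ι ℝ} (hP : P.PosSemidef) : msq P * msq P = P :=
  CFC.sqrt_mul_sqrt_self P (nonneg_iff_posSemidef.2 hP)

open scoped MatrixOrder in
theorem msq_eq {X P : Matrix ι ι ℝ} (hX : X.PosSemidef) (h : X * X = P) : msq P = X :=
  CFC.sqrt_unique h (nonneg_iff_posSemidef.2 hX)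

namespace Mat

omit [DecidableEq ι₀] [DecidableEq ι₁] in
theorem q_nonneg {X : Matrix ι₀ ι₀ ℝ} (hX : X.PosSemidef) (Z : Matrix ι₀ ι₁ ℝ) :
    0 ≤ (Zᵀ * X * Z).trace := by
  have := (hX.conjTranspose_mul_mul_same Z).trace_nonneg
  rwa [conjTranspose_eq_transpose_of_trivial] at this

omit [DecidableEq ι₀] [DecidableEq ι₁] in
theorem eq_zero_of_trace {Z : Matrix ι₀ ι₁ ℝ} (h : (Zᵀ * Z).trace = 0) : Z = 0 := by
  rw [← conjTranspose_eq_transpose_of_trivial] at h
  exact trace_conjTranspose_mul_self_eq_zero_iff.1 h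

omit [DecidableEq ι₁] in
theorem mul_eq_zero_of_q {X : Matrix ι₀ ι₀ ℝ} (hX : X.PosSemidef) {Z : Matrix ι₀ ι₁ ℝ}
    (h : (Zᵀ * X * Z).trace = 0) : X * Z = 0 := by
  have h1 : msq X * Z = 0 := by
    apply eq_zero_of_trace
    rw [transpose_mul, msq_transpose, ← Matrix.mul_assoc, Matrix.mul_assoc Zᵀ, msq_mul_self hX, h]
  rw [← msq_mul_self hX, Matrix.mul_assoc, h1, Matrix.mul_zero]

open scoped MatrixOrder in
/-- The Jordan decomposition of a symmetric matrix. -/
theorem jordan {U : Matrix ι ι ℝ} (hU : Uᵀ = U) : ∃ A B : Matrix ι ι ℝ, A.PosSemidef ∧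
    B.PosSemidef ∧ A * B = 0 ∧ B * A = 0 ∧ U = A - B := by
  have h : IsSelfAdjoint U := by
    change Uᴴ = U
    rwa [conjTranspose_eq_transpose_of_trivial]
  exact ⟨U⁺, U⁻, nonneg_iff_posSemidef.1 (CFC.posPart_nonneg U),
    nonneg_iff_posSemidef.1 (CFC.negPart_nonneg U), CFC.posPart_mul_negPart U,
    CFC.negPart_mul_posPart U, (CFC.posPart_sub_negPart U h).symm⟩

omit [DecidableEq ι] in
theorem psd_mul_self {U : Matrix ι ι ℝ} (hU : Uᵀ = U) : (U * U).PosSemidef := by
  have := posSemidef_conjTranspose_mul_self U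
  rwa [conjTranspose_eq_transpose_of_trivial, hU] at this

end Mat

open Mat

theorem trace_mul_nonneg {P Q : Matrix ι ι ℝ} (hP : P.PosSemidef) (hQ : Q.PosSemidef) :
    0 ≤ (P * Q).trace := by
  have := q_nonneg hP (msq Q)
  rwa [msq_transpose, trace_mul_cycle, msq_mul_self hQ, trace_mul_comm] at this

/-- Operator monotonicity of the square root. -/
theorem msq_mono {P Q : Matrix ι ι ℝ} (hP : P.PosSemidef) (h : (Q - P).PosSemidef) :
    (msq Q - msq P).PosSemidef := by
  have hQ : Q.PosSemidef := by simpa using hP.add h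
  obtain ⟨A, B, hA, hB, hAB, hBA, hU⟩ := jordan (U := msq Q - msq P)
    (by rw [transpose_sub, msq_transpose, msq_transpose])
  have hX := msq_psd P
  have hY := msq_psd Q
  rw [← msq_mul_self hP, ← msq_mul_self hQ] at h
  generalize msq P = X at *
  generalize msq Q = Y at *
  have h1 := trace_mul_nonneg hB h
  have h2 : Y * Y - X * X = Y * (A - B) + (A - B) * X := by rw [← hU]; noncomm_ring
  have h3 := q_nonneg hX B
  have h4 := q_nonneg hY B
  have hBt := Mat.psd_transpose hB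
  have h5 : (B * (Y * Y - X * X)).trace = -(Bᵀ * Y * B).trace - (Bᵀ * X * B).trace := by
    have e1 : (B * (Y * A)).trace = 0 := by
      rw [← mul_assoc, trace_mul_cycle, hAB, zero_mul, trace_zero]
    have e2 : (B * (A * X)).trace = 0 := by rw [← mul_assoc, hBA, zero_mul, trace_zero]
    have e3 : (B * (B * X)).trace = (B * X * B).trace := trace_mul_comm _ _
    rw [h2, hBt]
    simp only [mul_add, mul_sub, sub_mul, trace_add, trace_sub, e1, e2, e3, mul_assoc]
    ring
  have h6 := mul_eq_zero_of_q hX (Z := B) (by linarith)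
  have h7 := mul_eq_zero_of_q hY (Z := B) (by linarith)
  have h8 : B = 0 := by
    apply eq_zero_of_trace
    have : (A - B) * B = 0 := by rw [← hU, sub_mul, h6, h7, sub_zero]
    rw [sub_mul, hAB, zero_sub, neg_eq_zero] at this
    rw [hBt, this, trace_zero]
  rwa [hU, h8, sub_zero]

theorem msq_smul {P : Matrix ι ι ℝ} (hP : P.PosSemidef) {c : ℝ} (hc : 0 ≤ c) :
    msq (c • P) = √c • msq P := by
  refine msq_eq ((msq_psd P).smul (Real.sqrt_nonneg c)) ?_
  rw [smul_mul_smul_comm, msq_mul_self hP, Real.mul_self_sqrt hc]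

theorem msq_intertwine (Y : Matrix ι₀ ι₁ ℝ) : msq (Y * Yᵀ) * Y = Y * msq (Yᵀ * Y) := by
  have hA : (Y * Yᵀ).PosSemidef := by
    have := posSemidef_self_mul_conjTranspose Y
    rwa [conjTranspose_eq_transpose_of_trivial] at this
  have hB : (Yᵀ * Y).PosSemidef := by
    have := posSemidef_conjTranspose_mul_self Y
    rwa [conjTranspose_eq_transpose_of_trivial] at this
  have hA2 := msq_mul_self hA
  have hB2 := msq_mul_self hB
  have hS := msq_psd (Y * Yᵀ)
  have hT := msq_psd (Yᵀ * Y)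
  generalize msq (Y * Yᵀ) = S at *
  generalize msq (Yᵀ * Y) = T at *
  set Z := S * Y - Y * T with hZ
  have h1 : S * Z + Z * T = 0 := by
    rw [hZ, Matrix.mul_sub, Matrix.sub_mul, ← Matrix.mul_assoc, hA2, Matrix.mul_assoc Y T, hB2]
    simp only [Matrix.mul_assoc]
    abel
  have h2 := q_nonneg hS Z
  have h3 := q_nonneg hT Zᵀ
  have h4 : (Zᵀ * S * Z).trace + (Zᵀᵀ * T * Zᵀ).trace = 0 := by
    rw [transpose_transpose, trace_mul_comm (Z * T), Matrix.mul_assoc, ← trace_add,
      ← Matrix.mul_add, h1, Matrix.mul_zero, trace_zero]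
  have h5 := mul_eq_zero_of_q hS (Z := Z) (by linarith)
  have h6 := mul_eq_zero_of_q hT (Z := Zᵀ) (by linarith)
  have h7 : Zᵀ * S = 0 := by
    have := congrArg transpose h5
    rwa [transpose_mul, Mat.psd_transpose hS, transpose_zero] at this
  rw [← sub_eq_zero]
  apply eq_zero_of_trace
  rw [← hZ]
  nth_rewrite 2 [hZ]
  rw [Matrix.mul_sub, ← Matrix.mul_assoc, h7, ← Matrix.mul_assoc, trace_sub, trace_mul_cycle, h6]
  simp

theorem f32_nonneg {P : Matrix ι ι ℝ} (hP : P.PosSemidef) : 0 ≤ f32 P :=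
  trace_mul_nonneg hP (msq_psd P)

theorem Mat.dl_eq {P Q : Matrix ι ι ℝ} (hP : P.PosSemidef) (hQ : Q.PosSemidef) :
    dl P Q = ((msq P - msq Q) * msq P * (msq P - msq Q)).trace +
      ((msq P - msq Q) * msq Q * (msq P - msq Q)).trace := by
  have h : P - Q = msq P * (msq P - msq Q) + (msq P - msq Q) * msq Q := by
    rw [mul_sub, sub_mul, msq_mul_self hP, msq_mul_self hQ]; abel
  rw [dl, h, mul_add, trace_add, mul_assoc, trace_mul_comm _ (_ * msq Q)]

theorem Mat.sub_transpose (P Q : Matrix ι ι ℝ) : (msq P - msq Q)ᵀ = msq P - msq Q := by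
  rw [transpose_sub, msq_transpose, msq_transpose]

theorem dl_nonneg {P Q : Matrix ι ι ℝ} (hP : P.PosSemidef) (hQ : Q.PosSemidef) : 0 ≤ dl P Q := by
  have h1 := q_nonneg (msq_psd P) (msq P - msq Q)
  have h2 := q_nonneg (msq_psd Q) (msq P - msq Q)
  rw [sub_transpose] at h1 h2
  rw [dl_eq hP hQ]
  linarith

theorem dl_comm (P Q : Matrix ι ι ℝ) : dl P Q = dl Q P := by
  rw [dl, dl, ← neg_sub (msq Q), ← neg_sub Q, neg_mul_neg]

/-- The Bregman divergence of `f32` at `M` dominates half of `dl`. -/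
theorem breg_lower {P M : Matrix ι ι ℝ} (hP : P.PosSemidef) (hM : M.PosSemidef) :
    3 / 2 * (msq M * P).trace + 1 / 2 * dl P M ≤ f32 P + 1 / 2 * f32 M := by
  have h1 := q_nonneg (msq_psd P) (msq P - msq M)
  rw [sub_transpose] at h1
  have e1 : (msq P * msq P * msq M).trace = (msq M * P).trace := by
    rw [msq_mul_self hP, trace_mul_comm]
  have e2 : (msq M * msq P * msq P).trace = (msq M * P).trace := by
    rw [mul_assoc, msq_mul_self hP]
  have e3 : (msq M * msq P * msq M).trace = (msq P * M).trace := by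
    rw [trace_mul_cycle, msq_mul_self hM, trace_mul_comm]
  have e4 : (msq P * msq P * msq P).trace = f32 P := by rw [msq_mul_self hP, f32]
  have e5 : (msq P * P).trace = f32 P := trace_mul_comm _ _
  have e6 : (msq M * M).trace = f32 M := trace_mul_comm _ _
  simp only [dl, mul_sub, sub_mul, trace_sub, e1, e2, e3, e4, e5, e6] at h1 ⊢
  linarith

theorem dl_dual {P Q : Matrix ι ι ℝ} (hP : P.PosSemidef) (hQ : Q.PosSemidef)
    (W : Matrix ι ι ℝ) :
    2 * (Wᵀ * (P - Q)).trace ≤ dl P Q + (Wᵀ * msq P * W).trace + (W * msq Q * Wᵀ).trace := by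
  have h : P - Q = msq P * (msq P - msq Q) + (msq P - msq Q) * msq Q := by
    rw [mul_sub, sub_mul, msq_mul_self hP, msq_mul_self hQ]; abel
  have h1 := q_nonneg (msq_psd P) (W - (msq P - msq Q))
  have h2 := q_nonneg (msq_psd Q) (W - (msq P - msq Q))ᵀ
  rw [dl_eq hP hQ, h]
  have hU := sub_transpose P Q
  have hX := msq_transpose P
  have hY := msq_transpose Q
  generalize msq P - msq Q = U at *
  generalize msq P = X at *
  generalize msq Q = Y at *
  have e1 : (U * X * W).trace = (Wᵀ * (X * U)).trace := by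
    rw [← trace_transpose, transpose_mul, transpose_mul, hU, hX]
  have e2 : (Wᵀ * X * U).trace = (Wᵀ * (X * U)).trace := by rw [mul_assoc]
  have e3 : (U * Y * Wᵀ).trace = (Wᵀ * (U * Y)).trace := trace_mul_comm _ _
  have e4 : (W * Y * U).trace = (Wᵀ * (U * Y)).trace := by
    rw [← trace_transpose, transpose_mul, transpose_mul, hU, hY, ← mul_assoc, e3]
  simp only [transpose_transpose, transpose_sub, hU, mul_sub, sub_mul, mul_add, trace_sub,
    trace_add, e1, e2, e3, e4] at h1 h2 ⊢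
  linarith

theorem dl_add_le {P Q R : Matrix ι ι ℝ} (hP : P.PosSemidef) (hQ : Q.PosSemidef)
    (hR : R.PosSemidef) : dl (P + R) (Q + R) ≤ dl P Q := by
  have h1 := dl_dual hP hQ (msq (P + R) - msq (Q + R))
  have h2 := dl_eq (hP.add hR) (hQ.add hR)
  have h3 := q_nonneg (msq_mono (Q := P + R) hP (by simpa using hR)) (msq (P + R) - msq (Q + R))
  have h4 := q_nonneg (msq_mono (Q := Q + R) hQ (by simpa using hR)) (msq (P + R) - msq (Q + R))
  have h5 : dl (P + R) (Q + R) = ((msq (P + R) - msq (Q + R)) * (P - Q)).trace := by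
    rw [dl, add_sub_add_right_eq_sub]
  rw [sub_transpose] at h1 h3 h4
  generalize msq (P + R) - msq (Q + R) = W at *
  rw [mul_sub, sub_mul, trace_sub] at h3 h4
  linarith

namespace Mat

theorem msq_sq {A B : Matrix ι ι ℝ} (hA : A.PosSemidef) (hB : B.PosSemidef) (hAB : A * B = 0)
    (hBA : B * A = 0) : msq ((A - B) * (A - B)) = A + B := by
  refine msq_eq (hA.add hB) ?_
  simp only [mul_add, add_mul, mul_sub, sub_mul, hAB, hBA]
  abel

/-- `tr |X - Z|³ ≤ tr ((X - Z) (X + Z) (X - Z))`. -/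
theorem f32_sq_le {P M : Matrix ι ι ℝ} (hP : P.PosSemidef) (hM : M.PosSemidef) :
    f32 ((msq P - msq M) * (msq P - msq M)) ≤ dl P M := by
  obtain ⟨A, B, hA, hB, hAB, hBA, hU⟩ := jordan (sub_transpose P M)
  rw [dl_eq hP hM, f32, hU, msq_sq hA hB hAB hBA]
  have hX := msq_psd P
  have hZ := msq_psd M
  generalize msq P = X at *
  generalize msq M = Z at *
  have h1 := trace_mul_nonneg (psd_mul_self (Mat.psd_transpose hA)) hZ
  have h2 := trace_mul_nonneg (psd_mul_self (Mat.psd_transpose hB)) hX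
  have h3 : (A * A * (X - Z)).trace = (A * A * A).trace := by
    rw [hU, mul_sub, mul_assoc A A B, hAB]; simp
  have h4 : (B * B * (X - Z)).trace = -(B * B * B).trace := by
    rw [hU, mul_sub, mul_assoc B B A, hBA]; simp
  have h5 : (A - B) * (A - B) = A * A + B * B := by
    simp only [mul_sub, sub_mul, hAB, hBA]; abel
  have h6 : (A * A + B * B) * (A + B) = A * A * A + B * B * B := by
    simp only [mul_add, add_mul, mul_assoc, hAB, hBA, mul_zero]; abel
  rw [trace_mul_cycle (A - B) X, trace_mul_cycle (A - B) Z, h5, h6]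
  simp only [mul_sub, add_mul, trace_add, trace_sub] at h3 h4 ⊢
  linarith

theorem cross_le {U V : Matrix ι ι ℝ} (hU : Uᵀ = U) (hV : Vᵀ = V) :
    (U * V * U).trace ≤ 2 / 3 * f32 (U * U) + 1 / 3 * f32 (V * V) := by
  have h1 := breg_lower (psd_mul_self hU) (psd_mul_self hV)
  have h2 := dl_nonneg (psd_mul_self hU) (psd_mul_self hV)
  obtain ⟨A, B, hA, hB, hAB, hBA, rfl⟩ := jordan hV
  rw [msq_sq hA hB hAB hBA] at h1
  have h3 := trace_mul_nonneg hB (psd_mul_self hU)
  rw [trace_mul_cycle, trace_mul_comm]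
  simp only [sub_mul _ _ (U * U), add_mul, trace_add, trace_sub] at h1 ⊢
  linarith

end Mat

theorem dl_tri {P Q M : Matrix ι ι ℝ} (hP : P.PosSemidef) (hQ : Q.PosSemidef)
    (hM : M.PosSemidef) : dl P Q ≤ 4 * (dl P M + dl Q M) := by
  have h1 := f32_sq_le hP hM
  have h2 := f32_sq_le hQ hM
  have h3 := cross_le (sub_transpose P M) (sub_transpose Q M)
  have h4 := cross_le (sub_transpose Q M) (sub_transpose P M)
  have h5 := q_nonneg ((msq_psd P).add (msq_psd Q)) (msq P - msq M + (msq Q - msq M))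
  rw [transpose_add, sub_transpose, sub_transpose] at h5
  have e1 := dl_eq hP hM
  have e2 := dl_eq hQ hM
  have e3 := dl_eq hP hQ
  have e4 : msq P - msq Q = (msq P - msq M) - (msq Q - msq M) := by abel
  rw [e4] at e3
  have e5 : ∀ W, (W * (msq P - msq M) * W).trace = (W * msq P * W).trace - (W * msq M * W).trace :=
    fun W => by rw [mul_sub, sub_mul, trace_sub]
  have e6 : ∀ W, (W * (msq Q - msq M) * W).trace = (W * msq Q * W).trace - (W * msq M * W).trace :=
    fun W => by rw [mul_sub, sub_mul, trace_sub]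
  rw [e6] at h3
  rw [e5] at h4
  clear e4 e5 e6
  generalize msq P - msq M = U at *
  generalize msq Q - msq M = V at *
  simp only [mul_add, add_mul, mul_sub, sub_mul, trace_add, trace_sub] at h5 e3
  linarith

/-- Mixed second difference. -/
theorem mixed {R₀ R₀' R₂ R₂' : Matrix ι ι ℝ} (h₀ : R₀.PosSemidef) (h₀' : R₀'.PosSemidef)
    (h₂ : R₂.PosSemidef) (h₂' : R₂'.PosSemidef) :
    f32 (R₀' + R₂) + f32 (R₀ + R₂') ≤
      f32 (R₀ + R₂) + f32 (R₀' + R₂') + 3 * (dl R₀' R₀ + dl R₂' R₂) := by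
  have ha := h₀.add h₂
  have hb := h₀'.add h₂
  have hc := h₀.add h₂'
  have hd := h₀'.add h₂'
  set M := (1 / 2 : ℝ) • (R₀' + R₂ + (R₀ + R₂')) with hMdef
  have hM : M.PosSemidef := (hb.add hc).smul (by norm_num)
  have k1 := breg_lower ha hM
  have k2 := breg_lower hd hM
  have k3 := breg_lower hM hb
  have k4 := breg_lower hM hc
  have k5 := dl_nonneg ha hM
  have k6 := dl_nonneg hd hM
  have k7 := dl_nonneg hM hb
  have k8 := dl_nonneg hM hc
  have k9 := dl_tri hb hc ha
  have k10 := dl_add_le h₀' h₀ h₂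
  have k11 := dl_add_le h₂' h₂ h₀
  rw [add_comm R₂', add_comm R₂] at k11
  have e1 : (msq M * (R₀ + R₂)).trace + (msq M * (R₀' + R₂')).trace = 2 * f32 M := by
    have : R₀ + R₂ + (R₀' + R₂') = (2 : ℝ) • M := by
      rw [hMdef, smul_smul]; norm_num; abel
    rw [← trace_add, ← mul_add, this, mul_smul_comm, trace_smul, trace_mul_comm, f32, smul_eq_mul]
  have e2 : ∀ W : Matrix ι ι ℝ, (W * M).trace =
      1 / 2 * ((W * (R₀' + R₂)).trace + (W * (R₀ + R₂')).trace) := by
    intro W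
    rw [hMdef, mul_smul_comm, trace_smul, mul_add W (R₀' + R₂), trace_add, smul_eq_mul]
  have e3 : (msq (R₀' + R₂) * (R₀' + R₂)).trace = f32 (R₀' + R₂) := trace_mul_comm _ _
  have e4 : (msq (R₀ + R₂') * (R₀ + R₂')).trace = f32 (R₀ + R₂') := trace_mul_comm _ _
  have e5 : dl (R₀' + R₂) (R₀ + R₂') = f32 (R₀' + R₂) + f32 (R₀ + R₂') -
      (msq (R₀' + R₂) * (R₀ + R₂')).trace - (msq (R₀ + R₂') * (R₀' + R₂)).trace := by
    rw [dl, sub_mul, mul_sub, mul_sub, trace_sub, trace_sub, trace_sub, e3, e4]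
    ring
  rw [e2, e3] at k3
  rw [e2, e4] at k4
  linarith

theorem f32_transpose (Y : Matrix ι₀ ι₁ ℝ) : f32 (Yᵀ * Y) = f32 (Y * Yᵀ) := by
  rw [f32, f32, Matrix.mul_assoc, ← msq_intertwine, ← Matrix.mul_assoc, trace_mul_cycle]

theorem f32_le {P : Matrix ι ι ℝ} (hP : P.PosSemidef) : f32 P ≤ P.trace * √P.trace := by
  have h1 : (P.trace • (1 : Matrix ι ι ℝ) - P).PosSemidef := by
    refine PosSemidef.of_dotProduct_mulVec_nonneg
      (((PosSemidef.one.smul hP.trace_nonneg).1).sub hP.1) fun v => ?_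
    have hX := msq_transpose P
    have h2 : v ⬝ᵥ (P *ᵥ v) = ∑ i, (∑ j, msq P i j * v j) ^ 2 := by
      conv_lhs => rw [← msq_mul_self hP, ← mulVec_mulVec, dotProduct_mulVec, ← mulVec_transpose, hX]
      simp only [dotProduct, mulVec, sq]
    have h3 : P.trace = ∑ i, ∑ j, msq P i j ^ 2 := by
      conv_lhs => rw [← msq_mul_self hP]
      simp only [trace, diag, mul_apply, sq]
      refine Finset.sum_congr rfl fun i _ => Finset.sum_congr rfl fun j _ => ?_
      rw [← transpose_apply (msq P) i j, hX]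
    rw [star_trivial, sub_mulVec, dotProduct_sub, h2, smul_mulVec, one_mulVec, dotProduct_smul,
      smul_eq_mul, h3, Finset.sum_mul, sub_nonneg]
    refine Finset.sum_le_sum fun i _ => ?_
    simpa [dotProduct, sq] using Finset.sum_mul_sq_le_sq_mul_sq Finset.univ (msq P i) v
  have h2 := trace_mul_nonneg hP (msq_mono hP h1)
  rw [msq_smul PosSemidef.one hP.trace_nonneg, msq_eq PosSemidef.one (mul_one 1), mul_sub,
    trace_sub, mul_smul_comm, mul_one, trace_smul, smul_eq_mul] at h2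
  rw [f32]
  linarith

open scoped MatrixOrder Matrix.Norms.L2Operator in
theorem continuous_msq {α : Type*} [TopologicalSpace α] {P : α → Matrix ι ι ℝ}
    (hP : Continuous P) (h : ∀ a, (P a).PosSemidef) : Continuous fun a => msq (P a) :=
  (CFC.continuousOn_sqrt (A := Matrix ι ι ℝ)).comp_continuous hP
    fun a => nonneg_iff_posSemidef.2 (h a)

theorem continuous_f32 {α : Type*} [TopologicalSpace α] {P : α → Matrix ι ι ℝ}
    (hP : Continuous P) (h : ∀ a, (P a).PosSemidef) : Continuous fun a => f32 (P a) :=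
  (hP.matrix_mul (continuous_msq hP h)).matrix_trace

theorem continuous_dl {α : Type*} [TopologicalSpace α] {P Q : α → Matrix ι ι ℝ}
    (hP : Continuous P) (h : ∀ a, (P a).PosSemidef) (hQ : Continuous Q)
    (h' : ∀ a, (Q a).PosSemidef) : Continuous fun a => dl (P a) (Q a) :=
  (((continuous_msq hP h).sub (continuous_msq hQ h')).matrix_mul (hP.sub hQ)).matrix_trace

end Crest.Agent.R72
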