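import Crest.Agent.R72.Mat

set_option autoImplicit false
set_option linter.unusedSectionVars false

namespace Crest.Agent.R72

open Matrix MeasureTheory
open scoped ENNReal

variable {ι ι₀ ι₁ ι₂ : Type} [Fintype ι] [DecidableEq ι] [Fintype ι₀] [DecidableEq ι₀]
  [Fintype ι₁] [DecidableEq ι₁] [Fintype ι₂] [DecidableEq ι₂]

theorem Hyp.mono {A : Matrix ι₀ ι₁ ℝ} {d : ι₁ → ℝ} {B : Matrix ι₁ ι₂ ℝ} {g g' : ℝ}
    (h : Hyp A d B g) (hg : g ≤ g') : Hyp A d B g' := by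
  intro W
  have := h W
  linarith

theorem Hyp.neg {A : Matrix ι₀ ι₁ ℝ} {d : ι₁ → ℝ} {B : Matrix ι₁ ι₂ ℝ} {g : ℝ}
    (h : Hyp A d B g) : Hyp A (fun j => -d j) B g := by
  intro W
  have h1 := h (-W)
  have h2 : (diagonal fun j => -d j) = -diagonal d := by
    rw [← diagonal_neg]
  rw [h2]
  simp only [transpose_neg, Matrix.neg_mul, Matrix.mul_neg, neg_neg] at h1 ⊢
  exact h1

theorem wt_transpose (u : ι₀ → ℝ) (F : Matrix ι₀ ι₁ ℝ) (v : ι₁ → ℝ) :
    (wt u F v)ᵀ = wt v Fᵀ u := by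
  ext i j
  simp only [wt, transpose_apply, of_apply]
  ring

theorem Gram_psd (F : Matrix ι₀ ι₁ ℝ) (u : ι₀ → ℝ) (v : ι₁ → ℝ) : (Gram F u v).PosSemidef := by
  have := posSemidef_conjTranspose_mul_self (wt u F v)
  rwa [conjTranspose_eq_transpose_of_trivial] at this

theorem Smat_psd (F : Matrix ι₀ ι₁ ℝ) (G : Matrix ι₁ ι₂ ℝ) (u : ι₀ → ℝ) (v : ι₁ → ℝ)
    (w : ι₂ → ℝ) : (Smat F G u v w).PosSemidef := by
  exact (Gram_psd F u v).add (Gram_psd Gᵀ w v)

theorem Pmat_psd (F : Matrix ι₀ ι₁ ℝ) (G : Matrix ι₁ ι₂ ℝ) (u : ι₀ → ℝ) (v : ι₁ → ℝ)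
    (w : ι₂ → ℝ) : (Pmat F G u v w).PosSemidef := by
  have := posSemidef_self_mul_conjTranspose (fromRows (wt u F v) (wt w Gᵀ v))
  rwa [conjTranspose_eq_transpose_of_trivial] at this

theorem Gram_apply (F : Matrix ι₀ ι₁ ℝ) {u : ι₀ → ℝ} (hu : ∀ i, 0 ≤ u i) (v : ι₁ → ℝ)
    (j j' : ι₁) : Gram F u v j j' = ∑ i, u i * (√(v j) * F i j * (√(v j') * F i j')) := by
  simp only [Gram, mul_apply, transpose_apply, wt, of_apply]
  refine Finset.sum_congr rfl fun i _ => ?_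
  have := Real.mul_self_sqrt (hu i)
  calc √(u i) * F i j * √(v j) * (√(u i) * F i j' * √(v j'))
      = (√(u i) * √(u i)) * (√(v j) * F i j * (√(v j') * F i j')) := by ring
    _ = _ := by rw [this]

theorem Mat2Aux.rows_apply (F : Matrix ι₀ ι₁ ℝ) (G : Matrix ι₁ ι₂ ℝ) (u : ι₀ → ℝ) (v : ι₁ → ℝ)
    (w : ι₂ → ℝ) (a : ι₀ ⊕ ι₂) (j : ι₁) :
    fromRows (wt u F v) (wt w Gᵀ v) a j =
      fromRows (wt u F fun _ => 1) (wt w Gᵀ fun _ => 1) a j * √(v j) := by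
  rcases a with a | a <;> simp [wt]

/-- `Pmat` is linear in the middle weight. -/
theorem Pmat_apply (F : Matrix ι₀ ι₁ ℝ) (G : Matrix ι₁ ι₂ ℝ) (u : ι₀ → ℝ) {v : ι₁ → ℝ}
    (hv : ∀ j, 0 ≤ v j) (w : ι₂ → ℝ) (a a' : ι₀ ⊕ ι₂) :
    Pmat F G u v w a a' = ∑ j, v j *
      (fromRows (wt u F fun _ => 1) (wt w Gᵀ fun _ => 1) a j *
        fromRows (wt u F fun _ => 1) (wt w Gᵀ fun _ => 1) a' j) := by
  simp only [Pmat, mul_apply, transpose_apply]
  refine Finset.sum_congr rfl fun j _ => ?_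
  rw [Mat2Aux.rows_apply F G u v w a j, Mat2Aux.rows_apply F G u v w a' j]
  have := Real.mul_self_sqrt (hv j)
  calc _ = (√(v j) * √(v j)) * (fromRows (wt u F fun _ => 1) (wt w Gᵀ fun _ => 1) a j *
        fromRows (wt u F fun _ => 1) (wt w Gᵀ fun _ => 1) a' j) := by ring
    _ = _ := by rw [this]

theorem Psi_eq_Pmat (F : Matrix ι₀ ι₁ ℝ) (G : Matrix ι₁ ι₂ ℝ) (u : ι₀ → ℝ) (v : ι₁ → ℝ)
    (w : ι₂ → ℝ) : Psi F G u v w = f32 (Pmat F G u v w) := by
  unfold Psi Pmat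
  rw [← f32_transpose, transpose_fromRows, fromCols_mul_fromRows]
  rfl

theorem Psi_swap (F : Matrix ι₀ ι₁ ℝ) (G : Matrix ι₁ ι₂ ℝ) (u : ι₀ → ℝ) (v : ι₁ → ℝ)
    (w : ι₂ → ℝ) : Psi F G u v w = Psi Gᵀ Fᵀ w v u := by
  unfold Psi Smat
  rw [transpose_transpose, add_comm]

theorem Psi_zero (F : Matrix ι₀ ι₁ ℝ) (u : ι₀ → ℝ) (v : ι₁ → ℝ) (w : ι₂ → ℝ) :
    Psi F (0 : Matrix ι₁ ι₂ ℝ) u v w = Npure F u v := by
  have : Gram (0 : Matrix ι₁ ι₂ ℝ)ᵀ w v = 0 := by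
    ext i j
    simp [Gram, wt, mul_apply]
  unfold Psi Smat Npure
  rw [this, add_zero]

theorem Npure_transpose (F : Matrix ι₀ ι₁ ℝ) (u : ι₀ → ℝ) (v : ι₁ → ℝ) :
    Npure F u v = Npure Fᵀ v u := by
  unfold Npure Gram
  rw [f32_transpose, ← wt_transpose u F v, transpose_transpose]

theorem Psi_nonneg (F : Matrix ι₀ ι₁ ℝ) (G : Matrix ι₁ ι₂ ℝ) (u : ι₀ → ℝ) (v : ι₁ → ℝ)
    (w : ι₂ → ℝ) : 0 ≤ Psi F G u v w := by
  exact f32_nonneg (Smat_psd F G u v w)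

theorem dmid_nonneg (F : Matrix ι₀ ι₁ ℝ) (G : Matrix ι₁ ι₂ ℝ) (u : ι₀ → ℝ) (v v' : ι₁ → ℝ)
    (w : ι₂ → ℝ) : 0 ≤ dmid F G u v v' w := by
  exact dl_nonneg (Pmat_psd F G u v w) (Pmat_psd F G u v' w)

theorem dout_nonneg (F : Matrix ι₀ ι₁ ℝ) (u u' : ι₀ → ℝ) (v : ι₁ → ℝ) : 0 ≤ dout F u u' v := by
  exact dl_nonneg (Gram_psd F u v) (Gram_psd F u' v)

theorem Mat2Aux.continuous_wt {α : Type*} [TopologicalSpace α] (F : Matrix ι₀ ι₁ ℝ)
    {u : α → ι₀ → ℝ} {v : α → ι₁ → ℝ} (hu : Continuous u) (hv : Continuous v) :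
    Continuous fun a => wt (u a) F (v a) := by
  refine continuous_matrix fun i j => ?_
  simp only [wt, of_apply]
  fun_prop

theorem continuous_Gram {α : Type*} [TopologicalSpace α] (F : Matrix ι₀ ι₁ ℝ) {u : α → ι₀ → ℝ}
    {v : α → ι₁ → ℝ} (hu : Continuous u) (hv : Continuous v) :
    Continuous fun a => Gram F (u a) (v a) := by
  have h := Mat2Aux.continuous_wt F hu hv
  exact h.matrix_transpose.matrix_mul h

theorem continuous_Pmat {α : Type*} [TopologicalSpace α] (F : Matrix ι₀ ι₁ ℝ)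
    (G : Matrix ι₁ ι₂ ℝ) {u : α → ι₀ → ℝ} {v : α → ι₁ → ℝ} {w : α → ι₂ → ℝ} (hu : Continuous u)
    (hv : Continuous v) (hw : Continuous w) : Continuous fun a => Pmat F G (u a) (v a) (w a) := by
  have h : Continuous fun a => fromRows (wt (u a) F (v a)) (wt (w a) Gᵀ (v a)) := by
    refine continuous_matrix fun i j => ?_
    rcases i with i | i
    · exact (Mat2Aux.continuous_wt F hu hv).matrix_elem i j
    · exact (Mat2Aux.continuous_wt Gᵀ hw hv).matrix_elem i j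
  exact h.matrix_mul h.matrix_transpose

theorem continuous_Psi {α : Type*} [TopologicalSpace α] (F : Matrix ι₀ ι₁ ℝ)
    (G : Matrix ι₁ ι₂ ℝ) {u : α → ι₀ → ℝ} {v : α → ι₁ → ℝ} {w : α → ι₂ → ℝ} (hu : Continuous u)
    (hv : Continuous v) (hw : Continuous w) : Continuous fun a => Psi F G (u a) (v a) (w a) := by
  exact continuous_f32 ((continuous_Gram F hu hv).add (continuous_Gram Gᵀ hw hv))
    fun a => Smat_psd F G (u a) (v a) (w a)

theorem continuous_Npure {α : Type*} [TopologicalSpace α] (F : Matrix ι₀ ι₁ ℝ) {u : α → ι₀ → ℝ}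
    {v : α → ι₁ → ℝ} (hu : Continuous u) (hv : Continuous v) :
    Continuous fun a => Npure F (u a) (v a) := by
  exact continuous_f32 (continuous_Gram F hu hv) fun a => Gram_psd F (u a) (v a)

theorem continuous_dmid {α : Type*} [TopologicalSpace α] (F : Matrix ι₀ ι₁ ℝ)
    (G : Matrix ι₁ ι₂ ℝ) {u : α → ι₀ → ℝ} {v v' : α → ι₁ → ℝ} {w : α → ι₂ → ℝ}
    (hu : Continuous u) (hv : Continuous v) (hv' : Continuous v') (hw : Continuous w) :
    Continuous fun a => dmid F G (u a) (v a) (v' a) (w a) := by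
  exact continuous_dl (continuous_Pmat F G hu hv hw) (fun a => Pmat_psd F G (u a) (v a) (w a))
    (continuous_Pmat F G hu hv' hw) fun a => Pmat_psd F G (u a) (v' a) (w a)

theorem continuous_dout {α : Type*} [TopologicalSpace α] (F : Matrix ι₀ ι₁ ℝ)
    {u u' : α → ι₀ → ℝ} {v : α → ι₁ → ℝ} (hu : Continuous u) (hu' : Continuous u')
    (hv : Continuous v) : Continuous fun a => dout F (u a) (u' a) (v a) := by
  exact continuous_dl (continuous_Gram F hu hv) (fun a => Gram_psd F (u a) (v a))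
    (continuous_Gram F hu' hv) fun a => Gram_psd F (u' a) (v a)

theorem Mat2Aux.psd_tmul {m n : Type} [Fintype m] [Fintype n] (Y : Matrix m n ℝ) :
    (Yᵀ * Y).PosSemidef := by
  have := posSemidef_conjTranspose_mul_self Y
  rwa [conjTranspose_eq_transpose_of_trivial] at this

theorem Mat2Aux.psd_conj {m n : Type} [Fintype m] [Fintype n] {X : Matrix m m ℝ}
    (hX : X.PosSemidef) (Y : Matrix m n ℝ) : (Yᵀ * X * Y).PosSemidef := by
  have := hX.conjTranspose_mul_mul_same Y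
  rwa [conjTranspose_eq_transpose_of_trivial] at this

theorem Mat2Aux.psd_conj' {m n : Type} [Fintype m] [Fintype n] {X : Matrix m m ℝ}
    (hX : X.PosSemidef) (Y : Matrix n m ℝ) : (Y * X * Yᵀ).PosSemidef := by
  have := Mat2Aux.psd_conj hX Yᵀ
  rwa [transpose_transpose] at this

/-- Compression inequality for the square root. -/
theorem Mat2Aux.compress {P : Matrix ι ι ℝ} (hP : P.PosSemidef) (E : Matrix ι ι₀ ℝ)
    (hE : Eᵀ * E = 1) : (msq (Eᵀ * P * E) - Eᵀ * msq P * E).PosSemidef := by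
  set X := msq P with hXdef
  have hX : X.PosSemidef := msq_psd P
  have hXt : Xᵀ = X := msq_transpose P
  have hXX : X * X = P := msq_mul_self hP
  have h11 : (Eᵀ * X * E).PosSemidef := Mat2Aux.psd_conj hX E
  have hsq : msq ((Eᵀ * X * E) * (Eᵀ * X * E)) = Eᵀ * X * E := msq_eq h11 rfl
  have hpsd : ((Eᵀ * X * E) * (Eᵀ * X * E)).PosSemidef := by
    have := Mat2Aux.psd_tmul (Eᵀ * X * E)
    rwa [transpose_mul, transpose_mul, transpose_transpose, hXt, ← Matrix.mul_assoc Eᵀ X E] at this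
  have hdiff : Eᵀ * P * E - (Eᵀ * X * E) * (Eᵀ * X * E) =
      (X * E - E * (Eᵀ * X * E))ᵀ * (X * E - E * (Eᵀ * X * E)) := by
    have hE' : ∀ M : Matrix ι₀ ι₀ ℝ, Eᵀ * (E * M) = M := fun M => by
      rw [← Matrix.mul_assoc, hE, Matrix.one_mul]
    rw [← hXX]
    simp only [transpose_sub, transpose_mul, transpose_transpose, hXt, Matrix.sub_mul,
      Matrix.mul_sub, Matrix.mul_assoc, hE']
    abel
  have := msq_mono hpsd (Q := Eᵀ * P * E) (by rw [hdiff]; exact Mat2Aux.psd_tmul _)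
  rwa [hsq] at this

theorem Mat2Aux.hyp_abs (A : Matrix ι₀ ι₁ ℝ) (B : Matrix ι₁ ι₂ ℝ) (d : ι₁ → ℝ) {κ : ℝ}
    (hκ : 0 ≤ κ) (hd : ∀ j, -1 ≤ d j ∧ d j ≤ κ) :
    Hyp A d B (√(1 + κ) * dl (fromRows A Bᵀ * diagonal (fun j => 1 + d j) * (fromRows A Bᵀ)ᵀ)
      (fromRows A Bᵀ * (fromRows A Bᵀ)ᵀ)) := by
  intro W
  set Y := fromRows A Bᵀ with hYdef
  set l := √(1 + κ) with hl
  have hl1 : 1 ≤ l := by
    rw [hl, Real.one_le_sqrt]; linarith
  have hl0 : 0 < l := by linarith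
  set P' := Y * diagonal (fun j => 1 + d j) * Yᵀ with hP'
  set P := Y * Yᵀ with hP
  have hPp : P.PosSemidef := by
    have := Mat2Aux.psd_tmul Yᵀ
    rwa [transpose_transpose] at this
  have hP'p : P'.PosSemidef :=
    Mat2Aux.psd_conj' (PosSemidef.diagonal fun j => by
      have := (hd j).1
      show (0 : ℝ) ≤ 1 + d j
      linarith) Y
  have hdiff : P' - P = Y * diagonal d * Yᵀ := by
    have : diagonal (fun j => 1 + d j) = 1 + diagonal d := by
      rw [← diagonal_one, diagonal_add]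
    rw [hP', hP, this, Matrix.mul_add, Matrix.add_mul, Matrix.mul_one]
    abel
  have hle : ((1 + κ) • P - P').PosSemidef := by
    have h1 : (1 + κ) • P - P' = Y * diagonal (fun j => κ - d j) * Yᵀ := by
      have : diagonal (fun j => κ - d j) = κ • (1 : Matrix ι₁ ι₁ ℝ) - diagonal d := by
        ext i j
        by_cases hij : i = j
        · subst hij; simp
        · simp [hij]
      rw [this, Matrix.mul_sub, Matrix.sub_mul, ← hdiff, Matrix.mul_smul, Matrix.mul_one,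
        Matrix.smul_mul, add_smul, one_smul]
      abel
    rw [h1]
    exact Mat2Aux.psd_conj' (PosSemidef.diagonal fun j => by
      have := (hd j).2
      show (0 : ℝ) ≤ κ - d j
      linarith) Y
  have hmsq : (l • msq P - msq P').PosSemidef := by
    have := msq_mono hP'p hle
    rwa [msq_smul hPp (by linarith)] at this
  set E₁ : Matrix (ι₀ ⊕ ι₂) ι₀ ℝ := fromRows 1 0 with hE₁
  set E₂ : Matrix (ι₀ ⊕ ι₂) ι₂ ℝ := fromRows 0 1 with hE₂
  have h11 : E₁ᵀ * E₁ = 1 := by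
    rw [hE₁, transpose_fromRows, fromCols_mul_fromRows]; simp
  have h22 : E₂ᵀ * E₂ = 1 := by
    rw [hE₂, transpose_fromRows, fromCols_mul_fromRows]; simp
  have hA : E₁ᵀ * Y = A := by
    rw [hE₁, hYdef, transpose_fromRows, fromCols_mul_fromRows]; simp
  have hB : E₂ᵀ * Y = Bᵀ := by
    rw [hE₂, hYdef, transpose_fromRows, fromCols_mul_fromRows]; simp
  have hA' : Yᵀ * E₁ = Aᵀ := by
    rw [← hA, transpose_mul, transpose_transpose]
  have hB' : Yᵀ * E₂ = B := by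
    rw [← transpose_transpose B, ← hB, transpose_mul, transpose_transpose]
  have hc1 := Mat2Aux.compress hPp E₁ h11
  have hc2 := Mat2Aux.compress hPp E₂ h22
  have e1 : E₁ᵀ * P * E₁ = A * Aᵀ := by
    rw [hP, ← Matrix.mul_assoc, hA, Matrix.mul_assoc, hA']
  have e2 : E₂ᵀ * P * E₂ = Bᵀ * B := by
    rw [hP, ← Matrix.mul_assoc, hB, Matrix.mul_assoc, hB']
  rw [e1] at hc1
  rw [e2] at hc2
  have key := dl_dual hP'p hPp (l⁻¹ • (E₁ * W * E₂ᵀ))
  have t1 : ((l⁻¹ • (E₁ * W * E₂ᵀ))ᵀ * (P' - P)).trace =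
      l⁻¹ * (Wᵀ * (A * diagonal d * B)).trace := by
    rw [hdiff, transpose_smul, Matrix.smul_mul, trace_smul, smul_eq_mul, transpose_mul,
      transpose_mul, transpose_transpose, Matrix.mul_assoc E₂, trace_mul_comm E₂, ← hA, ← hB']
    simp only [Matrix.mul_assoc]
  have t2 : ((l⁻¹ • (E₁ * W * E₂ᵀ))ᵀ * msq P' * (l⁻¹ • (E₁ * W * E₂ᵀ))).trace =
      l⁻¹ * l⁻¹ * (Wᵀ * (E₁ᵀ * msq P' * E₁) * W).trace := by
    rw [transpose_smul, Matrix.smul_mul, Matrix.smul_mul, Matrix.mul_smul, trace_smul, trace_smul,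
      smul_eq_mul, smul_eq_mul, ← mul_assoc, transpose_mul, transpose_mul, transpose_transpose,
      Matrix.mul_assoc E₂, Matrix.mul_assoc E₂, trace_mul_comm E₂]
    simp only [Matrix.mul_assoc, h22, Matrix.mul_one]
  have t3 : ((l⁻¹ • (E₁ * W * E₂ᵀ)) * msq P * (l⁻¹ • (E₁ * W * E₂ᵀ))ᵀ).trace =
      l⁻¹ * l⁻¹ * (W * (E₂ᵀ * msq P * E₂) * Wᵀ).trace := by
    rw [transpose_smul, Matrix.smul_mul, Matrix.smul_mul, Matrix.mul_smul, trace_smul, trace_smul,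
      smul_eq_mul, smul_eq_mul, ← mul_assoc, transpose_mul, transpose_mul, transpose_transpose,
      Matrix.mul_assoc E₁, Matrix.mul_assoc E₁, Matrix.mul_assoc E₁, trace_mul_comm E₁]
    simp only [Matrix.mul_assoc, h11, Matrix.mul_one]
  rw [t1, t2, t3] at key
  have b1 : (Wᵀ * (E₁ᵀ * msq P' * E₁) * W).trace ≤ l * (Wᵀ * (E₁ᵀ * msq P * E₁) * W).trace := by
    have := (Mat2Aux.psd_conj (Mat2Aux.psd_conj hmsq E₁) W).trace_nonneg
    simp only [Matrix.mul_sub, Matrix.sub_mul, Matrix.mul_smul, Matrix.smul_mul, trace_sub,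
      trace_smul, smul_eq_mul] at this
    linarith
  have b2 : (Wᵀ * (E₁ᵀ * msq P * E₁) * W).trace ≤ (Wᵀ * msq (A * Aᵀ) * W).trace := by
    have := (Mat2Aux.psd_conj hc1 W).trace_nonneg
    simp only [Matrix.mul_sub, Matrix.sub_mul, trace_sub] at this
    linarith
  have b3 : (W * (E₂ᵀ * msq P * E₂) * Wᵀ).trace ≤ (W * msq (Bᵀ * B) * Wᵀ).trace := by
    have := (Mat2Aux.psd_conj' hc2 W).trace_nonneg
    simp only [Matrix.mul_sub, Matrix.sub_mul, trace_sub] at this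
    linarith
  have b4 : 0 ≤ (W * msq (Bᵀ * B) * Wᵀ).trace := (Mat2Aux.psd_conj' (msq_psd _) W).trace_nonneg
  set T := (Wᵀ * (A * diagonal d * B)).trace
  set D := dl P' P
  set a' := (Wᵀ * (E₁ᵀ * msq P' * E₁) * W).trace
  set a := (Wᵀ * (E₁ᵀ * msq P * E₁) * W).trace
  set b := (W * (E₂ᵀ * msq P * E₂) * Wᵀ).trace
  set T1 := (Wᵀ * msq (A * Aᵀ) * W).trace
  set T2 := (W * msq (Bᵀ * B) * Wᵀ).trace
  have key2 : 2 * T * l ≤ l * l * D + a' + b := by
    have := mul_le_mul_of_nonneg_left key (mul_pos hl0 hl0).le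
    have e : l * l⁻¹ = 1 := mul_inv_cancel₀ hl0.ne'
    calc 2 * T * l = 2 * T * l * (l * l⁻¹) := by rw [e, mul_one]
      _ = l * l * (2 * (l⁻¹ * T)) := by ring
      _ ≤ l * l * (D + l⁻¹ * l⁻¹ * a' + l⁻¹ * l⁻¹ * b) := this
      _ = l * l * D + (l * l⁻¹) * (l * l⁻¹) * a' + (l * l⁻¹) * (l * l⁻¹) * b := by ring
      _ = _ := by rw [e]; ring
  have key3 : 2 * T * l ≤ (l * D + T1 + T2) * l := by
    have h5 : l * a ≤ l * T1 := mul_le_mul_of_nonneg_left b2 hl0.le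
    have h6 : T2 ≤ l * T2 := le_mul_of_one_le_left b4 hl1
    nlinarith
  exact le_of_mul_le_mul_right key3 hl0

/-- The divergence in the middle weight controls `A D B`. -/
theorem hyp_of_dmid (F : Matrix ι₀ ι₁ ℝ) (G : Matrix ι₁ ι₂ ℝ) (u : ι₀ → ℝ) {v : ι₁ → ℝ}
    (hv : ∀ j, 0 ≤ v j) (w : ι₂ → ℝ) (d : ι₁ → ℝ) {κ : ℝ} (hκ : 0 ≤ κ)
    (hd : ∀ j, -1 ≤ d j ∧ d j ≤ κ) :
    Hyp (wt u F v) d (wt v G w) (√(1 + κ) * dmid F G u (fun j => v j * (1 + d j)) v w) := by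
  have hY : Pmat F G u (fun j => v j * (1 + d j)) w =
      fromRows (wt u F v) (wt v G w)ᵀ * diagonal (fun j => 1 + d j) *
        (fromRows (wt u F v) (wt v G w)ᵀ)ᵀ := by
    ext a a'
    rw [Pmat_apply F G u (fun j => mul_nonneg (hv j) (by linarith [(hd j).1])) w, wt_transpose,
      mul_apply]
    refine Finset.sum_congr rfl fun j _ => ?_
    rw [mul_diagonal, transpose_apply, Mat2Aux.rows_apply F G u v w a j,
      Mat2Aux.rows_apply F G u v w a' j]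
    have := Real.mul_self_sqrt (hv j)
    calc _ = (√(v j) * √(v j)) * (1 + d j) *
          (fromRows (wt u F fun _ => 1) (wt w Gᵀ fun _ => 1) a j *
          fromRows (wt u F fun _ => 1) (wt w Gᵀ fun _ => 1) a' j) := by rw [this]
      _ = _ := by ring
  have hP : Pmat F G u v w =
      fromRows (wt u F v) (wt v G w)ᵀ * (fromRows (wt u F v) (wt v G w)ᵀ)ᵀ := by
    rw [wt_transpose]; rfl
  unfold dmid
  rw [hY, hP]
  exact Mat2Aux.hyp_abs _ _ d hκ hd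

theorem Mat2Aux.Gram_diag (F : Matrix ι₀ ι₁ ℝ) {u : ι₀ → ℝ} {v : ι₁ → ℝ} (hu : ∀ i, 0 ≤ u i)
    (hv : ∀ j, 0 ≤ v j) (j : ι₁) : Gram F u v j j = v j * ∑ i, u i * F i j ^ 2 := by
  rw [Gram_apply F hu, Finset.mul_sum]
  refine Finset.sum_congr rfl fun i _ => ?_
  have := Real.mul_self_sqrt (hv j)
  calc _ = (√(v j) * √(v j)) * (u i * F i j ^ 2) := by ring
    _ = _ := by rw [this]

theorem Mat2Aux.trace_Gram (F : Matrix ι₀ ι₁ ℝ) {u : ι₀ → ℝ} {v : ι₁ → ℝ} (hu : ∀ i, 0 ≤ u i)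
    (hv : ∀ j, 0 ≤ v j) : (Gram F u v).trace = ∑ i, ∑ j, u i * v j * F i j ^ 2 := by
  rw [Finset.sum_comm]
  simp only [trace, diag_apply]
  refine Finset.sum_congr rfl fun j _ => ?_
  rw [Mat2Aux.Gram_diag F hu hv, Finset.mul_sum]
  refine Finset.sum_congr rfl fun i _ => ?_
  ring

theorem Mat2Aux.amgm (F : Matrix ι₀ ι₁ ℝ) {u : ι₀ → ℝ} {v : ι₁ → ℝ} (hu : ∀ i, 0 ≤ u i)
    (hv : ∀ j, 0 ≤ v j) {c : ℝ} (hcu : ∑ i, u i ≤ c) (hcv : ∑ j, v j ≤ c) {s k : ℝ} (hs : 0 ≤ s)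
    (hk : 0 ≤ k) :
    3 * s * k ^ 2 * ∑ i, ∑ j, u i * v j * F i j ^ 2 ≤
      2 * k ^ 3 * ∑ i, ∑ j, u i * v j * |F i j| ^ 3 + s ^ 3 * c ^ 2 := by
  have hc : 0 ≤ c := le_trans (Finset.sum_nonneg fun i _ => hu i) hcu
  have h1 : ∑ i, ∑ j, u i * v j ≤ c ^ 2 := by
    rw [← Finset.sum_mul_sum, sq]
    exact mul_le_mul hcu hcv (Finset.sum_nonneg fun j _ => hv j) hc
  have h2 : 3 * s * k ^ 2 * ∑ i, ∑ j, u i * v j * F i j ^ 2 ≤
      2 * k ^ 3 * ∑ i, ∑ j, u i * v j * |F i j| ^ 3 + s ^ 3 * ∑ i, ∑ j, u i * v j := by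
    simp only [Finset.mul_sum, ← Finset.sum_add_distrib]
    refine Finset.sum_le_sum fun i _ => Finset.sum_le_sum fun j _ => ?_
    have hx : 0 ≤ |F i j| := abs_nonneg _
    rw [← sq_abs (F i j)]
    set x := |F i j|
    have h3 : 0 ≤ (k * x - s) ^ 2 * (2 * (k * x) + s) := by positivity
    have h4 := mul_nonneg (mul_nonneg (hu i) (hv j)) h3
    nlinarith
  have h3 := mul_le_mul_of_nonneg_left h1 (pow_nonneg hs 3)
  linarith

/-- Crude upper bound. -/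
theorem Psi_le (F : Matrix ι₀ ι₁ ℝ) (G : Matrix ι₁ ι₂ ℝ) {u : ι₀ → ℝ} {v : ι₁ → ℝ} {w : ι₂ → ℝ}
    (hu : ∀ i, 0 ≤ u i) (hv : ∀ j, 0 ≤ v j) (hw : ∀ k, 0 ≤ w k) {c : ℝ} (hcu : ∑ i, u i ≤ c)
    (hcv : ∑ j, v j ≤ c) (hcw : ∑ k, w k ≤ c) :
    Psi F G u v w ≤ √2 * c *
      (∑ i, ∑ j, u i * v j * |F i j| ^ 3 + ∑ j, ∑ k, v j * w k * |G j k| ^ 3) := by
  have hc : 0 ≤ c := le_trans (Finset.sum_nonneg fun i _ => hu i) hcu
  have hT : (Smat F G u v w).trace =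
      ∑ i, ∑ j, u i * v j * F i j ^ 2 + ∑ j, ∑ k, v j * w k * G j k ^ 2 := by
    unfold Smat
    rw [trace_add, Mat2Aux.trace_Gram F hu hv, Mat2Aux.trace_Gram Gᵀ hw hv,
      Finset.sum_comm (f := fun k j => w k * v j * Gᵀ k j ^ 2)]
    congr 1
    refine Finset.sum_congr rfl fun j _ => Finset.sum_congr rfl fun k _ => ?_
    rw [transpose_apply, mul_comm (w k)]
  refine (f32_le (Smat_psd F G u v w)).trans ?_
  set s := √(Smat F G u v w).trace with hs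
  have hs0 : 0 ≤ s := Real.sqrt_nonneg _
  have hss : s * s = (Smat F G u v w).trace := Real.mul_self_sqrt (Smat_psd F G u v w).trace_nonneg
  set k := √2 * c with hk
  have hk0 : 0 ≤ k := by positivity
  have hkk : k ^ 2 = 2 * c ^ 2 := by
    rw [hk, mul_pow, Real.sq_sqrt (by norm_num)]
  have h1 := Mat2Aux.amgm F hu hv hcu hcv hs0 hk0
  have h2 := Mat2Aux.amgm G hv hw hcv hcw hs0 hk0
  set N1 := ∑ i, ∑ j, u i * v j * |F i j| ^ 3
  set N2 := ∑ j, ∑ k, v j * w k * |G j k| ^ 3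
  have hN1 : 0 ≤ N1 := Finset.sum_nonneg fun i _ => Finset.sum_nonneg fun j _ =>
    mul_nonneg (mul_nonneg (hu i) (hv j)) (by positivity)
  have hN2 : 0 ≤ N2 := Finset.sum_nonneg fun i _ => Finset.sum_nonneg fun j _ =>
    mul_nonneg (mul_nonneg (hv i) (hw j)) (by positivity)
  rcases hc.eq_or_lt with hc0 | hc0
  · have hv0 : ∀ j, v j = 0 := by
      intro j
      have h3 : ∑ j, v j = 0 := le_antisymm (hc0 ▸ hcv) (Finset.sum_nonneg fun j _ => hv j)
      exact (Finset.sum_eq_zero_iff_of_nonneg fun j _ => hv j).1 h3 j (Finset.mem_univ j)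
    have : (Smat F G u v w).trace = 0 := by
      rw [hT]; simp [hv0]
    rw [this, zero_mul]
    positivity
  · have hkpos : 0 < k := by positivity
    have h3 : k ^ 2 * ((Smat F G u v w).trace * s) ≤ k ^ 2 * (k * (N1 + N2)) := by
      have h4 : 3 * s * k ^ 2 * (Smat F G u v w).trace ≤
          2 * k ^ 3 * (N1 + N2) + s ^ 3 * k ^ 2 := by
        rw [hT, hkk] at *
        nlinarith
      have h5 : s ^ 3 = (Smat F G u v w).trace * s := by rw [← hss]; ring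
      rw [h5] at h4
      nlinarith
    exact le_of_mul_le_mul_left h3 (by positivity)

/-- First-order cost of changing the left matrix. -/
theorem Psi_jump (F F' : Matrix ι₀ ι₁ ℝ) (G : Matrix ι₁ ι₂ ℝ) {u : ι₀ → ℝ} {v : ι₁ → ℝ}
    {w : ι₂ → ℝ} (hu : ∀ i, 0 ≤ u i) (hv : ∀ j, 0 ≤ v j) (hw : ∀ k, 0 ≤ w k) {γ : ℝ}
    (hγ : 0 < γ) :
    Psi F G u v w ≤ Psi F' G u v w + 3 / 2 * ∑ i, ∑ j, |F' i j - F i j| * (u i * v j) *
      (γ⁻¹ * ∑ y, v y * F i y ^ 2 + γ * (∑ x, u x * F x j ^ 2 + ∑ k, w k * G j k ^ 2)) := by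
  have hS := Smat_psd F G u v w
  have hS' := Smat_psd F' G u v w
  have hb := breg_lower hS' hS
  have hdl := dl_nonneg hS' hS
  set X := msq (Smat F G u v w) with hXdef
  have hX : X.PosSemidef := msq_psd _
  have hXt : Xᵀ = X := msq_transpose _
  have hXX : X * X = Smat F G u v w := msq_mul_self hS
  set A := wt u F v with hA
  set Z := wt u (F' - F) v with hZ
  have hAZ : wt u F' v = A + Z := by
    ext i j
    simp only [hA, hZ, wt, of_apply, Matrix.add_apply, Matrix.sub_apply]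
    ring
  have hdiff : Smat F' G u v w = Smat F G u v w + (Aᵀ * Z + Zᵀ * A + Zᵀ * Z) := by
    unfold Smat Gram
    rw [hAZ, transpose_add, Matrix.add_mul, Matrix.mul_add, Matrix.mul_add]
    abel
  have h0 : (X * Smat F G u v w).trace = f32 (Smat F G u v w) := by
    unfold f32
    rw [trace_mul_comm]
  have h1 : 0 ≤ (X * (Zᵀ * Z)).trace := trace_mul_nonneg hX (Mat2Aux.psd_tmul Z)
  have h2 : (X * (Aᵀ * Z)).trace = (X * (Zᵀ * A)).trace := by
    rw [← trace_transpose, transpose_mul, transpose_mul, transpose_transpose, hXt, trace_mul_comm]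
  have h3 : (X * (Zᵀ * A)).trace = ∑ i, ∑ j, Z i j * (A * X) i j := by
    rw [trace_mul_comm, Matrix.mul_assoc, Finset.sum_comm]
    simp only [trace, diag_apply, mul_apply (M := Zᵀ), transpose_apply]
  have h4 : ∀ i j, -(2 * (Z i j * (A * X) i j)) ≤ |F' i j - F i j| * (u i * v j) *
      (γ⁻¹ * ∑ y, v y * F i y ^ 2 + γ * (∑ x, u x * F x j ^ 2 + ∑ k, w k * G j k ^ 2)) := by
    intro i j
    have hcol : ∑ y, X y j ^ 2 = v j * (∑ x, u x * F x j ^ 2 + ∑ k, w k * G j k ^ 2) := by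
      have e1 : (X * X) j j = ∑ y, X y j ^ 2 := by
        rw [mul_apply]
        refine Finset.sum_congr rfl fun y _ => ?_
        have : X j y = X y j := by
          rw [← transpose_apply X y j, hXt]
        rw [this, sq]
      rw [← e1, hXX]
      unfold Smat
      rw [Matrix.add_apply, Mat2Aux.Gram_diag F hu hv, Mat2Aux.Gram_diag Gᵀ hw hv, mul_add]
      rfl
    have hui := Real.mul_self_sqrt (hu i)
    have e2 : Z i j * (A * X) i j =
        (F' i j - F i j) * u i * ∑ y, (√(v j) * F i y * √(v y)) * X y j := by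
      rw [mul_apply, Finset.mul_sum, Finset.mul_sum]
      refine Finset.sum_congr rfl fun y _ => ?_
      simp only [hA, hZ, wt, of_apply, Matrix.sub_apply]
      calc _ = (F' i j - F i j) * (√(u i) * √(u i)) * (√(v j) * F i y * √(v y) * X y j) := by ring
        _ = _ := by rw [hui]
    have e3 : 2 * |∑ y, (√(v j) * F i y * √(v y)) * X y j| ≤
        v j * (γ⁻¹ * ∑ y, v y * F i y ^ 2 +
          γ * (∑ x, u x * F x j ^ 2 + ∑ k, w k * G j k ^ 2)) := by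
      have e4 : v j * (γ⁻¹ * ∑ y, v y * F i y ^ 2 +
          γ * (∑ x, u x * F x j ^ 2 + ∑ k, w k * G j k ^ 2)) =
          ∑ y, (γ⁻¹ * (v j * (v y * F i y ^ 2)) + γ * X y j ^ 2) := by
        rw [Finset.sum_add_distrib, ← Finset.mul_sum, ← Finset.mul_sum, ← Finset.mul_sum, hcol]
        ring
      rw [e4]
      refine le_trans (mul_le_mul_of_nonneg_left (Finset.abs_sum_le_sum_abs _ _) (by norm_num)) ?_
      rw [Finset.mul_sum]
      refine Finset.sum_le_sum fun y _ => ?_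
      have hp : (√(v j) * F i y * √(v y)) ^ 2 = v j * (v y * F i y ^ 2) := by
        rw [mul_pow, mul_pow, Real.sq_sqrt (hv j), Real.sq_sqrt (hv y)]; ring
      rw [← hp, abs_mul, ← sq_abs (√(v j) * F i y * √(v y)), ← sq_abs (X y j)]
      set p := |√(v j) * F i y * √(v y)|
      set q := |X y j|
      have h5 : 0 ≤ γ⁻¹ * (p - γ * q) ^ 2 := by positivity
      have h6 : γ⁻¹ * γ = 1 := inv_mul_cancel₀ hγ.ne'
      have h7 : γ⁻¹ * (p - γ * q) ^ 2 =
          γ⁻¹ * p ^ 2 - 2 * (γ⁻¹ * γ) * (p * q) + (γ⁻¹ * γ) * γ * q ^ 2 := by ring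
      rw [h7, h6] at h5
      linarith
    rw [e2]
    set T := ∑ y, (√(v j) * F i y * √(v y)) * X y j
    have e5 : -((F' i j - F i j) * T) ≤ |F' i j - F i j| * |T| := by
      rw [← abs_mul]; exact neg_le_abs _
    have e6 := mul_le_mul_of_nonneg_left e5 (hu i)
    have e7 := mul_le_mul_of_nonneg_left e3 (mul_nonneg (abs_nonneg (F' i j - F i j)) (hu i))
    nlinarith
  have h5 : -(2 * ∑ i, ∑ j, Z i j * (A * X) i j) ≤ ∑ i, ∑ j, |F' i j - F i j| * (u i * v j) *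
      (γ⁻¹ * ∑ y, v y * F i y ^ 2 + γ * (∑ x, u x * F x j ^ 2 + ∑ k, w k * G j k ^ 2)) := by
    rw [Finset.mul_sum, ← Finset.sum_neg_distrib]
    refine Finset.sum_le_sum fun i _ => ?_
    rw [Finset.mul_sum, ← Finset.sum_neg_distrib]
    exact Finset.sum_le_sum fun j _ => h4 i j
  have h6 : (X * Smat F' G u v w).trace = f32 (Smat F G u v w) +
      (2 * ∑ i, ∑ j, Z i j * (A * X) i j + (X * (Zᵀ * Z)).trace) := by
    rw [hdiff, Matrix.mul_add, Matrix.mul_add, Matrix.mul_add, trace_add, trace_add, trace_add, h0,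
      h2, h3]
    ring
  unfold Psi
  rw [h6] at hb
  linarith

end Crest.Agent.R72
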