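import Crest.Agent.R72.Lap1

/-! Lattice modulus of continuity of monotone functions and truncations of `1 / t`. -/

set_option autoImplicit false

namespace Crest.Agent.R72

open MeasureTheory Set

/-- Lattice modulus of continuity. -/
def LMod (c : ℝ) (χ : ℝ → ℝ) : Prop :=
  ∀ (ι : Type) [Fintype ι] (x : ι → ℝ), Sep x → ∀ y : ℝ,
    ∑ i, |χ (x i - y) - χ (x i)| ≤ c * (|y| + 1)

theorem LMod.sub {c c' : ℝ} {χ χ' : ℝ → ℝ} (h : LMod c χ) (h' : LMod c' χ') :
    LMod (c + c') fun t => χ t - χ' t := by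
  intro ι _ x hx y
  have h1 := h ι x hx y
  have h2 := h' ι x hx y
  rw [add_mul]
  refine le_trans ?_ (add_le_add h1 h2)
  rw [← Finset.sum_add_distrib]
  refine Finset.sum_le_sum fun i _ => le_trans (le_of_eq ?_) (abs_sub _ _)
  congr 1; ring

theorem LMod.refl {c : ℝ} {χ : ℝ → ℝ} (h : LMod c χ) : LMod c fun t => χ (-t) := by
  intro ι _ x hx y
  have h1 := h ι _ hx.neg (-y)
  rw [abs_neg] at h1
  refine le_trans (le_of_eq (Finset.sum_congr rfl fun i _ => ?_)) h1
  rw [show -x i - -y = -(x i - y) by ring]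

theorem LMod.mul {c a : ℝ} {χ : ℝ → ℝ} (h : LMod c χ) :
    LMod (|a| * c) fun t => a * χ t := by
  intro ι _ x hx y
  simp only [← mul_sub, abs_mul, ← Finset.mul_sum, mul_assoc]
  exact mul_le_mul_of_nonneg_left (h ι x hx y) (abs_nonneg a)

theorem mono_sum_le {g : ℝ → ℝ} (hg : Monotone g) {w : ℝ} (h0 : ∀ t, 0 ≤ g t) (h1 : ∀ t, g t ≤ w)
    {ι : Type} [Fintype ι] {x : ι → ℝ} (hx : Sep x) {y : ℝ} (hy : 0 ≤ y) :
    ∑ i, (g (x i) - g (x i - y)) ≤ w * (y + 1) := by
  classical
  have hw : 0 ≤ w := (h0 0).trans (h1 0)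
  obtain ⟨B, hB⟩ : ∃ B : ℝ, ∀ i, |x i| ≤ B :=
    ⟨∑ i, |x i|, fun i => Finset.single_le_sum (f := fun i => |x i|) (fun _ _ => abs_nonneg _)
      (Finset.mem_univ i)⟩
  set G : ℝ → ℝ := fun u => g u - g (u - (y + 1)) with hG
  have hg' : Monotone fun u => g (u - (y + 1)) := fun a b h => hg (by linarith)
  have hG0 : ∀ u, 0 ≤ G u := fun u => sub_nonneg.2 (hg (by linarith))
  have hI : ∀ a b, IntervalIntegrable G volume a b := fun a b =>
    hg.intervalIntegrable.sub hg'.intervalIntegrable
  have e1 : ∀ i, g (x i) - g (x i - y) ≤ ∫ u in Ioc (x i) (x i + 1), G u := fun i => by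
    rw [← intervalIntegral.integral_of_le (by linarith)]
    have := intervalIntegral.integral_mono_on (μ := volume) (show x i ≤ x i + 1 by linarith)
      (f := fun _ => g (x i) - g (x i - y)) intervalIntegrable_const (hI _ _)
      (fun u hu => sub_le_sub (hg hu.1) (hg (by linarith [hu.2])))
    simpa using this
  refine (Finset.sum_le_sum fun i _ => e1 i).trans ?_
  rw [← integral_biUnion_finset Finset.univ (fun i _ => measurableSet_Ioc) ?_
    (fun i _ => (hI _ _).1)]
  swap
  · intro i _ j _ hij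
    have := hx i j hij
    refine Set.disjoint_left.2 fun u hu hu' => ?_
    rcases le_abs.1 this with h | h <;> linarith [hu.1, hu.2, hu'.1, hu'.2]
  have hAB : -|B| ≤ |B| + 1 := by linarith [abs_nonneg B]
  refine (setIntegral_mono_set (t := Ioc (-|B|) (|B| + 1)) (hI _ _).1
    (Filter.Eventually.of_forall hG0) (Filter.Eventually.of_forall fun u hu => ?_)).trans ?_
  · obtain ⟨i, -, hi⟩ := Set.mem_iUnion₂.1 hu
    have h2 := abs_le.1 ((hB i).trans (le_abs_self B))
    exact ⟨by linarith [hi.1], by linarith [hi.2]⟩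
  rw [← intervalIntegral.integral_of_le hAB,
    intervalIntegral.integral_sub hg.intervalIntegrable hg'.intervalIntegrable,
    intervalIntegral.integral_comp_sub_right g (y + 1),
    intervalIntegral.integral_interval_sub_interval_comm' hg.intervalIntegrable
      hg.intervalIntegrable hg.intervalIntegrable]
  have a1 : ∫ u in (|B| + 1 - (y + 1))..(|B| + 1), g u ≤ w * (y + 1) := by
    have := intervalIntegral.integral_mono_on (μ := volume)
      (show |B| + 1 - (y + 1) ≤ |B| + 1 by linarith) hg.intervalIntegrable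
      (g := fun _ => w) intervalIntegrable_const (fun u _ => h1 u)
    simpa [mul_comm, add_comm] using this
  have a2 : 0 ≤ ∫ u in (-|B| - (y + 1))..(-|B|), g u :=
    intervalIntegral.integral_nonneg (by linarith) fun u _ => h0 u
  linarith

theorem lmod_mono {g : ℝ → ℝ} (hg : Monotone g) {w : ℝ} (h0 : ∀ t, 0 ≤ g t)
    (h1 : ∀ t, g t ≤ w) : LMod w g := by
  intro ι _ x hx y
  rcases le_total 0 y with hy | hy
  · rw [abs_of_nonneg hy]
    refine le_trans (le_of_eq (Finset.sum_congr rfl fun i _ => ?_)) (mono_sum_le hg h0 h1 hx hy)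
    rw [abs_sub_comm, abs_of_nonneg (sub_nonneg.2 (hg (by linarith)))]
  · rw [abs_of_nonpos hy]
    refine le_trans (le_of_eq (Finset.sum_congr rfl fun i _ => ?_))
      (mono_sum_le hg h0 h1 (hx.add_const (-y)) (neg_nonneg.2 hy))
    rw [abs_of_nonneg (sub_nonneg.2 (hg (by linarith)))]
    rw [sub_eq_add_neg (x i) y, sub_neg_eq_add, neg_add_cancel_right]

theorem lmod_trunc {a : ℝ} (ha : 0 < a) (P : ℝ → Prop) [DecidablePred P]
    (hP : ∀ r r', r ≤ r' → P r → P r') (hPa : ∀ r, P r → a ≤ r) :
    LMod (4 / a) fun t => if P |t| then 1 / t else 0 := by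
  have ha' : 0 ≤ 1 / a := by positivity
  have g1 : LMod (1 / a) fun t => if P t then 1 / a else 0 := by
    refine lmod_mono (fun r r' h => ?_) (fun t => ?_) (fun t => ?_)
    · by_cases h1 : P r
      · simp only [if_pos h1, if_pos (hP _ _ h h1), le_refl]
      · simp only [if_neg h1]; split_ifs <;> simp [ha.le]
    · split_ifs <;> simp [ha.le]
    · split_ifs <;> simp [ha.le]
  have hle : ∀ t, P t → 1 / t ≤ 1 / a := fun t ht => one_div_le_one_div_of_le ha (hPa t ht)
  have g2 : LMod (1 / a) fun t => if P t then 1 / a - 1 / t else 0 := by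
    refine lmod_mono (fun r r' h => ?_) (fun t => ?_) (fun t => ?_)
    · by_cases h1 : P r
      · simp only [if_pos h1, if_pos (hP _ _ h h1)]
        have := one_div_le_one_div_of_le (ha.trans_le (hPa r h1)) h
        linarith
      · simp only [if_neg h1]
        split_ifs with h2
        · exact sub_nonneg.2 (hle _ h2)
        · exact le_rfl
    · split_ifs with h2
      · exact sub_nonneg.2 (hle _ h2)
      · exact le_rfl
    · split_ifs with h2
      · have : 0 < 1 / t := one_div_pos.2 (ha.trans_le (hPa t h2))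
        linarith
      · exact ha'
  have g3 := (g1.sub g2).sub (g1.sub g2).refl
  have e : 1 / a + 1 / a + (1 / a + 1 / a) = 4 / a := by ring
  rw [e] at g3
  convert g3 using 2 with t
  rcases le_total 0 t with ht | ht
  · have h1 : ¬ P (-t) := fun h => by linarith [hPa _ h]
    rw [abs_of_nonneg ht, if_neg h1, if_neg h1]
    split_ifs <;> ring
  · have h1 : ¬ P t := fun h => by linarith [hPa _ h]
    rw [abs_of_nonpos ht, if_neg h1, if_neg h1]
    split_ifs
    · rw [one_div_neg_eq_neg_one_div]; ring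
    · ring

theorem le_lap_of_lt {s t : ℝ} (hs : 0 < s) (ht : |t| < s) : 1 / s ≤ 20 * lap (8 * s) t := by
  have h1 : |t| / (8 * s) ≤ 1 / 8 := by rw [div_le_div_iff₀ (by positivity) (by norm_num)]; linarith
  have h2 := Real.add_one_le_exp (-(|t| / (8 * s)))
  rw [lap, ← mul_div_assoc, div_le_div_iff₀ hs (by positivity)]
  nlinarith

end Crest.Agent.R72
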