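import Crest.Agent.R72.Cphi
import Crest.Agent.R72.RhoAux

set_option autoImplicit false

namespace Crest.Agent.R72

open Matrix MeasureTheory
open scoped ENNReal

theorem measurable_phi_div (t : ℝ) : Measurable fun u => phi u t / u :=
  (measurable_phi_uncurry.comp (measurable_id.prodMk measurable_const)).div measurable_id

theorem integral_inv_sq {s : ℝ} (hs : 0 < s) : ∫ u in Set.Ioi s, (u ^ 2)⁻¹ = 1 / s := by
  have h := integral_Ioi_rpow_of_lt (a := -2) (by norm_num) hs
  rw [setIntegral_congr_fun measurableSet_Ioi (g := fun u => (u ^ 2)⁻¹) fun u hu => by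
    have : (0 : ℝ) < u := hs.trans hu
    simp only
    rw [Real.rpow_neg this.le, Real.rpow_two]] at h
  rw [h, show (-2 : ℝ) + 1 = -1 by norm_num, Real.rpow_neg_one]; field_simp

theorem integrableOn_inv_sq {s : ℝ} (hs : 0 < s) :
    IntegrableOn (fun u : ℝ => (u ^ 2)⁻¹) (Set.Ioi s) := by
  refine (integrableOn_Ioi_rpow_of_lt (a := -2) (by norm_num) hs).congr_fun (fun u hu => ?_)
    measurableSet_Ioi
  have : (0 : ℝ) < u := hs.trans hu
  simp only
  rw [Real.rpow_neg this.le, Real.rpow_two]

theorem abs_phi_div_le {C : ℝ} (hC0 : 0 < C)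
    (hC : ∀ s t : ℝ, 0 < s → |phi s t| ≤ C * lap (4 * s) t) {u : ℝ} (hu : 0 < u) (t : ℝ) :
    |phi u t / u| ≤ C * (u ^ 2)⁻¹ := by
  rw [abs_div, abs_of_pos hu, div_le_iff₀ hu]
  refine (hC u t hu).trans ?_
  rw [mul_assoc]
  refine mul_le_mul_of_nonneg_left ((lap_le (by positivity) t).trans ?_) hC0.le
  rw [show (u ^ 2)⁻¹ * u = 1 / u by field_simp]
  exact one_div_le_one_div_of_le hu (by linarith)

theorem integrableOn_phi_div {s : ℝ} (hs : 0 < s) (t : ℝ) :
    IntegrableOn (fun u => phi u t / u) (Set.Ioi s) := by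
  obtain ⟨C, hC0, hC⟩ := abs_phi_le
  refine Integrable.mono' ((integrableOn_inv_sq hs).const_mul C)
    (measurable_phi_div t).aestronglyMeasurable ?_
  exact (ae_restrict_iff' measurableSet_Ioi).2 (Filter.Eventually.of_forall fun u hu =>
    abs_phi_div_le hC0 hC (hs.trans hu) t)

/-- A dyadic block of `1 / t` in terms of the model kernel and of `rho`. -/
theorem block_eq {s : ℝ} (hs : 0 < s) (t : ℝ) :
    (if s ≤ |t| ∧ |t| < 2 * s then 1 / t else 0) =
      rho s t - rho (2 * s) t + cphi⁻¹ * ∫ v in (1 : ℝ)..2, phi (v * s) t / v := by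
  have h1 := intervalIntegral.integral_Ioi_sub_Ioi (integrableOn_phi_div hs t)
    (show s ≤ 2 * s by linarith)
  have h2 := intervalIntegral.integral_comp_mul_right (a := 1) (b := 2)
    (fun u => phi u t / u) hs.ne'
  have h3 : ∫ v in (1 : ℝ)..2, phi (v * s) t / v =
      s * ∫ v in (1 : ℝ)..2, phi (v * s) t / (v * s) := by
    rw [← intervalIntegral.integral_const_mul]
    refine intervalIntegral.integral_congr fun v _ => ?_
    rw [← div_div, mul_div_cancel₀ _ hs.ne']
  rw [h3, h2, one_mul, smul_eq_mul, mul_inv_cancel_left₀ hs.ne', ← h1]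
  unfold rho
  by_cases a : s ≤ |t| <;> by_cases b : 2 * s ≤ |t|
  · rw [if_neg (fun h => by linarith [h.2]), if_pos a, if_pos b]; ring
  · rw [if_pos ⟨a, not_le.1 b⟩, if_pos a, if_neg b]; ring
  · linarith [not_le.1 a]
  · rw [if_neg (fun h => a h.1), if_neg a, if_neg b]; ring

theorem intervalIntegrable_phi {s : ℝ} (hs : 0 < s) (t : ℝ) :
    IntervalIntegrable (fun v => phi (v * s) t / v) volume 1 2 := by
  have h1 : IntervalIntegrable (fun u => phi u t / u) volume s (2 * s) :=
    (intervalIntegrable_iff_integrableOn_Ioc_of_le (by linarith)).2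
      ((integrableOn_phi_div hs t).mono_set Set.Ioc_subset_Ioi_self)
  have h2 := (h1.comp_mul_right (c := s)).const_mul s
  rw [div_self hs.ne', mul_div_cancel_right₀ _ hs.ne'] at h2
  convert h2 using 2 with v
  rw [← div_div, mul_div_cancel₀ _ hs.ne']

theorem integral_phi_div_pos {t : ℝ} (ht : 0 < t) :
    ∫ u in Set.Ioi 0, phi u t / u = cphi / t := by
  have h1 := integral_comp_rpow_Ioi (fun y => phi 1 (t * y)) (p := -1) (by norm_num)
  rw [integral_comp_mul_left_Ioi (phi 1) 0 ht, mul_zero, smul_eq_mul] at h1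
  rw [div_eq_inv_mul cphi, cphi, ← h1]
  refine setIntegral_congr_fun measurableSet_Ioi fun u hu => ?_
  have hu : (0 : ℝ) < u := hu
  rw [phi_scale hu, show (-1 : ℝ) - 1 = -2 by norm_num, Real.rpow_neg hu.le, Real.rpow_two,
    Real.rpow_neg_one, smul_eq_mul, ← div_eq_mul_inv t u]
  simp only [abs_neg, abs_one]
  field_simp

theorem integral_phi_div {t : ℝ} (ht : t ≠ 0) : ∫ u in Set.Ioi 0, phi u t / u = cphi / t := by
  rcases lt_or_gt_of_ne ht with h | h
  · have h1 := integral_phi_div_pos (neg_pos.2 h)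
    simp only [phi_neg, neg_div, integral_neg, div_neg] at h1
    exact neg_injective h1
  · exact integral_phi_div_pos h

theorem abs_phi_div_small {C : ℝ} (hC0 : 0 < C)
    (hC : ∀ s t : ℝ, 0 < s → |phi s t| ≤ C * lap (4 * s) t) {s t u : ℝ} (hu : 0 < u)
    (hus : u ≤ s) (hst : s ≤ |t|) : |phi u t / u| ≤ 256 * C * lap (8 * s) t / s := by
  have hs : 0 < s := hu.trans_le hus
  rw [abs_div, abs_of_pos hu, div_le_iff₀ hu]
  refine (hC u t hu).trans ?_
  have h1 : -(|t| / (4 * u)) ≤ -(|t| / (8 * s)) + -(s / (8 * u)) := by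
    have a1 : |t| / (8 * s) ≤ |t| / (8 * u) :=
      div_le_div_of_nonneg_left (abs_nonneg t) (by positivity) (by linarith)
    have a2 : s / (8 * u) ≤ |t| / (8 * u) := div_le_div_of_nonneg_right hst (by positivity)
    have a3 : |t| / (4 * u) = |t| / (8 * u) + |t| / (8 * u) := by field_simp; ring
    linarith
  have h2 : Real.exp (-(s / (8 * u))) ≤ 128 * u ^ 2 / s ^ 2 := by
    have a1 := Real.quadratic_le_exp_of_nonneg (show 0 ≤ s / (8 * u) by positivity)
    have a2 : (0 : ℝ) < s / (8 * u) := by positivity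
    rw [Real.exp_neg, ← one_div]
    refine (one_div_le_one_div_of_le (show 0 < (s / (8 * u)) ^ 2 / 2 by positivity)
      (by linarith)).trans (le_of_eq ?_)
    field_simp; ring
  have h3 := (Real.exp_le_exp.2 h1).trans
    ((Real.exp_add _ _).le.trans (mul_le_mul_of_nonneg_left h2 (Real.exp_pos _).le))
  unfold lap
  refine (mul_le_mul_of_nonneg_left (div_le_div_of_nonneg_right h3 (by positivity))
    hC0.le).trans (le_of_eq ?_)
  field_simp; ring

theorem nice_rho : ∃ C : ℝ, 0 < C ∧ ∀ s : ℝ, 1 ≤ s → Nice C s (rho s) := by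
  obtain ⟨C, hC0, hC⟩ := abs_phi_le
  obtain ⟨D, hD0, hD⟩ := phi_modulus
  have hc : 0 < |cphi⁻¹| := abs_pos.2 (inv_ne_zero cphi_ne_zero)
  refine ⟨4 + |cphi⁻¹| * (256 * C + D), by positivity, fun s hs1 => ⟨?_, ?_, ?_, ?_⟩⟩
  · refine Measurable.sub (Measurable.ite (measurableSet_le measurable_const measurable_id.abs)
      (measurable_const.div measurable_id) measurable_const) (Measurable.const_mul ?_ _)
    exact ((measurable_phi_uncurry.div measurable_fst).stronglyMeasurable.integral_prod_left'
      (μ := volume.restrict (Set.Ioi s))).measurable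
  · intro t
    simp only [rho, phi_neg, neg_div, integral_neg, abs_neg, div_neg]
    split_ifs <;> ring
  · intro t
    have hs : 0 < s := by linarith
    have hl := lap_pos (show 0 < 8 * s by positivity) t
    have key : ∃ I : ℝ, rho s t = cphi⁻¹ * I ∧ |I| ≤ 256 * C * lap (8 * s) t := by
      by_cases a : s ≤ |t|
      · have ht : t ≠ 0 := fun h => by rw [h, abs_zero] at a; linarith
        have hb : ∀ u ∈ Set.Ioc 0 s, ‖phi u t / u‖ ≤ 256 * C * lap (8 * s) t / s :=
          fun u hu => abs_phi_div_small hC0 hC hu.1 hu.2 a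
        have hi : IntegrableOn (fun u => phi u t / u) (Set.Ioc 0 s) :=
          Measure.integrableOn_of_bounded (by simp) (measurable_phi_div t).aestronglyMeasurable
            ((ae_restrict_iff' measurableSet_Ioc).2 (Filter.Eventually.of_forall hb))
        have h1 := setIntegral_union (Set.Ioc_disjoint_Ioi_same (a := 0) (b := s))
          measurableSet_Ioi hi (integrableOn_phi_div hs t)
        rw [Set.Ioc_union_Ioi_eq_Ioi hs.le, integral_phi_div ht] at h1
        refine ⟨∫ u in Set.Ioc 0 s, phi u t / u, ?_, ?_⟩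
        · rw [rho, if_pos a, ← sub_eq_iff_eq_add.2 h1, mul_sub]
          congr 1
          have := cphi_ne_zero
          field_simp
        · refine (norm_setIntegral_le_of_norm_le_const (by simp) hb).trans (le_of_eq ?_)
          rw [Real.volume_real_Ioc_of_le hs.le]
          field_simp; ring
      · refine ⟨-∫ u in Set.Ioi s, phi u t / u, by rw [rho, if_neg a]; ring, ?_⟩
        rw [abs_neg]
        refine (norm_integral_le_of_norm_le (f := fun u => phi u t / u)
          ((integrableOn_inv_sq hs).const_mul C)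
          ((ae_restrict_iff' measurableSet_Ioi).2 (Filter.Eventually.of_forall fun u hu =>
            abs_phi_div_le hC0 hC (hs.trans hu) t))).trans ?_
        rw [integral_const_mul, integral_inv_sq hs]
        have := mul_le_mul_of_nonneg_left (le_lap_of_lt hs (not_le.1 a)) hC0.le
        nlinarith [mul_pos hC0 hl]
    obtain ⟨I, h1, h2⟩ := key
    rw [h1, abs_mul]
    have := mul_le_mul_of_nonneg_left h2 hc.le
    nlinarith [mul_pos (mul_pos hc hD0) hl]
  · intro ι _ x hx y
    have hs : 0 < s := by linarith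
    have h1 := lmod_trunc hs (fun r => s ≤ r) (fun _ _ h h' => h'.trans h) (fun _ h => h) ι x hx y
    have hi : ∀ i, IntegrableOn (fun u => phi u (x i - y) / u - phi u (x i) / u) (Set.Ioi s) :=
      fun i => (integrableOn_phi_div hs _).sub (integrableOn_phi_div hs _)
    have h2 : ∑ i, |(∫ u in Set.Ioi s, phi u (x i - y) / u) - ∫ u in Set.Ioi s, phi u (x i) / u| ≤
        D * |y| / s := by
      calc _ ≤ ∑ i, ∫ u in Set.Ioi s, |phi u (x i - y) / u - phi u (x i) / u| :=
            Finset.sum_le_sum fun i _ => by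
              rw [← integral_sub (integrableOn_phi_div hs _) (integrableOn_phi_div hs _)]
              exact abs_integral_le_integral_abs
        _ = ∫ u in Set.Ioi s, ∑ i, |phi u (x i - y) / u - phi u (x i) / u| :=
            (integral_finsetSum _ fun i _ => (hi i).abs).symm
        _ ≤ ∫ u in Set.Ioi s, D * |y| * (u ^ 2)⁻¹ := by
            refine setIntegral_mono_on (integrable_finsetSum _ fun i _ => (hi i).abs)
              ((integrableOn_inv_sq hs).const_mul _) measurableSet_Ioi fun u hu => ?_
            have hu0 : 0 < u := hs.trans hu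
            simp only [← sub_div, abs_div, abs_of_pos hu0, ← Finset.sum_div]
            refine (div_le_div_of_nonneg_right (hD u (hs1.trans (le_of_lt hu)) ι x hx y)
              hu0.le).trans (le_of_eq ?_)
            field_simp
        _ = _ := by rw [integral_const_mul, integral_inv_sq hs]; ring
    have h3 : ∑ i, |rho s (x i - y) - rho s (x i)| ≤ 4 / s * (|y| + 1) + |cphi⁻¹| * (D * |y| / s) := by
      refine le_trans ?_ (add_le_add h1 (mul_le_mul_of_nonneg_left h2 hc.le))
      rw [Finset.mul_sum, ← Finset.sum_add_distrib]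
      refine Finset.sum_le_sum fun i _ => ?_
      rw [← abs_mul]
      refine le_trans (le_of_eq ?_) (abs_sub _ _)
      unfold rho
      congr 1; ring
    refine h3.trans ?_
    rw [le_div_iff₀ hs]
    have e : (4 / s * (|y| + 1) + |cphi⁻¹| * (D * |y| / s)) * s =
        4 * (|y| + 1) + |cphi⁻¹| * D * |y| := by field_simp
    rw [e]
    have := abs_nonneg y
    nlinarith [mul_pos hc hD0, mul_pos hc hC0, mul_nonneg (mul_pos hc hC0).le this]

/-- The part of one annulus that is not constant on the block `s / 2 ≤ |t| < s`. -/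
noncomputable def short (ε R s t : ℝ) : ℝ :=
  ((if ε < |t| ∧ |t| < R then 1 else 0) - if ε < s / 2 ∧ s / 2 < R then 1 else 0) *
    if s / 2 ≤ |t| ∧ |t| < s then 1 / t else 0

theorem abs_block_le {s : ℝ} (hs : 0 < s) (t : ℝ) :
    |(if s / 2 ≤ |t| ∧ |t| < s then 1 / t else 0 : ℝ)| ≤ 64 * lap (8 * s) t := by
  have hl := lap_pos (show 0 < 8 * s by positivity) t
  split_ifs with h
  · have h1 := le_lap_of_lt hs h.2
    have h2 := one_div_le_one_div_of_le (by positivity) h.1
    have e : 1 / (s / 2) = 2 * (1 / s) := by field_simp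
    rw [abs_div, abs_one]
    linarith
  · rw [abs_zero]; positivity

theorem nice_short : ∃ C : ℝ, 0 < C ∧ ∀ ε R s : ℝ, 1 ≤ s → Nice C s (short ε R s) := by
  refine ⟨64, by norm_num, fun ε R s hs1 => ⟨?_, ?_, ?_, ?_⟩⟩
  · refine Measurable.mul (Measurable.sub (Measurable.ite ?_ measurable_const measurable_const)
      measurable_const) (Measurable.ite ?_ (measurable_const.div measurable_id) measurable_const)
    · exact (measurableSet_lt measurable_const measurable_id.abs).inter
        (measurableSet_lt measurable_id.abs measurable_const)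
    · exact (measurableSet_le measurable_const measurable_id.abs).inter
        (measurableSet_lt measurable_id.abs measurable_const)
  · intro t
    simp only [short, abs_neg, div_neg]
    split_ifs <;> ring
  · intro t
    rw [short, abs_mul]
    refine (mul_le_of_le_one_left (abs_nonneg _) ?_).trans (abs_block_le (by linarith) t)
    split_ifs <;> simp
  · intro ι _ x hx y
    have hs : 0 < s := by linarith
    have hs2 : 0 < s / 2 := by positivity
    have a1 := lmod_trunc hs2 (fun r => ε < r ∧ s / 2 ≤ r)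
      (fun _ _ h h' => ⟨h'.1.trans_le h, h'.2.trans h⟩) (fun _ h => h.2)
    have a2 := lmod_trunc hs2 (fun r => (ε < r ∧ s / 2 ≤ r) ∧ (R ≤ r ∨ s ≤ r))
      (fun _ _ h h' => ⟨⟨h'.1.1.trans_le h, h'.1.2.trans h⟩,
        h'.2.imp (fun k => k.trans h) fun k => k.trans h⟩) (fun _ h => h.1.2)
    have a3 := lmod_trunc hs2 (fun r => s / 2 ≤ r) (fun _ _ h h' => h'.trans h) (fun _ h => h)
    have a4 := lmod_trunc hs2 (fun r => s ≤ r) (fun _ _ h h' => h'.trans h)
      (fun _ h => by linarith)
    have a5 := (a1.sub a2).sub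
      ((a3.sub a4).mul (a := if ε < s / 2 ∧ s / 2 < R then 1 else 0)) ι x hx y
    have e : ∀ t, short ε R s t = ((if ε < |t| ∧ s / 2 ≤ |t| then 1 / t else 0) -
        (if (ε < |t| ∧ s / 2 ≤ |t|) ∧ (R ≤ |t| ∨ s ≤ |t|) then 1 / t else 0)) -
        (if ε < s / 2 ∧ s / 2 < R then 1 else 0) *
          ((if s / 2 ≤ |t| then 1 / t else 0) - if s ≤ |t| then 1 / t else 0) := by
      intro t
      unfold short
      generalize (if ε < s / 2 ∧ s / 2 < R then (1 : ℝ) else 0) = c
      by_cases b1 : ε < |t| <;> by_cases b2 : s / 2 ≤ |t| <;> by_cases b3 : R ≤ |t| <;>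
        by_cases b4 : s ≤ |t| <;>
        first
        | (exfalso; linarith [not_le.1 b2])
        | (simp only [← not_le (a := R), ← not_le (a := s) (b := |t|), b1, b2, b3, b4]; simp <;> ring)
    simp only [e]
    refine a5.trans ?_
    have b : |(if ε < s / 2 ∧ s / 2 < R then (1 : ℝ) else 0)| ≤ 1 := by split_ifs <;> simp
    have b2 : 4 / (s / 2) = 8 / s := by field_simp; norm_num
    have b3 : 0 < 8 / s := by positivity
    have b4 := mul_le_of_le_one_left (show 0 ≤ 8 / s + 8 / s by positivity) b
    rw [b2, mul_div_right_comm]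
    refine mul_le_mul_of_nonneg_right ?_ (by positivity)
    have : 64 / s = 8 * (8 / s) := by ring
    linarith

end Crest.Agent.R72
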