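import Crest.Agent.R72.SqLocal

set_option autoImplicit false

namespace Crest.Agent.R72

open Matrix MeasureTheory
open scoped ENNReal

namespace SqAux

variable {ι₀ ι₁ ι₂ : Type} [Fintype ι₀] [DecidableEq ι₀] [Fintype ι₁] [DecidableEq ι₁]
  [Fintype ι₂] [DecidableEq ι₂]

/-- The Bellman function at the scales `σ` and `S`. -/
noncomputable def BB (F₁ : Matrix ι₁ ι₂ ℝ) (F₂ : Matrix ι₂ ι₀ ℝ) (x₀ : ι₀ → ℝ) (x₁ : ι₁ → ℝ)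
    (x₂ : ι₂ → ℝ) (σ S : ℝ) : ℝ≥0∞ :=
  Theta F₁ F₂ x₁ x₂ x₀ (lap2 σ S) (lap σ) (lap2 σ S) +
    120 * (NN F₁ x₁ x₂ (lap2 σ S) (lap σ) + NN F₂ᵀ x₀ x₂ (lap2 σ S) (lap σ))

theorem prof_lap2 {σ S : ℝ} (hσ : 0 < σ) (hS : 0 < S) : Prof (lap2 σ S) :=
  prof_cv hS (prof_lap hσ)

theorem NN_step (F : Matrix ι₀ ι₁ ℝ) (x₀ : ι₀ → ℝ) (x₁ : ι₁ → ℝ) {σ S : ℝ} (hσ : 0 < σ)
    (hS : 0 < S) : NN F x₀ x₁ (lap2 (2 * σ) (2 * S)) (lap (2 * σ)) +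
      1 / 80 * Gout (nu σ) F x₀ x₁ (lap2 σ S) (lap σ) ≤ NN F x₀ x₁ (lap2 σ S) (lap σ) := by
  have h2 : 0 < 2 * σ := by positivity
  have a1 := step_pure F x₀ x₁ (stepLaw_nu hσ) (prof_lap2 hσ hS) (prof_lap hσ)
  have a2 := step_pure F x₀ x₁ (stepLaw_nu hS) (prof_lap2 h2 hS) (prof_lap h2)
  have a3 := step_pure Fᵀ x₁ x₀ (stepLaw_nu hσ) (prof_lap hσ) (prof_lap2 h2 hS)
  rw [cvm_nu_lap2_left hσ hS] at a1
  rw [cvm_nu_lap2_right h2 hS] at a2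
  rw [cvm_nu_lap hσ, ← NN_transpose, ← NN_transpose] at a3
  exact (add_le_add_left ((le_self_add.trans a2).trans (le_self_add.trans a3)) _).trans a1

theorem BB_step (F₁ : Matrix ι₁ ι₂ ℝ) (F₂ : Matrix ι₂ ι₀ ℝ) (x₀ : ι₀ → ℝ) (x₁ : ι₁ → ℝ)
    (x₂ : ι₂ → ℝ) {σ S : ℝ} (hσ : 0 < σ) (hS : 0 < S) :
    BB F₁ F₂ x₀ x₁ x₂ (2 * σ) (2 * S) +
      1 / 16 * Gatom F₁ F₂ x₁ x₂ x₀ (lap2 σ S) (lap σ) (lap (2 * σ)) (lap2 σ S) ≤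
      BB F₁ F₂ x₀ x₁ x₂ σ S := by
  have h2 : 0 < 2 * σ := by positivity
  have a1 := step_mid F₁ F₂ x₁ x₂ x₀ (stepLaw_nu hσ) (prof_lap2 hσ hS) (prof_lap hσ)
    (prof_lap2 hσ hS)
  have a2 := step_outer F₁ F₂ x₁ x₂ x₀ (stepLaw_nu hσ) (prof_lap2 hσ hS) (prof_lap h2)
    (prof_lap2 hσ hS)
  have a3 := step_outer F₁ F₂ x₁ x₂ x₀ (stepLaw_nu hS) (prof_lap2 h2 hS) (prof_lap h2)
    (prof_lap2 h2 hS)
  rw [cvm_nu_lap hσ] at a1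
  rw [cvm_nu_lap2_left hσ hS] at a2
  rw [cvm_nu_lap2_right h2 hS] at a3
  have a4 := NN_step F₁ x₁ x₂ hσ hS
  have a5 := NN_step F₂ᵀ x₀ x₂ hσ hS
  have a6 := (add_le_add_left ((a3.trans a2).trans le_self_add) _).trans a1
  have e : (3 / 2 : ℝ≥0∞) = 120 * (1 / 80) := by
    rw [← ENNReal.toReal_eq_toReal_iff' (by finiteness) (by finiteness)]
    norm_num
  unfold BB
  rw [add_right_comm]
  refine (add_le_add_left a6 _).trans ?_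
  rw [add_assoc, e, mul_assoc, ← mul_add]
  refine add_le_add_right (mul_le_mul_right (le_trans (le_of_eq ?_) (add_le_add a4 a5)) _) _
  ring

theorem BB_tele (F₁ : Matrix ι₁ ι₂ ℝ) (F₂ : Matrix ι₂ ι₀ ℝ) (x₀ : ι₀ → ℝ) (x₁ : ι₁ → ℝ)
    (x₂ : ι₂ → ℝ) {σ r : ℝ} (hσ : 0 < σ) (hr : 0 < r) (K : ℕ) :
    BB F₁ F₂ x₀ x₁ x₂ (σ * 2 ^ K) (r * (σ * 2 ^ K)) + 1 / 16 * ∑ q ∈ Finset.range K,
      Gatom F₁ F₂ x₁ x₂ x₀ (lap2 (σ * 2 ^ q) (r * (σ * 2 ^ q))) (lap (σ * 2 ^ q))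
        (lap (2 * (σ * 2 ^ q))) (lap2 (σ * 2 ^ q) (r * (σ * 2 ^ q))) ≤
      BB F₁ F₂ x₀ x₁ x₂ σ (r * σ) := by
  induction K with
  | zero => simp
  | succ K ih =>
    refine le_trans ?_ ih
    rw [Finset.sum_range_succ, mul_add, add_comm (1 / 16 * _), ← add_assoc,
      show r * (σ * 2 ^ (K + 1)) = 2 * (r * (σ * 2 ^ K)) by ring,
      show σ * 2 ^ (K + 1) = 2 * (σ * 2 ^ K) by ring]
    exact add_le_add_left (BB_step F₁ F₂ x₀ x₁ x₂ (by positivity) (by positivity)) _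

omit [DecidableEq ι₀] [DecidableEq ι₁] in
theorem cub_nonneg (F : Matrix ι₀ ι₁ ℝ) : 0 ≤ cub F :=
  Finset.sum_nonneg fun _ _ => Finset.sum_nonneg fun _ _ => by positivity

omit [DecidableEq ι₀] [DecidableEq ι₁] in
theorem cub_transpose (F : Matrix ι₀ ι₁ ℝ) : cub Fᵀ = cub F := Finset.sum_comm

theorem BB_le (F₁ : Matrix ι₁ ι₂ ℝ) (F₂ : Matrix ι₂ ι₀ ℝ) {x₀ : ι₀ → ℝ} {x₁ : ι₁ → ℝ}
    {x₂ : ι₂ → ℝ} (h₀ : Sep x₀) (h₁ : Sep x₁) (h₂ : Sep x₂) {σ S : ℝ} (hσ : 1 ≤ σ)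
    (hS : 2 * σ ≤ S) :
    BB F₁ F₂ x₀ x₁ x₂ σ S ≤ ENNReal.ofReal (968 * (cub F₁ + cub F₂)) := by
  have hσ0 : 0 < σ := by linarith
  have hS0 : 0 < S := by linarith
  have k1 : ∀ {ι : Type} [Fintype ι] {x : ι → ℝ}, Sep x → ∀ p, ∑ i, lap2 σ S (x i - p) ≤ 4 := by
    intro ι _ x hx p
    refine (Finset.sum_le_sum fun i _ => lap2_le hσ0 hS _).trans ?_
    rw [← Finset.mul_sum]
    have := sum_lap_le hx (show 1 ≤ S by linarith) p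
    linarith
  have k2 : ∀ p, ∑ i, lap σ (x₂ i - p) ≤ 4 := fun p => (sum_lap_le h₂ hσ p).trans (by norm_num)
  have a1 := Theta_le F₁ F₂ x₁ x₂ x₀ (prof_lap2 hσ0 hS0) (prof_lap hσ0) (prof_lap2 hσ0 hS0)
    (by norm_num) (k1 h₁) k2 (k1 h₀)
  have a2 := NN_le F₁ x₁ x₂ (prof_lap2 hσ0 hS0) (prof_lap hσ0) (by norm_num) (k1 h₁) k2
  have a3 := NN_le F₂ᵀ x₀ x₂ (prof_lap2 hσ0 hS0) (prof_lap hσ0) (by norm_num) (k1 h₀) k2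
  rw [cub_transpose] at a3
  have c1 := cub_nonneg F₁
  have c2 := cub_nonneg F₂
  refine (add_le_add a1 (mul_le_mul_right (add_le_add a2 a3) _)).trans (le_of_eq ?_)
  rw [← ENNReal.ofReal_add (by positivity) (by positivity), ← ENNReal.ofReal_ofNat 120,
    ← ENNReal.ofReal_mul (by norm_num), ← ENNReal.ofReal_add (by positivity) (by positivity)]
  congr 1
  ring

theorem young (a : ℝ) {M : ℝ} (hM : 0 ≤ M) :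
    a ^ 2 * √M ≤ |a| ^ 3 + M ^ (3 / 2 : ℝ) := by
  have e : M ^ (3 / 2 : ℝ) = √M ^ 3 := by
    rw [Real.sqrt_eq_rpow, ← Real.rpow_natCast, ← Real.rpow_mul hM]
    norm_num
  rw [e, ← sq_abs a]
  have h1 := abs_nonneg a
  have h2 := Real.sqrt_nonneg M
  generalize |a| = b at *
  generalize √M = c at *
  rcases le_total b c with h | h
  · have : b ^ 2 * c ≤ c ^ 2 * c := by gcongr
    nlinarith [pow_nonneg h1 3]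
  · have : b ^ 2 * c ≤ b ^ 2 * b := by gcongr
    nlinarith [pow_nonneg h2 3]

theorem sq_rpow (a : ℝ) : (a ^ 2) ^ (3 / 2 : ℝ) = |a| ^ 3 := by
  rw [← sq_abs, ← Real.rpow_natCast, ← Real.rpow_mul (abs_nonneg a), ← Real.rpow_natCast]
  norm_num

end SqAux

open SqAux

/-- The square function estimate. -/
theorem sq_bound : ∃ C : ℝ, 0 < C ∧
    ∀ (ι₀ ι₁ ι₂ : Type) [Fintype ι₀] [DecidableEq ι₀] [Fintype ι₁] [DecidableEq ι₁]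
      [Fintype ι₂] [DecidableEq ι₂]
      (x₀ : ι₀ → ℝ) (x₁ : ι₁ → ℝ) (x₂ : ι₂ → ℝ), Sep x₀ → Sep x₁ → Sep x₂ →
      ∀ (H : Matrix ι₀ ι₁ ℝ) (F₁ : Matrix ι₁ ι₂ ℝ) (F₂ : Matrix ι₂ ι₀ ℝ) (σ r : ℝ) (K : ℕ)
        (χ : ℕ → ι₀ → ι₁ → ℝ → ℝ) (α : ℕ → ι₀ → ι₁ → ℝ) (ν : ℝ), 1 ≤ σ → 4 ≤ r → 1 ≤ ν →
        (∀ q i₀ i₁, Measurable (χ q i₀ i₁)) →
        (∀ q i₀ i₁ t, |χ q i₀ i₁ t| ≤ α q i₀ i₁ * lap (r * (σ * 2 ^ q)) t) →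
        (∀ i₀ i₁, ∑ q ∈ Finset.range K, α q i₀ i₁ ^ 2 ≤ ν) →
        |Form H F₁ F₂ x₀ x₁ x₂ fun i₀ i₁ t => ∑ q ∈ Finset.range K,
            (cv (σ * 2 ^ q) (χ q i₀ i₁) t - cv (2 * (σ * 2 ^ q)) (χ q i₀ i₁) t)| ≤
          C * √ν * (cub H + cub F₁ + cub F₂) := by
  obtain ⟨C₁, hC₁, loc⟩ := sq_local
  obtain ⟨C₂, hC₂, mx⟩ := max2_ineq (p := 3 / 2) (by norm_num)
  refine ⟨16 * 968 + C₁ * (2 + C₂), by positivity, fun ι₀ ι₁ ι₂ _ _ _ _ _ _ x₀ x₁ x₂ h₀ h₁ h₂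
    H F₁ F₂ σ r K χ α ν hσ hr hν hm hχ hα => ?_⟩
  have hσ0 : 0 < σ := by linarith
  have hν0 : 0 < √ν := Real.sqrt_pos.2 (by linarith)
  have c0 := cub_nonneg H
  have c1 := cub_nonneg F₁
  have c2 := cub_nonneg F₂
  obtain ⟨M, hM⟩ : ∃ M : ι₀ → ι₁ → ℝ, ∀ i₀ i₁, M i₀ i₁ =
      √(Mx2 x₁ x₂ (fun j k => F₁ j k ^ 2) (x₁ i₁) (-x₀ i₀ - x₁ i₁))
        + √(Mx2 x₀ x₂ (fun i k => F₂ k i ^ 2) (x₀ i₀) (-x₁ i₁ - x₀ i₀)) := ⟨_, fun _ _ => rfl⟩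
  have hM0 : ∀ i₀ i₁, 0 ≤ M i₀ i₁ := fun i₀ i₁ => by rw [hM]; positivity
  have a1 : ∑ i₀, ∑ i₁, H i₀ i₁ ^ 2 * M i₀ i₁ ≤ (2 + C₂) * (cub H + cub F₁ + cub F₂) := by
    have b1 := mx ι₀ ι₁ ι₂ x₀ x₁ x₂ h₀ h₁ h₂ (fun j k => F₁ j k ^ 2) fun _ _ => sq_nonneg _
    have b2 := mx ι₁ ι₀ ι₂ x₁ x₀ x₂ h₁ h₀ h₂ (fun i k => F₂ k i ^ 2) fun _ _ => sq_nonneg _
    simp only [sq_rpow] at b1 b2
    rw [Finset.sum_comm, Finset.sum_comm (f := fun i k => |F₂ k i| ^ 3)] at b2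
    change _ ≤ C₂ * cub F₁ at b1
    change _ ≤ C₂ * cub F₂ at b2
    simp only [hM, mul_add]
    refine (Finset.sum_le_sum fun i₀ _ => Finset.sum_le_sum fun i₁ _ =>
      add_le_add (young _ (Mx2_nonneg _ _ (fun _ _ => sq_nonneg _) _ _))
        (young _ (Mx2_nonneg _ _ (fun _ _ => sq_nonneg _) _ _))).trans ?_
    simp only [Finset.sum_add_distrib]
    change cub H + _ + (cub H + _) ≤ _
    nlinarith
  have a2 : ∑ q ∈ Finset.range K, C₁ * (√ν)⁻¹ * ∑ i₀, ∑ i₁,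
      α q i₀ i₁ ^ 2 * H i₀ i₁ ^ 2 * M i₀ i₁ ≤
      C₁ * √ν * ((2 + C₂) * (cub H + cub F₁ + cub F₂)) := by
    rw [← Finset.mul_sum]
    have b1 : ∑ q ∈ Finset.range K, ∑ i₀, ∑ i₁, α q i₀ i₁ ^ 2 * H i₀ i₁ ^ 2 * M i₀ i₁ ≤
        ν * ∑ i₀, ∑ i₁, H i₀ i₁ ^ 2 * M i₀ i₁ := by
      rw [Finset.sum_comm, Finset.mul_sum]
      refine Finset.sum_le_sum fun i₀ _ => ?_
      rw [Finset.sum_comm, Finset.mul_sum]
      refine Finset.sum_le_sum fun i₁ _ => ?_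
      simp only [mul_assoc, ← Finset.sum_mul]
      exact mul_le_mul_of_nonneg_right (hα i₀ i₁) (mul_nonneg (sq_nonneg _) (hM0 i₀ i₁))
    refine (mul_le_mul_of_nonneg_left (b1.trans (mul_le_mul_of_nonneg_left a1 (by linarith)))
      (by positivity)).trans (le_of_eq ?_)
    nth_rw 2 [← Real.mul_self_sqrt (show 0 ≤ ν by linarith)]
    field_simp
  have a3 : ∑ q ∈ Finset.range K,
      Gatom F₁ F₂ x₁ x₂ x₀ (lap2 (σ * 2 ^ q) (r * (σ * 2 ^ q))) (lap (σ * 2 ^ q))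
        (lap (2 * (σ * 2 ^ q))) (lap2 (σ * 2 ^ q) (r * (σ * 2 ^ q))) ≤
      ENNReal.ofReal (16 * (968 * (cub F₁ + cub F₂))) := by
    have b1 := (le_add_self.trans (BB_tele F₁ F₂ x₀ x₁ x₂ hσ0 (show 0 < r by linarith) K)).trans
      (BB_le F₁ F₂ h₀ h₁ h₂ hσ (by nlinarith))
    rw [ENNReal.ofReal_mul (by norm_num), ENNReal.ofReal_ofNat]
    refine le_trans (le_of_eq ?_) (mul_le_mul_right b1 16)
    rw [← mul_assoc, one_div, ENNReal.mul_inv_cancel (by norm_num) (by norm_num), one_mul]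
  have a4 : (Form H F₁ F₂ x₀ x₁ x₂ fun i₀ i₁ t => ∑ q ∈ Finset.range K,
      (cv (σ * 2 ^ q) (χ q i₀ i₁) t - cv (2 * (σ * 2 ^ q)) (χ q i₀ i₁) t)) =
      ∑ q ∈ Finset.range K, Form H F₁ F₂ x₀ x₁ x₂ fun i₀ i₁ t =>
        cv (σ * 2 ^ q) (χ q i₀ i₁) t - cv (2 * (σ * 2 ^ q)) (χ q i₀ i₁) t := by
    unfold Form
    simp only [Finset.mul_sum]
    symm
    rw [Finset.sum_comm]
    refine Finset.sum_congr rfl fun i₀ _ => ?_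
    rw [Finset.sum_comm]
    exact Finset.sum_congr rfl fun i₁ _ => Finset.sum_comm
  have a5 := Finset.sum_le_sum fun q (_ : q ∈ Finset.range K) =>
    loc ι₀ ι₁ ι₂ x₀ x₁ x₂ H F₁ F₂ (σ * 2 ^ q) (r * (σ * 2 ^ q)) (√ν)⁻¹ (χ q) (α q)
      (one_le_mul_of_one_le_of_one_le hσ (one_le_pow₀ (by norm_num)))
      (mul_le_mul_of_nonneg_right hr (by positivity)) (by positivity) (hm q) (hχ q)
  simp only [← hM] at a5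
  rw [Finset.sum_add_distrib, ← Finset.mul_sum, inv_inv,
    ← ENNReal.ofReal_sum_of_nonneg fun _ _ => abs_nonneg _,
    ← ENNReal.ofReal_sum_of_nonneg fun q _ => mul_nonneg (by positivity)
      (Finset.sum_nonneg fun i₀ _ => Finset.sum_nonneg fun i₁ _ =>
        mul_nonneg (by positivity) (hM0 i₀ i₁))] at a5
  have a6 := a5.trans (add_le_add (mul_le_mul_right a3 _) (ENNReal.ofReal_le_ofReal a2))
  rw [← ENNReal.ofReal_mul hν0.le, ← ENNReal.ofReal_add (by positivity) (by positivity),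
    ENNReal.ofReal_le_ofReal_iff (by positivity)] at a6
  rw [a4]
  refine (Finset.abs_sum_le_sum_abs _ _).trans (a6.trans ?_)
  nlinarith [mul_nonneg hν0.le c0]

end Crest.Agent.R72
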