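import Crest.Agent.R72.Step
import Crest.Agent.R72.Tri
import Crest.Agent.R72.Max

set_option autoImplicit false

namespace Crest.Agent.R72

open Matrix MeasureTheory
open scoped ENNReal

namespace SqLocal

theorem integrable_mu {W : ℝ → ℝ} (hW : Prof W) (s t : ℝ) :
    Integrable (fun p : ℝ × ℝ => W (s - (-p.1 - p.2)) * W (t - p.1)) := by
  have h1 : Integrable (fun a => W (t - a)) := hW.intg.comp_sub_left t
  have h2 : Integrable (fun b => W (s + b)) := hW.intg.comp_add_left s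
  have h3 := (measurePreserving_prod_add (volume : Measure ℝ) volume).integrable_comp_of_integrable
    (h1.mul_prod h2)
  refine h3.congr (ae_of_all _ fun p => ?_)
  simp only [Function.comp]
  rw [mul_comm]
  congr 2
  ring

theorem integral_mu {W : ℝ → ℝ} (hW : Prof W) (s t : ℝ) :
    ∫ p : ℝ × ℝ, W (s - (-p.1 - p.2)) * W (t - p.1) = 1 := by
  rw [Measure.volume_eq_prod, integral_prod _ (integrable_mu hW s t)]
  have h : ∀ a : ℝ, ∫ b, W (s - (-a - b)) * W (t - a) = W (t - a) := fun a => by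
    rw [integral_mul_const]
    have e : (fun b => W (s - (-a - b))) = fun b => W ((s + a) + b) := by
      funext b
      congr 1
      ring
    rw [e, integral_add_left_eq_self, hW.int_one, one_mul]
  simp only [h]
  rw [integral_sub_left_eq_self, hW.int_one]

theorem sqrt_avg {μ β : ℝ × ℝ → ℝ} (hμ : Integrable μ) (hμ0 : ∀ p, 0 ≤ μ p) (h1 : ∫ p, μ p = 1)
    (hβ : Continuous β) (hβ0 : ∀ p, 0 ≤ β p) {B : ℝ} (hB : ∀ p, β p ≤ B) {M : ℝ}
    (h : ∫ p, μ p * β p ≤ M) :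
    Integrable (fun p => μ p * √(β p)) ∧ ∫ p, μ p * √(β p) ≤ √M := by
  have i1 : Integrable (fun p => μ p * √(β p)) :=
    hμ.mul_bdd (c := √B) hβ.sqrt.aestronglyMeasurable (ae_of_all _ fun p => by
      rw [Real.norm_eq_abs, abs_of_nonneg (Real.sqrt_nonneg _)]
      exact Real.sqrt_le_sqrt (hB p))
  have i2 : Integrable (fun p => μ p * β p) :=
    hμ.mul_bdd (c := B) hβ.aestronglyMeasurable (ae_of_all _ fun p => by
      rw [Real.norm_eq_abs, abs_of_nonneg (hβ0 _)]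
      exact hB p)
  refine ⟨i1, ?_⟩
  have hM : 0 ≤ M := (integral_nonneg fun p => mul_nonneg (hμ0 p) (hβ0 p)).trans h
  have key : ∀ τ : ℝ, 0 < τ → ∫ p, μ p * √(β p) ≤ (2 * τ)⁻¹ * M + τ / 2 := fun τ hτ => by
    calc ∫ p, μ p * √(β p) ≤ ∫ p, ((2 * τ)⁻¹ * (μ p * β p) + τ / 2 * μ p) := by
          refine integral_mono i1 ((i2.const_mul _).add (hμ.const_mul _)) fun p => ?_
          have e := Real.mul_self_sqrt (hβ0 p)
          have k : √(β p) ≤ (2 * τ)⁻¹ * β p + τ / 2 := by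
            have : 0 ≤ (2 * τ)⁻¹ * (√(β p) - τ) ^ 2 := by positivity
            have e2 : (2 * τ)⁻¹ * (√(β p) - τ) ^ 2 =
                (2 * τ)⁻¹ * (√(β p) * √(β p)) + τ / 2 - √(β p) := by
              field_simp
              ring
            rw [e2, e] at this
            linarith
          have := mul_le_mul_of_nonneg_left k (hμ0 p)
          simp only
          linarith
      _ = (2 * τ)⁻¹ * (∫ p, μ p * β p) + τ / 2 := by
          rw [integral_add (i2.const_mul _) (hμ.const_mul _), integral_const_mul,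
            integral_const_mul, h1, mul_one]
      _ ≤ _ := by gcongr
  refine le_of_forall_pos_le_add fun ε hε => ?_
  have hs := Real.sqrt_nonneg M
  have hτ : 0 < √M + ε := by positivity
  refine (key _ hτ).trans ?_
  have e := Real.mul_self_sqrt hM
  have : (2 * (√M + ε))⁻¹ * M ≤ √M / 2 := by
    rw [inv_mul_le_iff₀ (by positivity)]
    nlinarith
  linarith

theorem three_lap {S : ℝ} (hS : 0 < S) (u v z : ℝ) :
    lap S z * lap S (u + z) * lap S (v - z) ≤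
      32 * lap (4 * S) u * lap (4 * S) v * lap (2 * S) z := by
  have h4 : 0 < 4 * S := by linarith
  have e4 : 4 * S / S = 4 := by field_simp
  have a1 := lap_le_scale hS (show S ≤ 4 * S by linarith) (u + z)
  have a2 := lap_le_scale hS (show S ≤ 4 * S by linarith) (v - z)
  rw [e4] at a1 a2
  have b1 := lap_shift h4 u (-z)
  rw [sub_neg_eq_add, abs_neg] at b1
  have b2 := lap_shift h4 v z
  have c := lap_mul_exp hS z
  have ee : Real.exp (|z| / (4 * S)) * Real.exp (|z| / (4 * S)) = Real.exp (|z| / (2 * S)) := by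
    rw [← Real.exp_add]
    congr 1
    field_simp
    ring
  have p1 := lap_pos hS z
  have p2 := lap_pos hS (u + z)
  have p3 := lap_pos hS (v - z)
  have p4 := lap_pos h4 u
  have p5 := lap_pos h4 v
  have p6 := Real.exp_pos (|z| / (4 * S))
  calc lap S z * lap S (u + z) * lap S (v - z)
      ≤ lap S z * (4 * (Real.exp (|z| / (4 * S)) * lap (4 * S) u)) *
          (4 * (Real.exp (|z| / (4 * S)) * lap (4 * S) v)) := by
        gcongr
        · linarith
        · linarith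
    _ = 16 * lap (4 * S) u * lap (4 * S) v *
          (lap S z * (Real.exp (|z| / (4 * S)) * Real.exp (|z| / (4 * S)))) := by ring
    _ = _ := by rw [ee, c]; ring

theorem four_le {σ S : ℝ} (hσ : 0 < σ) (h : 4 * σ ≤ S) (s t y z : ℝ) :
    ∫ p : ℝ × ℝ, lap2 σ S (s - (-p.1 - p.2)) * lap2 σ S (t - p.1) *
        (lap2 σ S (y - p.1) * lap (2 * σ) (z - p.2)) ≤
      512 * (lap (4 * S) (y - t) * lap (4 * S) (z - (-s - t))) := by
  have hS : 0 < S := by linarith
  have h2 : 0 < 2 * σ := by linarith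
  have hW : Prof (lap2 σ S) := prof_cv hS (prof_lap hσ)
  obtain ⟨B, hB⟩ := hW.abs_le
  have hWc := hW.cont
  have hLc := continuous_lap (2 * σ)
  have hle : ∀ y, lap2 σ S y ≤ 2 * lap S y := lap2_le hσ (by linarith)
  have hi : Integrable (fun p : ℝ × ℝ => lap2 σ S (s - (-p.1 - p.2)) * lap2 σ S (t - p.1) *
      (lap2 σ S (y - p.1) * lap (2 * σ) (z - p.2))) :=
    (integrable_mu hW s t).mul_bdd (c := B * (1 / (2 * (2 * σ))))
      (Continuous.aestronglyMeasurable (by fun_prop)) (ae_of_all _ fun p => by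
        rw [Real.norm_eq_abs, abs_mul]
        exact mul_le_mul (hB _) (abs_lap_le h2 _) (abs_nonneg _) ((abs_nonneg _).trans (hB 0)))
  rw [Measure.volume_eq_prod, integral_prod _ hi]
  have inner : ∀ a : ℝ, ∫ b, lap2 σ S (s - (-a - b)) * lap2 σ S (t - a) *
      (lap2 σ S (y - a) * lap (2 * σ) (z - b)) ≤
      512 * (lap (4 * S) (y - t) * lap (4 * S) (z - (-s - t))) * lap (2 * S) (t - a) := by
    intro a
    have e1 : ∫ b, lap2 σ S (s - (-a - b)) * lap2 σ S (t - a) *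
        (lap2 σ S (y - a) * lap (2 * σ) (z - b)) =
        lap2 σ S (t - a) * lap2 σ S (y - a) * cv (2 * σ) (lap2 σ S) (z + s + a) := by
      rw [cv_eq_swap, ← integral_const_mul,
        ← integral_add_left_eq_self (μ := volume) (fun y_1 => lap2 σ S (t - a) * lap2 σ S (y - a) *
          (lap (2 * σ) (z + s + a - y_1) * lap2 σ S y_1)) (s + a)]
      refine integral_congr_ae (ae_of_all _ fun b => ?_)
      simp only
      rw [show z + s + a - (s + a + b) = z - b by ring, show s - (-a - b) = s + a + b by ring]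
      ring
    have e2 : cv (2 * σ) (lap2 σ S) (z + s + a) ≤ 4 * lap S (z + s + a) := by
      have k1 := abs_cv_le h2 (f := lap2 σ S) (g := fun y => 2 * lap S y)
        ((continuous_lap S).measurable.const_mul 2) (B := 2 * (1 / (2 * S)))
        (fun y => by
          rw [abs_mul, abs_two]
          exact mul_le_mul_of_nonneg_left (abs_lap_le hS y) zero_le_two)
        (fun y => by rw [abs_of_pos (hW.pos y)]; exact hle y) (z + s + a)
      rw [cv_const_mul] at k1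
      have k2 := cv_lap_le' h2 hS (show 2 * (2 * σ) ≤ S by linarith) le_rfl (z + s + a)
      rw [div_self hS.ne'] at k2
      linarith [le_abs_self (cv (2 * σ) (lap2 σ S) (z + s + a))]
    have e3 := three_lap hS (y - t) (z - (-s - t)) (t - a)
    rw [show y - t + (t - a) = y - a by ring, show z - (-s - t) - (t - a) = z + s + a by ring] at e3
    have p1 := hW.pos (t - a)
    have p2 := hW.pos (y - a)
    have p3 := lap_pos hS (t - a)
    have p4 := lap_pos hS (y - a)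
    have p5 := lap_pos hS (z + s + a)
    rw [e1]
    calc lap2 σ S (t - a) * lap2 σ S (y - a) * cv (2 * σ) (lap2 σ S) (z + s + a)
        ≤ lap2 σ S (t - a) * lap2 σ S (y - a) * (4 * lap S (z + s + a)) := by gcongr
      _ ≤ (2 * lap S (t - a)) * (2 * lap S (y - a)) * (4 * lap S (z + s + a)) := by
          gcongr <;> exact hle _
      _ ≤ _ := by linarith
  have h2S : 0 < 2 * S := by linarith
  calc _ ≤ ∫ a, 512 * (lap (4 * S) (y - t) * lap (4 * S) (z - (-s - t))) * lap (2 * S) (t - a) :=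
        integral_mono hi.integral_prod_left (((prof_lap h2S).intg.comp_sub_left t).const_mul _) inner
    _ = _ := by
        rw [integral_const_mul, integral_sub_left_eq_self, (prof_lap h2S).int_one, mul_one]

theorem term_le {ι ι' : Type} [Fintype ι] [Fintype ι'] {σ S : ℝ} (hσ : 1 ≤ σ) (h : 4 * σ ≤ S)
    (s t : ℝ) (y : ι → ℝ) (z : ι' → ℝ) {g : ι → ι' → ℝ} (hg : ∀ j k, 0 ≤ g j k) :
    IV (fun a b c => ENNReal.ofReal (lap2 σ S (s - c) * lap2 σ S (t - a) *
        √(∑ j, ∑ k, lap2 σ S (y j - a) * lap (2 * σ) (z k - b) * g j k))) ≤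
      ENNReal.ofReal (23 * √(Mx2 y z g t (-s - t))) := by
  have hσ0 : 0 < σ := by linarith
  have hS : 0 < S := by linarith
  have h2 : 0 < 2 * σ := by linarith
  have hW : Prof (lap2 σ S) := prof_cv hS (prof_lap hσ0)
  obtain ⟨B, hB⟩ := hW.abs_le
  have hWc := hW.cont
  have hLc := continuous_lap (2 * σ)
  have hb : ∀ a b, |lap2 σ S a * lap (2 * σ) b| ≤ B * (1 / (2 * (2 * σ))) := fun a b => by
    rw [abs_mul]
    exact mul_le_mul (hB _) (abs_lap_le h2 _) (abs_nonneg _) ((abs_nonneg _).trans (hB 0))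
  have hi : ∀ j k, Integrable (fun p : ℝ × ℝ => lap2 σ S (s - (-p.1 - p.2)) * lap2 σ S (t - p.1) *
      (lap2 σ S (y j - p.1) * lap (2 * σ) (z k - p.2))) := fun j k =>
    (integrable_mu hW s t).mul_bdd (c := B * (1 / (2 * (2 * σ))))
      (Continuous.aestronglyMeasurable (by fun_prop)) (ae_of_all _ fun p => hb _ _)
  have hM := Mx2_nonneg y z hg t (-s - t)
  obtain ⟨i1, i2⟩ := sqrt_avg (integrable_mu hW s t)
    (fun p => (mul_pos (hW.pos _) (hW.pos _)).le) (integral_mu hW s t)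
    (β := fun p => ∑ j, ∑ k, lap2 σ S (y j - p.1) * lap (2 * σ) (z k - p.2) * g j k)
    (by fun_prop)
    (fun p => Finset.sum_nonneg fun j _ => Finset.sum_nonneg fun k _ =>
      mul_nonneg (mul_pos (hW.pos _) (lap_pos h2 _)).le (hg j k))
    (B := ∑ j, ∑ k, B * (1 / (2 * (2 * σ))) * g j k)
    (fun p => Finset.sum_le_sum fun j _ => Finset.sum_le_sum fun k _ =>
      mul_le_mul_of_nonneg_right ((le_abs_self _).trans (hb _ _)) (hg j k))
    (M := 512 * Mx2 y z g t (-s - t)) (by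
      simp only [Finset.mul_sum, ← mul_assoc _ _ (g _ _)]
      rw [integral_finsetSum _ fun j _ => integrable_finsetSum _ fun k _ => (hi j k).mul_const _]
      refine le_trans ?_ (mul_le_mul_of_nonneg_left
        (le_Mx2 y z hg t (-s - t) (s := 4 * S) (by linarith)) (by norm_num))
      rw [Finset.mul_sum]
      refine Finset.sum_le_sum fun j _ => ?_
      rw [integral_finsetSum _ fun k _ => (hi j k).mul_const _, Finset.mul_sum]
      refine Finset.sum_le_sum fun k _ => ?_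
      rw [integral_mul_const, ← mul_assoc]
      exact mul_le_mul_of_nonneg_right (four_le hσ0 h s t (y j) (z k)) (hg j k))
  unfold IV
  rw [← ofReal_integral_eq_lintegral_ofReal i1 (ae_of_all _ fun p =>
    mul_nonneg (mul_pos (hW.pos _) (hW.pos _)).le (Real.sqrt_nonneg _))]
  refine ENNReal.ofReal_le_ofReal (i2.trans ?_)
  rw [Real.sqrt_mul (by norm_num)]
  refine mul_le_mul_of_nonneg_right ?_ (Real.sqrt_nonneg _)
  rw [Real.sqrt_le_iff]
  norm_num

/-- The self-convolution of the two-scale profile. -/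
noncomputable def WW (σ S y : ℝ) : ℝ := ∫ a, lap2 σ S a * lap2 σ S (y - a)

theorem measurable_WW {σ S : ℝ} (hσ : 0 < σ) (hS : 0 < S) : Measurable (WW σ S) := by
  have hWc := (prof_cv hS (prof_lap hσ)).cont
  have h : Continuous fun p : ℝ × ℝ => lap2 σ S p.2 * lap2 σ S (p.1 - p.2) := by
    unfold lap2
    fun_prop
  exact (h.stronglyMeasurable.integral_prod_right' (ν := volume)).measurable

theorem le_WW {σ S : ℝ} (hσ : 0 < σ) (h : σ ≤ S) (y : ℝ) : lap S y ≤ 8 * WW σ S y := by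
  have hS : 0 < S := by linarith
  have hW : Prof (lap2 σ S) := prof_cv hS (prof_lap hσ)
  obtain ⟨B, hB⟩ := hW.abs_le
  have h1 := le_lap2 hS le_rfl y
  have h2 : lap2 S S y ≤ 4 * WW σ S y := by
    rw [lap2, cv, WW, ← integral_const_mul]
    refine integral_mono (integrable_cv hS (continuous_lap S).measurable (abs_lap_le hS) y)
      ((hW.intg.mul_bdd (c := B) (hW.cont.comp (continuous_sub_left y)).aestronglyMeasurable
        (ae_of_all _ fun a => hB _)).const_mul _) fun a => ?_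
    have k1 := le_lap2 hσ h a
    have k2 := le_lap2 hσ h (y - a)
    have p1 := lap_pos hS a
    have p2 := lap_pos hS (y - a)
    have p3 := hW.pos a
    calc lap S a * lap S (y - a) ≤ (2 * lap2 σ S a) * (2 * lap2 σ S (y - a)) := by gcongr
      _ = _ := by ring
  linarith

theorem abs_Gam_le {σ S : ℝ} (hσ : 0 < σ) (h : σ ≤ S) {χ : ℝ → ℝ} {α : ℝ}
    (hχ : ∀ t, |χ t| ≤ α * lap S t) (y : ℝ) : |χ y / WW σ S y| ≤ 8 * α := by
  have hS : 0 < S := by linarith
  have p := lap_pos hS y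
  have k := le_WW hσ h y
  have hα : 0 ≤ α := nonneg_of_mul_nonneg_left ((abs_nonneg _).trans (hχ y)) p
  have hw : 0 < WW σ S y := by linarith
  rw [abs_div, abs_of_pos hw, div_le_iff₀ hw]
  calc |χ y| ≤ α * lap S y := hχ y
    _ ≤ α * (8 * WW σ S y) := by gcongr
    _ = _ := by ring

theorem rep {σ S : ℝ} (hσ : 0 < σ) (h : σ ≤ S) {χ : ℝ → ℝ} (hm : Measurable χ) {α : ℝ}
    (hχ : ∀ t, |χ t| ≤ α * lap S t) (s t z : ℝ) :
    Integrable (fun p : ℝ × ℝ => lap2 σ S (s - (-p.1 - p.2)) * lap2 σ S (t - p.1) *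
      (χ (s + t + p.2) / WW σ S (s + t + p.2) * (lap σ (z - p.2) - lap (2 * σ) (z - p.2)))) ∧
    ∫ p : ℝ × ℝ, lap2 σ S (s - (-p.1 - p.2)) * lap2 σ S (t - p.1) *
      (χ (s + t + p.2) / WW σ S (s + t + p.2) * (lap σ (z - p.2) - lap (2 * σ) (z - p.2))) =
      cv σ χ (s + t + z) - cv (2 * σ) χ (s + t + z) := by
  have hS : 0 < S := by linarith
  have h2 : 0 < 2 * σ := by linarith
  have hW : Prof (lap2 σ S) := prof_cv hS (prof_lap hσ)
  have hα : 0 ≤ α := nonneg_of_mul_nonneg_left ((abs_nonneg _).trans (hχ 0)) (lap_pos hS 0)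
  have hWm := measurable_WW hσ hS
  have hL1 := (continuous_lap σ).measurable
  have hL2 := (continuous_lap (2 * σ)).measurable
  have hi : Integrable (fun p : ℝ × ℝ => lap2 σ S (s - (-p.1 - p.2)) * lap2 σ S (t - p.1) *
      (χ (s + t + p.2) / WW σ S (s + t + p.2) * (lap σ (z - p.2) - lap (2 * σ) (z - p.2)))) :=
    (integrable_mu hW s t).mul_bdd (c := 8 * α * (1 / (2 * σ) + 1 / (2 * (2 * σ))))
      (Measurable.aestronglyMeasurable (by fun_prop)) (ae_of_all _ fun p => by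
        rw [Real.norm_eq_abs, abs_mul]
        refine mul_le_mul (abs_Gam_le hσ h hχ _) ((abs_sub _ _).trans ?_) (abs_nonneg _)
          (by positivity)
        exact add_le_add (abs_lap_le hσ _) (abs_lap_le h2 _))
  refine ⟨hi, ?_⟩
  rw [Measure.volume_eq_prod, integral_prod_symm _ hi]
  have inner : ∀ b : ℝ, ∫ a, lap2 σ S (s - (-a - b)) * lap2 σ S (t - a) *
      (χ (s + t + b) / WW σ S (s + t + b) * (lap σ (z - b) - lap (2 * σ) (z - b))) =
      lap σ (z - b) * χ (s + t + b) - lap (2 * σ) (z - b) * χ (s + t + b) := by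
    intro b
    have e : ∫ a, lap2 σ S (s - (-a - b)) * lap2 σ S (t - a) = WW σ S (s + t + b) := by
      rw [WW, ← integral_sub_left_eq_self
        (fun a => lap2 σ S a * lap2 σ S (s + t + b - a)) volume t]
      refine integral_congr_ae (ae_of_all _ fun a => ?_)
      simp only
      rw [mul_comm, show s - (-a - b) = s + t + b - (t - a) by ring]
    have hw : 0 < WW σ S (s + t + b) := by
      have := le_WW hσ h (s + t + b)
      have := lap_pos hS (s + t + b)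
      linarith
    rw [integral_mul_const, e]
    field_simp
  simp only [inner]
  have hB : ∀ y, |χ y| ≤ α * (1 / (2 * S)) := fun y =>
    (hχ y).trans (mul_le_mul_of_nonneg_left (lap_le hS y) hα)
  have k : ∀ r : ℝ, 0 < r → Integrable (fun b => lap r (z - b) * χ (s + t + b)) ∧
      ∫ b, lap r (z - b) * χ (s + t + b) = cv r χ (s + t + z) := fun r hr => by
    refine ⟨((prof_lap hr).intg.comp_sub_left z).mul_bdd (c := α * (1 / (2 * S)))
      (Measurable.aestronglyMeasurable (by fun_prop)) (ae_of_all _ fun b => hB _), ?_⟩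
    rw [cv, ← integral_sub_left_eq_self (fun y => lap r y * χ (s + t + z - y)) volume z]
    refine integral_congr_ae (ae_of_all _ fun b => ?_)
    simp only
    rw [show s + t + z - (z - b) = s + t + b by ring]
  rw [integral_sub (k σ hσ).1 (k _ h2).1, (k σ hσ).2, (k _ h2).2]

variable {ι₀ ι₁ ι₂ : Type} [Fintype ι₀] [DecidableEq ι₀] [Fintype ι₁] [DecidableEq ι₁]
  [Fintype ι₂] [DecidableEq ι₂]

theorem pointwise (H : Matrix ι₀ ι₁ ℝ) (F₁ : Matrix ι₁ ι₂ ℝ) (F₂ : Matrix ι₂ ι₀ ℝ)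
    {u : ι₁ → ℝ} {v v' : ι₂ → ℝ} {w : ι₀ → ℝ} (hu : ∀ i, 0 ≤ u i) (hv : ∀ i, 0 < v i)
    (hv' : ∀ i, 0 ≤ v' i) (hvv : ∀ i, v' i ≤ 2 * v i) (hw : ∀ i, 0 ≤ w i)
    (Γ α : ι₀ → ι₁ → ℝ) (hΓ : ∀ i j, |Γ i j| ≤ 8 * α i j) {γ : ℝ} (hγ : 0 < γ) :
    |∑ i₀, ∑ i₁, ∑ i₂, H i₀ i₁ * F₁ i₁ i₂ * F₂ i₂ i₀ *
        (w i₀ * u i₁ * (Γ i₀ i₁ * (v' i₂ - v i₂)))| ≤
      γ⁻¹ * dmid F₁ F₂ u v' v w + ∑ i₀, ∑ i₁, 32 * γ * α i₀ i₁ ^ 2 * H i₀ i₁ ^ 2 *
        (w i₀ * u i₁ * √(∑ j, ∑ k, u j * v k * F₁ j k ^ 2) +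
          u i₁ * w i₀ * √(∑ i, ∑ k, w i * v k * F₂ k i ^ 2)) := by
  have hd : ∀ j, -1 ≤ (v' j - v j) / v j ∧ (v' j - v j) / v j ≤ 1 := fun j => by
    have := hv j
    constructor
    · rw [le_div_iff₀ this]
      linarith [hv' j]
    · rw [div_le_iff₀ this]
      linarith [hvv j]
  have h1 := hyp_of_dmid F₁ F₂ u (fun j => (hv j).le) w (fun j => (v' j - v j) / v j)
    zero_le_one hd
  have e1 : (fun j => v j * (1 + (v' j - v j) / v j)) = v' := by
    funext j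
    have := (hv j).ne'
    field_simp
    ring
  rw [e1] at h1
  have h2 := bilinear h1 (Matrix.of fun i j => √(w i) * √(u j) * H i j * Γ i j) hγ
  have e2 : (Matrix.of (fun i j => √(w i) * √(u j) * H i j * Γ i j) *
      (wt u F₁ v * diagonal (fun j => (v' j - v j) / v j) * wt v F₂ w)).trace =
      ∑ i₀, ∑ i₁, ∑ i₂, H i₀ i₁ * F₁ i₁ i₂ * F₂ i₂ i₀ *
        (w i₀ * u i₁ * (Γ i₀ i₁ * (v' i₂ - v i₂))) := by
    rw [Matrix.trace]
    refine Finset.sum_congr rfl fun i _ => ?_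
    rw [Matrix.diag, Matrix.mul_apply]
    refine Finset.sum_congr rfl fun j _ => ?_
    rw [Matrix.mul_apply, Finset.mul_sum]
    refine Finset.sum_congr rfl fun k _ => ?_
    rw [Matrix.mul_diagonal]
    simp only [wt, Matrix.of_apply]
    have a1 := Real.mul_self_sqrt (hu j)
    have a2 := Real.mul_self_sqrt (hv k).le
    have a3 := Real.mul_self_sqrt (hw i)
    have a4 := (hv k).ne'
    calc _ = (√(w i) * √(w i)) * (√(u j) * √(u j)) * (√(v k) * √(v k)) * H i j * Γ i j * F₁ j k *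
          F₂ k i * ((v' k - v k) / v k) := by ring
      _ = _ := by rw [a1, a2, a3]; field_simp
  have e3 : ∑ j, ∑ k, wt u F₁ v j k ^ 2 = ∑ j, ∑ k, u j * v k * F₁ j k ^ 2 := by
    refine Finset.sum_congr rfl fun j _ => Finset.sum_congr rfl fun k _ => ?_
    simp only [wt, Matrix.of_apply, mul_pow, Real.sq_sqrt (hu j), Real.sq_sqrt (hv k).le]
    ring
  have e4 : ∑ k, ∑ i, wt v F₂ w k i ^ 2 = ∑ i, ∑ k, w i * v k * F₂ k i ^ 2 := by
    rw [Finset.sum_comm]
    refine Finset.sum_congr rfl fun i _ => Finset.sum_congr rfl fun k _ => ?_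
    simp only [wt, Matrix.of_apply, mul_pow, Real.sq_sqrt (hw i), Real.sq_sqrt (hv k).le]
    ring
  rw [e2, e3, e4] at h2
  refine h2.trans (add_le_add ?_ ?_)
  · have d0 := dmid_nonneg F₁ F₂ u v' v w
    have s2 : √(1 + 1 : ℝ) ≤ 2 := by
      rw [Real.sqrt_le_iff]
      norm_num
    rw [div_le_iff₀ (by positivity)]
    calc √(1 + 1 : ℝ) * dmid F₁ F₂ u v' v w ≤ 2 * dmid F₁ F₂ u v' v w := by gcongr
      _ = _ := by field_simp
  · rw [Finset.mul_sum, Finset.sum_mul]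
    refine Finset.sum_le_sum fun i _ => ?_
    rw [Finset.mul_sum, Finset.sum_mul]
    refine Finset.sum_le_sum fun j _ => ?_
    have g2 : Γ i j ^ 2 ≤ (8 * α i j) ^ 2 := by
      rw [← sq_abs]
      exact pow_le_pow_left₀ (abs_nonneg _) (hΓ i j) 2
    have p1 := hu j
    have p2 := hw i
    simp only [Matrix.of_apply, mul_pow, Real.sq_sqrt p1, Real.sq_sqrt p2]
    calc _ ≤ γ / 2 * (w i * u j * H i j ^ 2 * (8 * α i j) ^ 2) *
          (√(∑ j, ∑ k, u j * v k * F₁ j k ^ 2) + √(∑ i, ∑ k, w i * v k * F₂ k i ^ 2)) := by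
          gcongr
      _ = _ := by ring

end SqLocal

open SqLocal in
/-- The square function estimate at one scale. -/
theorem sq_local : ∃ C : ℝ, 0 < C ∧
    ∀ (ι₀ ι₁ ι₂ : Type) [Fintype ι₀] [DecidableEq ι₀] [Fintype ι₁] [DecidableEq ι₁]
      [Fintype ι₂] [DecidableEq ι₂]
      (x₀ : ι₀ → ℝ) (x₁ : ι₁ → ℝ) (x₂ : ι₂ → ℝ) (H : Matrix ι₀ ι₁ ℝ) (F₁ : Matrix ι₁ ι₂ ℝ)
      (F₂ : Matrix ι₂ ι₀ ℝ) (σ S γ : ℝ) (χ : ι₀ → ι₁ → ℝ → ℝ) (α : ι₀ → ι₁ → ℝ),
      1 ≤ σ → 4 * σ ≤ S → 0 < γ → (∀ i₀ i₁, Measurable (χ i₀ i₁)) →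
      (∀ i₀ i₁ t, |χ i₀ i₁ t| ≤ α i₀ i₁ * lap S t) →
      ENNReal.ofReal |Form H F₁ F₂ x₀ x₁ x₂
          fun i₀ i₁ t => cv σ (χ i₀ i₁) t - cv (2 * σ) (χ i₀ i₁) t| ≤
        ENNReal.ofReal γ⁻¹ *
            Gatom F₁ F₂ x₁ x₂ x₀ (lap2 σ S) (lap σ) (lap (2 * σ)) (lap2 σ S)
          + ENNReal.ofReal (C * γ * ∑ i₀, ∑ i₁, α i₀ i₁ ^ 2 * H i₀ i₁ ^ 2 *
            (√(Mx2 x₁ x₂ (fun j k => F₁ j k ^ 2) (x₁ i₁) (-x₀ i₀ - x₁ i₁))
              + √(Mx2 x₀ x₂ (fun i k => F₂ k i ^ 2) (x₀ i₀) (-x₁ i₁ - x₀ i₀)))) := by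
  refine ⟨32 * 23, by norm_num, ?_⟩
  intro ι₀ ι₁ ι₂ _ _ _ _ _ _ x₀ x₁ x₂ H F₁ F₂ σ S γ χ α hσ h hγ hm hχ
  have hσ0 : 0 < σ := by linarith
  have hσS : σ ≤ S := by linarith
  have hS : 0 < S := by linarith
  have h2 : 0 < 2 * σ := by linarith
  have hW : Prof (lap2 σ S) := prof_cv hS (prof_lap hσ0)
  have hWc := hW.cont
  have hLc := continuous_lap (2 * σ)
  have hr := fun i₀ i₁ i₂ => rep hσ0 hσS (hm i₀ i₁) (hχ i₀ i₁) (x₀ i₀) (x₁ i₁) (x₂ i₂)
  have e1 : Form H F₁ F₂ x₀ x₁ x₂ (fun i₀ i₁ t => cv σ (χ i₀ i₁) t - cv (2 * σ) (χ i₀ i₁) t) =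
      ∫ p : ℝ × ℝ, ∑ i₀, ∑ i₁, ∑ i₂, H i₀ i₁ * F₁ i₁ i₂ * F₂ i₂ i₀ *
        (lap2 σ S (x₀ i₀ - (-p.1 - p.2)) * lap2 σ S (x₁ i₁ - p.1) *
          (χ i₀ i₁ (x₀ i₀ + x₁ i₁ + p.2) / WW σ S (x₀ i₀ + x₁ i₁ + p.2) *
            (lap σ (x₂ i₂ - p.2) - lap (2 * σ) (x₂ i₂ - p.2)))) := by
    rw [integral_finsetSum _ fun i₀ _ => integrable_finsetSum _ fun i₁ _ =>
      integrable_finsetSum _ fun i₂ _ => (hr i₀ i₁ i₂).1.const_mul _]
    refine Finset.sum_congr rfl fun i₀ _ => ?_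
    rw [integral_finsetSum _ fun i₁ _ =>
      integrable_finsetSum _ fun i₂ _ => (hr i₀ i₁ i₂).1.const_mul _]
    refine Finset.sum_congr rfl fun i₁ _ => ?_
    rw [integral_finsetSum _ fun i₂ _ => (hr i₀ i₁ i₂).1.const_mul _]
    refine Finset.sum_congr rfl fun i₂ _ => ?_
    rw [integral_const_mul, (hr i₀ i₁ i₂).2]
  let ΦB : ι₀ → ι₁ → ℝ → ℝ → ℝ → ℝ≥0∞ := fun i₀ i₁ a b c =>
    ENNReal.ofReal (lap2 σ S (x₀ i₀ - c) * lap2 σ S (x₁ i₁ - a) *
      √(∑ j, ∑ k, lap2 σ S (x₁ j - a) * lap (2 * σ) (x₂ k - b) * F₁ j k ^ 2))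
  let ΦC : ι₀ → ι₁ → ℝ → ℝ → ℝ → ℝ≥0∞ := fun i₀ i₁ a b c =>
    ENNReal.ofReal (lap2 σ S (x₁ i₁ - c) * lap2 σ S (x₀ i₀ - a) *
      √(∑ i, ∑ k, lap2 σ S (x₀ i - a) * lap (2 * σ) (x₂ k - b) * F₂ k i ^ 2))
  have hB : ∀ i₀ i₁, IV (ΦB i₀ i₁) ≤ ENNReal.ofReal
      (23 * √(Mx2 x₁ x₂ (fun j k => F₁ j k ^ 2) (x₁ i₁) (-x₀ i₀ - x₁ i₁))) := fun i₀ i₁ =>
    term_le hσ h (x₀ i₀) (x₁ i₁) x₁ x₂ (g := fun j k => F₁ j k ^ 2) fun _ _ => sq_nonneg _
  have hC : ∀ i₀ i₁, IV (fun a b c => ΦC i₀ i₁ c b a) ≤ ENNReal.ofReal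
      (23 * √(Mx2 x₀ x₂ (fun i k => F₂ k i ^ 2) (x₀ i₀) (-x₁ i₁ - x₀ i₀))) := fun i₀ i₁ => by
    rw [IV_swap]
    exact term_le hσ h (x₁ i₁) (x₀ i₀) x₀ x₂ (g := fun i k => F₂ k i ^ 2) fun _ _ => sq_nonneg _
  have mB : ∀ i₀ i₁, Measurable fun p : ℝ × ℝ => ΦB i₀ i₁ p.1 p.2 (-p.1 - p.2) := fun i₀ i₁ =>
    (Continuous.measurable (by fun_prop)).ennreal_ofReal
  have mC : ∀ i₀ i₁, Measurable fun p : ℝ × ℝ => ΦC i₀ i₁ (-p.1 - p.2) p.2 p.1 := fun i₀ i₁ =>
    (Continuous.measurable (by fun_prop)).ennreal_ofReal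
  have mS : ∀ i₀ i₁, Measurable fun p : ℝ × ℝ =>
      ENNReal.ofReal (32 * γ * α i₀ i₁ ^ 2 * H i₀ i₁ ^ 2) *
        (ΦB i₀ i₁ p.1 p.2 (-p.1 - p.2) + ΦC i₀ i₁ (-p.1 - p.2) p.2 p.1) := fun i₀ i₁ =>
    ((mB i₀ i₁).add (mC i₀ i₁)).const_mul _
  rw [e1, ← Real.enorm_eq_ofReal_abs]
  refine (enorm_integral_le_lintegral_enorm _).trans ?_
  calc _ ≤ ∫⁻ p : ℝ × ℝ, (ENNReal.ofReal γ⁻¹ * ENNReal.ofReal
          (dmid F₁ F₂ (ctr (lap2 σ S) x₁ p.1) (ctr (lap σ) x₂ p.2) (ctr (lap (2 * σ)) x₂ p.2)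
            (ctr (lap2 σ S) x₀ (-p.1 - p.2))) +
          ∑ i₀, ∑ i₁, ENNReal.ofReal (32 * γ * α i₀ i₁ ^ 2 * H i₀ i₁ ^ 2) *
            (ΦB i₀ i₁ p.1 p.2 (-p.1 - p.2) + ΦC i₀ i₁ (-p.1 - p.2) p.2 p.1)) := by
        refine lintegral_mono fun p => ?_
        have k := pointwise H F₁ F₂ (u := ctr (lap2 σ S) x₁ p.1) (v := ctr (lap (2 * σ)) x₂ p.2)
          (v' := ctr (lap σ) x₂ p.2) (w := ctr (lap2 σ S) x₀ (-p.1 - p.2))
          (fun i => (hW.pos _).le) (fun i => lap_pos h2 _) (fun i => (lap_pos hσ0 _).le)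
          (fun i => by
            have := lap_le_scale hσ0 (show σ ≤ 2 * σ by linarith) (x₂ i - p.2)
            rwa [mul_div_assoc, div_self hσ0.ne', mul_one] at this)
          (fun i => (hW.pos _).le)
          (fun i₀ i₁ => χ i₀ i₁ (x₀ i₀ + x₁ i₁ + p.2) / WW σ S (x₀ i₀ + x₁ i₁ + p.2)) α
          (fun i₀ i₁ => abs_Gam_le hσ0 hσS (hχ i₀ i₁) _) hγ
        simp only
        rw [Real.enorm_eq_ofReal_abs]
        refine (ENNReal.ofReal_le_ofReal k).trans (ENNReal.ofReal_add_le.trans (add_le_add ?_ ?_))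
        · rw [ENNReal.ofReal_mul (by positivity)]
        · have hp : ∀ a b c : ℝ, 0 ≤ lap2 σ S a * lap2 σ S b * √c := fun a b c =>
            mul_nonneg (mul_pos (hW.pos _) (hW.pos _)).le (Real.sqrt_nonneg _)
          simp only [ctr]
          rw [ENNReal.ofReal_sum_of_nonneg fun i₀ _ => Finset.sum_nonneg fun i₁ _ =>
            mul_nonneg (by positivity) (add_nonneg (hp _ _ _) (hp _ _ _))]
          refine Finset.sum_le_sum fun i₀ _ => ?_
          rw [ENNReal.ofReal_sum_of_nonneg fun i₁ _ =>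
            mul_nonneg (by positivity) (add_nonneg (hp _ _ _) (hp _ _ _))]
          refine Finset.sum_le_sum fun i₁ _ => ?_
          rw [ENNReal.ofReal_mul (by positivity), ENNReal.ofReal_add (hp _ _ _) (hp _ _ _)]
    _ = ENNReal.ofReal γ⁻¹ *
            Gatom F₁ F₂ x₁ x₂ x₀ (lap2 σ S) (lap σ) (lap (2 * σ)) (lap2 σ S) +
          ∑ i₀, ∑ i₁, ENNReal.ofReal (32 * γ * α i₀ i₁ ^ 2 * H i₀ i₁ ^ 2) *
            (IV (ΦB i₀ i₁) + IV (fun a b c => ΦC i₀ i₁ c b a)) := by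
        rw [lintegral_add_right _ (Finset.measurable_sum _ fun i₀ _ =>
          Finset.measurable_sum _ fun i₁ _ => mS i₀ i₁),
          lintegral_const_mul' _ _ ENNReal.ofReal_ne_top,
          lintegral_finsetSum _ fun i₀ _ => Finset.measurable_sum _ fun i₁ _ => mS i₀ i₁]
        congr 1
        refine Finset.sum_congr rfl fun i₀ _ => ?_
        rw [lintegral_finsetSum _ fun i₁ _ => mS i₀ i₁]
        refine Finset.sum_congr rfl fun i₁ _ => ?_
        rw [lintegral_const_mul' _ _ ENNReal.ofReal_ne_top, lintegral_add_left (mB i₀ i₁)]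
        rfl
    _ ≤ _ := by
        refine add_le_add le_rfl ?_
        rw [Finset.mul_sum, ENNReal.ofReal_sum_of_nonneg fun i₀ _ => by positivity]
        refine Finset.sum_le_sum fun i₀ _ => ?_
        rw [Finset.mul_sum, ENNReal.ofReal_sum_of_nonneg fun i₁ _ => by positivity]
        refine Finset.sum_le_sum fun i₁ _ => ?_
        refine (mul_le_mul_right (add_le_add (hB i₀ i₁) (hC i₀ i₁)) _).trans ?_
        rw [← ENNReal.ofReal_add (by positivity) (by positivity),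
          ← ENNReal.ofReal_mul (by positivity)]
        exact ENNReal.ofReal_le_ofReal (le_of_eq (by ring))

end Crest.Agent.R72
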