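import Crest.Agent.R72.Jensen
import Crest.Agent.R72.Mat2

set_option autoImplicit false

namespace Crest.Agent.R72

open Matrix MeasureTheory
open scoped ENNReal

variable {ι ι₀ ι₁ ι₂ : Type} [Fintype ι] [DecidableEq ι] [Fintype ι₀] [DecidableEq ι₀]
  [Fintype ι₁] [DecidableEq ι₁] [Fintype ι₂] [DecidableEq ι₂]

namespace StepAux

theorem lintegral_neg {ν : Measure ℝ} (hν : StepLaw ν) (g : ℝ → ℝ≥0∞) :
    ∫⁻ h, g (-h) ∂ν = ∫⁻ h, g h ∂ν := by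
  conv_rhs => rw [← hν.symm]
  exact (lintegral_map_equiv g (MeasurableEquiv.neg ℝ)).symm

theorem integral_neg' {ν : Measure ℝ} (hν : StepLaw ν) (g : ℝ → ℝ) :
    ∫ h, g (-h) ∂ν = ∫ h, g h ∂ν := by
  conv_rhs => rw [← hν.symm]
  exact (integral_map_equiv (MeasurableEquiv.neg ℝ) g).symm

omit [Fintype ι] [DecidableEq ι] in
theorem ctr_cvm_add (ν : Measure ℝ) (W : ℝ → ℝ) (x : ι → ℝ) (p : ℝ) (i : ι) :
    ctr (cvm ν W) x p i = ∫ h, ctr W x (p + h) i ∂ν := by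
  simp only [ctr, cvm, sub_sub]

omit [Fintype ι] [DecidableEq ι] in
theorem ctr_cvm_sub {ν : Measure ℝ} (hν : StepLaw ν) (W : ℝ → ℝ) (x : ι → ℝ) (p : ℝ) (i : ι) :
    ctr (cvm ν W) x p i = ∫ h, ctr W x (p - h) i ∂ν := by
  rw [ctr_cvm_add, ← integral_neg' hν]
  simp only [sub_eq_add_neg]

omit [Fintype ι] [DecidableEq ι] in
theorem ctr_nonneg {W : ℝ → ℝ} (hW : Prof W) (x : ι → ℝ) (p : ℝ) (i : ι) : 0 ≤ ctr W x p i :=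
  (hW.pos _).le

omit [DecidableEq ι] in
theorem lin_bdd {κ : Type} [Fintype κ] {W : ℝ → ℝ} (hW : Prof W) (x : κ → ℝ) (q : ℝ → ℝ)
    (c : κ → ι → ι → ℝ) : ∃ B, ∀ h a b, |∑ i, ctr W x (q h) i * c i a b| ≤ B := by
  obtain ⟨B, hB⟩ := hW.bdd
  have hB0 : 0 ≤ B := (hW.pos 0).le.trans (hB 0)
  refine ⟨∑ a, ∑ b, ∑ i, B * |c i a b|, fun h a b => ?_⟩
  calc |∑ i, ctr W x (q h) i * c i a b| ≤ ∑ i, B * |c i a b| := by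
        refine (Finset.abs_sum_le_sum_abs _ _).trans (Finset.sum_le_sum fun i _ => ?_)
        rw [abs_mul, abs_of_nonneg (ctr_nonneg hW x _ i)]
        exact mul_le_mul_of_nonneg_right (hB _) (abs_nonneg _)
    _ ≤ ∑ b, ∑ i, B * |c i a b| :=
        Finset.single_le_sum (f := fun b => ∑ i, B * |c i a b|)
          (fun _ _ => by positivity) (Finset.mem_univ b)
    _ ≤ _ := Finset.single_le_sum (f := fun a => ∑ b, ∑ i, B * |c i a b|)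
          (fun _ _ => by positivity) (Finset.mem_univ a)

theorem integrable_ctr {κ : Type} (ν : Measure ℝ) [IsProbabilityMeasure ν] {W : ℝ → ℝ}
    (hW : Prof W) (x : κ → ℝ) {q : ℝ → ℝ} (hq : Continuous q) (i : κ) :
    Integrable (fun h => ctr W x (q h) i) ν := by
  obtain ⟨B, hB⟩ := hW.bdd
  refine Integrable.of_bound (hW.cont.comp (continuous_const.sub hq)).aestronglyMeasurable B
    (Filter.Eventually.of_forall fun h => ?_)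
  rw [Real.norm_of_nonneg (ctr_nonneg hW x _ i)]
  exact hB _

theorem lin_integrable {κ : Type} [Fintype κ] (ν : Measure ℝ) [IsProbabilityMeasure ν]
    {W : ℝ → ℝ} (hW : Prof W) (x : κ → ℝ) {q : ℝ → ℝ} (hq : Continuous q) (c : κ → ℝ) :
    Integrable (fun h => ∑ i, ctr W x (q h) i * c i) ν :=
  integrable_finsetSum _ fun i _ => (integrable_ctr ν hW x hq i).mul_const _

theorem lin_integral {κ : Type} [Fintype κ] (ν : Measure ℝ) [IsProbabilityMeasure ν]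
    {W : ℝ → ℝ} (hW : Prof W) (x : κ → ℝ) {q : ℝ → ℝ} (hq : Continuous q) (c : κ → ℝ) :
    ∫ h, ∑ i, ctr W x (q h) i * c i ∂ν = ∑ i, (∫ h, ctr W x (q h) i ∂ν) * c i := by
  rw [integral_finsetSum _ fun i _ => (integrable_ctr ν hW x hq i).mul_const _]
  simp only [integral_mul_const]

theorem IV_lintegral (ν : Measure ℝ) [SFinite ν] {Φ : ℝ → ℝ → ℝ → ℝ → ℝ≥0∞}
    (hΦ : Measurable fun q : (ℝ × ℝ) × ℝ => Φ q.2 q.1.1 q.1.2 (-q.1.1 - q.1.2)) :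
    IV (fun p₀ p₁ p₂ => ∫⁻ h, Φ h p₀ p₁ p₂ ∂ν) = ∫⁻ h, IV (Φ h) ∂ν :=
  lintegral_lintegral_swap (f := fun (p : ℝ × ℝ) h => Φ h p.1 p.2 (-p.1 - p.2)) hΦ.aemeasurable

theorem measurable_IV {Φ : ℝ → ℝ → ℝ → ℝ → ℝ≥0∞}
    (hΦ : Measurable fun q : (ℝ × ℝ) × ℝ => Φ q.2 q.1.1 q.1.2 (-q.1.1 - q.1.2)) :
    Measurable fun h => IV (Φ h) :=
  hΦ.lintegral_prod_left'

theorem IV_add {Φ : ℝ → ℝ → ℝ → ℝ≥0∞} (Φ' : ℝ → ℝ → ℝ → ℝ≥0∞)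
    (hΦ : Measurable fun p : ℝ × ℝ => Φ p.1 p.2 (-p.1 - p.2)) :
    IV (fun p₀ p₁ p₂ => Φ p₀ p₁ p₂ + Φ' p₀ p₁ p₂) = IV Φ + IV Φ' :=
  lintegral_add_left hΦ _

theorem IV_const_mul (c : ℝ≥0∞) (hc : c ≠ ⊤) (Φ : ℝ → ℝ → ℝ → ℝ≥0∞) :
    IV (fun p₀ p₁ p₂ => c * Φ p₀ p₁ p₂) = c * IV Φ :=
  lintegral_const_mul' c _ hc

theorem lintegral_prof {W : ℝ → ℝ} (hW : Prof W) (x : ℝ) :
    ∫⁻ p, ENNReal.ofReal (W (x - p)) = 1 := by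
  rw [lintegral_sub_left_eq_self (fun y => ENNReal.ofReal (W y)) x,
    ← ofReal_integral_eq_lintegral_ofReal hW.intg (Filter.Eventually.of_forall fun y => (hW.pos y).le),
    hW.int_one, ENNReal.ofReal_one]

omit [DecidableEq ι₀] [DecidableEq ι₁] in
theorem IV_cub {W₀ W₁ : ℝ → ℝ} (h₀ : Prof W₀) (h₁ : Prof W₁) (F : Matrix ι₀ ι₁ ℝ) (x₀ : ι₀ → ℝ)
    (x₁ : ι₁ → ℝ) :
    IV (fun p₀ p₁ _ => ENNReal.ofReal (∑ i, ∑ j, ctr W₀ x₀ p₀ i * ctr W₁ x₁ p₁ j * |F i j| ^ 3)) =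
      ENNReal.ofReal (cub F) := by
  have hm₀ : ∀ x : ℝ, Measurable fun p => ENNReal.ofReal (W₀ (x - p)) := fun x =>
    (ENNReal.continuous_ofReal.comp (h₀.cont.comp (by fun_prop))).measurable
  have hm₁ : ∀ x : ℝ, Measurable fun p => ENNReal.ofReal (W₁ (x - p)) := fun x =>
    (ENNReal.continuous_ofReal.comp (h₁.cont.comp (by fun_prop))).measurable
  have h1 : ∀ p : ℝ × ℝ,
      ENNReal.ofReal (∑ i, ∑ j, ctr W₀ x₀ p.1 i * ctr W₁ x₁ p.2 j * |F i j| ^ 3) =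
      ∑ i, ∑ j, ENNReal.ofReal (W₀ (x₀ i - p.1)) * ENNReal.ofReal (W₁ (x₁ j - p.2)) *
        ENNReal.ofReal (|F i j| ^ 3) := by
    intro p
    have hn : ∀ i j, 0 ≤ ctr W₀ x₀ p.1 i * ctr W₁ x₁ p.2 j := fun i j =>
      mul_nonneg (ctr_nonneg h₀ _ _ _) (ctr_nonneg h₁ _ _ _)
    rw [ENNReal.ofReal_sum_of_nonneg fun i _ =>
      Finset.sum_nonneg fun j _ => mul_nonneg (hn i j) (by positivity)]
    refine Finset.sum_congr rfl fun i _ => ?_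
    rw [ENNReal.ofReal_sum_of_nonneg fun j _ => mul_nonneg (hn i j) (by positivity)]
    refine Finset.sum_congr rfl fun j _ => ?_
    rw [ENNReal.ofReal_mul (hn i j), ENNReal.ofReal_mul (ctr_nonneg h₀ _ _ _)]
    rfl
  have hm : ∀ i j, Measurable fun p : ℝ × ℝ =>
      ENNReal.ofReal (W₀ (x₀ i - p.1)) * ENNReal.ofReal (W₁ (x₁ j - p.2)) := fun i j =>
    ((hm₀ _).comp measurable_fst).mul ((hm₁ _).comp measurable_snd)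
  simp only [IV, h1]
  rw [lintegral_finsetSum _ fun i _ => Finset.measurable_sum _ fun j _ => (hm i j).mul_const _,
    cub, ENNReal.ofReal_sum_of_nonneg fun i _ => by positivity]
  refine Finset.sum_congr rfl fun i _ => ?_
  rw [lintegral_finsetSum _ fun j _ => (hm i j).mul_const _,
    ENNReal.ofReal_sum_of_nonneg fun j _ => by positivity]
  refine Finset.sum_congr rfl fun j _ => ?_
  rw [lintegral_mul_const _ (hm i j), Measure.volume_eq_prod,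
    lintegral_prod_mul (hm₀ _).aemeasurable (hm₁ _).aemeasurable, lintegral_prof h₀,
    lintegral_prof h₁, one_mul, one_mul]

/-- Joint measurability in three real variables. -/
def M3 (Ψ : ℝ → ℝ → ℝ → ℝ≥0∞) : Prop := Measurable fun q : ℝ × ℝ × ℝ => Ψ q.1 q.2.1 q.2.2

theorem M3.cp {Ψ : ℝ → ℝ → ℝ → ℝ≥0∞} (hΨ : M3 Ψ) {α : Type} [MeasurableSpace α] (a b c : α → ℝ)
    (ha : Measurable a := by fun_prop) (hb : Measurable b := by fun_prop)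
    (hc : Measurable c := by fun_prop) : Measurable fun x => Ψ (a x) (b x) (c x) :=
  Measurable.comp (g := fun q : ℝ × ℝ × ℝ => Ψ q.1 q.2.1 q.2.2) (f := fun x => (a x, b x, c x))
    hΨ (ha.prodMk (hb.prodMk hc))

theorem M3.of_cont {f : ℝ → ℝ → ℝ → ℝ}
    (hf : Continuous fun q : ℝ × ℝ × ℝ => f q.1 q.2.1 q.2.2) :
    M3 fun a b c => ENNReal.ofReal (f a b c) :=
  (ENNReal.continuous_ofReal.comp hf).measurable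

theorem abs_outer {ν : Measure ℝ} (hν : StepLaw ν) {Ψ : ℝ → ℝ → ℝ → ℝ≥0∞} (hΨ : M3 Ψ) :
    IV (fun p₀ p₁ p₂ => ∫⁻ h, Ψ (p₀ + h) p₁ (p₂ - h) ∂ν) = IV Ψ := by
  have := hν.prob
  rw [IV_lintegral ν (Φ := fun h p₀ p₁ p₂ => Ψ (p₀ + h) p₁ (p₂ - h))
    (hΨ.cp (fun q : (ℝ × ℝ) × ℝ => q.1.1 + q.2) (fun q => q.1.2) fun q => -q.1.1 - q.1.2 - q.2)]
  have : ∀ h, IV (fun p₀ p₁ p₂ => Ψ (p₀ + h) p₁ (p₂ - h)) = IV Ψ := fun h => by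
    rw [← IV_shift Ψ h 0]
    simp only [add_zero, sub_zero]
  simp [this]

theorem abs_add {a b c d : ℝ → ℝ → ℝ → ℝ≥0∞} {s t : ℝ≥0∞} (hs : s ≠ ⊤) (ht : t ≠ ⊤)
    (ha : Measurable fun p : ℝ × ℝ => a p.1 p.2 (-p.1 - p.2))
    (hc : Measurable fun p : ℝ × ℝ => c p.1 p.2 (-p.1 - p.2))
    (h : ∀ p₀ p₁ p₂, a p₀ p₁ p₂ + s * b p₀ p₁ p₂ + t * c p₀ p₁ p₂ ≤ d p₀ p₁ p₂) :
    IV a + s * IV b + t * IV c ≤ IV d := by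
  unfold IV
  rw [← lintegral_const_mul' _ _ hs, ← lintegral_const_mul' _ _ ht, ← lintegral_add_left ha,
    ← lintegral_add_right _ (hc.const_mul t)]
  exact lintegral_mono fun p => h _ _ _

theorem abs_mixed {ν : Measure ℝ} (hν : StepLaw ν) {Ψ A B : ℝ → ℝ → ℝ → ℝ≥0∞} (hΨ : M3 Ψ)
    (hA : M3 A) (hB : M3 B)
    (hmix : ∀ p₀ p₀' p₁ p₂ p₂', Ψ p₀' p₁ p₂ + Ψ p₀ p₁ p₂' ≤
      Ψ p₀ p₁ p₂ + Ψ p₀' p₁ p₂' + 3 * (A p₀' p₀ p₁ + B p₂' p₂ p₁)) :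
    IV (fun p₀ p₁ p₂ => ∫⁻ h, Ψ p₀ (p₁ + h) p₂ ∂ν) ≤
      IV Ψ + 3 / 2 * ((∫⁻ p : ℝ × ℝ, ∫⁻ h, A (p.1 + h) p.1 p.2 ∂ν) +
        ∫⁻ p : ℝ × ℝ, ∫⁻ h, B (p.1 + h) p.1 p.2 ∂ν) := by
  have := hν.prob
  have mT := hΨ.cp (fun q : (ℝ × ℝ) × ℝ => q.1.1) (fun q => q.1.2 + q.2) fun q => -q.1.1 - q.1.2
  have mA := hA.cp (fun q : (ℝ × ℝ) × ℝ => q.1.1 + q.2) (fun q => q.1.1) fun q => q.1.2
  have mB := hB.cp (fun q : (ℝ × ℝ) × ℝ => q.1.1 + q.2) (fun q => q.1.1) fun q => q.1.2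
  rw [IV_lintegral ν (Φ := fun h p₀ p₁ p₂ => Ψ p₀ (p₁ + h) p₂) mT]
  obtain ⟨T, hT⟩ : ∃ T : ℝ → ℝ≥0∞, ∀ h, T h = IV fun p₀ p₁ p₂ => Ψ p₀ (p₁ + h) p₂ :=
    ⟨_, fun _ => rfl⟩
  obtain ⟨A', hA'⟩ : ∃ T : ℝ → ℝ≥0∞, ∀ h, T h = IV fun p₀ p₁ _ => A (p₀ + h) p₀ p₁ :=
    ⟨_, fun _ => rfl⟩
  obtain ⟨B', hB'⟩ : ∃ T : ℝ → ℝ≥0∞, ∀ h, T h = IV fun p₀ p₁ _ => B (p₀ + h) p₀ p₁ :=
    ⟨_, fun _ => rfl⟩
  have hTm : Measurable T := by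
    rw [funext hT]
    exact measurable_IV (Φ := fun h p₀ p₁ p₂ => Ψ p₀ (p₁ + h) p₂) mT
  have hAm : Measurable A' := by
    rw [funext hA']
    exact measurable_IV (Φ := fun h p₀ p₁ _ => A (p₀ + h) p₀ p₁) mA
  have hAi : ∫⁻ p : ℝ × ℝ, ∫⁻ h, A (p.1 + h) p.1 p.2 ∂ν = ∫⁻ h, A' h ∂ν := by
    simp only [hA']
    exact IV_lintegral ν (Φ := fun h p₀ p₁ _ => A (p₀ + h) p₀ p₁) mA
  have hBi : ∫⁻ p : ℝ × ℝ, ∫⁻ h, B (p.1 + h) p.1 p.2 ∂ν = ∫⁻ h, B' (-h) ∂ν := by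
    rw [lintegral_neg hν B']
    simp only [hB']
    exact IV_lintegral ν (Φ := fun h p₀ p₁ _ => B (p₀ + h) p₀ p₁) mB
  have step2 : ∀ h, T h + T (-h) ≤ 2 * IV Ψ + 3 * (A' h + B' (-h)) := by
    intro h
    have e1 : T h = IV fun p₀ p₁ p₂ => Ψ (p₀ + h) p₁ p₂ := by
      rw [← IV_shift (fun p₀ p₁ p₂ => Ψ (p₀ + h) p₁ p₂) (-h) h]
      simp [hT]
    have e2 : T (-h) = IV fun p₀ p₁ p₂ => Ψ p₀ p₁ (p₂ - h) := by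
      rw [← IV_shift (fun p₀ p₁ p₂ => Ψ p₀ p₁ (p₂ - h)) 0 (-h)]
      simp [hT]
    have e3 : IV Ψ = IV fun p₀ p₁ p₂ => Ψ (p₀ + h) p₁ (p₂ - h) := by
      rw [← IV_shift Ψ h 0]
      simp only [add_zero, sub_zero]
    have e4 : B' (-h) = IV fun _ p₁ p₂ => B (p₂ - h) p₂ p₁ := by
      rw [← IV_swap]
      simp only [hB', sub_eq_add_neg]
    have mA' := hA.cp (fun p : ℝ × ℝ => p.1 + h) (fun p => p.1) fun p => p.2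
    have m3 := hΨ.cp (fun p : ℝ × ℝ => p.1) (fun p => p.2) fun p => -p.1 - p.2
    have m4 : Measurable fun p : ℝ × ℝ => Ψ p.1 p.2 (-p.1 - p.2) + Ψ (p.1 + h) p.2 (-p.1 - p.2 - h) :=
      m3.add (hΨ.cp (fun p : ℝ × ℝ => p.1 + h) (fun p => p.2) fun p => -p.1 - p.2 - h)
    have m5 := hΨ.cp (fun p : ℝ × ℝ => p.1 + h) (fun p => p.2) fun p => -p.1 - p.2
    rw [two_mul, e1, e2, e4, hA']
    nth_rw 2 [e3]
    unfold IV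
    rw [← lintegral_add_left m5, ← lintegral_add_left m3, ← lintegral_add_left mA',
      ← lintegral_const_mul' _ _ (by simp), ← lintegral_add_left m4]
    exact lintegral_mono fun p => hmix _ _ _ _ _
  have step3 : 2 * ∫⁻ h, T h ∂ν ≤ 2 * (IV Ψ + 3 / 2 * (∫⁻ h, A' h ∂ν + ∫⁻ h, B' (-h) ∂ν)) := by
    have h32 : (2 : ℝ≥0∞) * (3 / 2) = 3 := ENNReal.mul_div_cancel (by simp) (by simp)
    rw [mul_add, ← mul_assoc, h32, two_mul]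
    nth_rw 2 [← lintegral_neg hν T]
    rw [← lintegral_add_left hTm, ← lintegral_add_left hAm, ← lintegral_const_mul' _ _ (by simp)]
    refine (lintegral_mono step2).trans (le_of_eq ?_)
    rw [lintegral_add_left measurable_const]
    simp
  rw [hAi, hBi]
  simp only [← hT]
  exact (ENNReal.mul_le_mul_iff_right (by simp) (by simp)).1 step3

theorem M3_Psi (F : Matrix ι₀ ι₁ ℝ) (G : Matrix ι₁ ι₂ ℝ) (x₀ : ι₀ → ℝ) (x₁ : ι₁ → ℝ) (x₂ : ι₂ → ℝ)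
    {W₀ W₁ W₂ : ℝ → ℝ} (h₀ : Prof W₀) (h₁ : Prof W₁) (h₂ : Prof W₂) :
    M3 fun a b c => ENNReal.ofReal (Psi F G (ctr W₀ x₀ a) (ctr W₁ x₁ b) (ctr W₂ x₂ c)) :=
  M3.of_cont (continuous_Psi F G
    (continuous_ctr h₀.cont x₀ (p := fun q : ℝ × ℝ × ℝ => q.1) (by fun_prop))
    (continuous_ctr h₁.cont x₁ (p := fun q : ℝ × ℝ × ℝ => q.2.1) (by fun_prop))
    (continuous_ctr h₂.cont x₂ (p := fun q : ℝ × ℝ × ℝ => q.2.2) (by fun_prop)))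

theorem M3_dmid (F : Matrix ι₀ ι₁ ℝ) (G : Matrix ι₁ ι₂ ℝ) (x₀ : ι₀ → ℝ) (x₁ : ι₁ → ℝ)
    (x₂ : ι₂ → ℝ) {W₀ W₁ W₁' W₂ : ℝ → ℝ} (h₀ : Prof W₀) (h₁ : Prof W₁) (h₁' : Prof W₁')
    (h₂ : Prof W₂) : M3 fun a b c =>
      ENNReal.ofReal (dmid F G (ctr W₀ x₀ a) (ctr W₁ x₁ b) (ctr W₁' x₁ b) (ctr W₂ x₂ c)) :=
  M3.of_cont (continuous_dmid F G
    (continuous_ctr h₀.cont x₀ (p := fun q : ℝ × ℝ × ℝ => q.1) (by fun_prop))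
    (continuous_ctr h₁.cont x₁ (p := fun q : ℝ × ℝ × ℝ => q.2.1) (by fun_prop))
    (continuous_ctr h₁'.cont x₁ (p := fun q : ℝ × ℝ × ℝ => q.2.1) (by fun_prop))
    (continuous_ctr h₂.cont x₂ (p := fun q : ℝ × ℝ × ℝ => q.2.2) (by fun_prop)))

theorem M3_dout (F : Matrix ι₀ ι₁ ℝ) (x₀ : ι₀ → ℝ) (x₁ : ι₁ → ℝ) {W₀ W₁ : ℝ → ℝ} (h₀ : Prof W₀)
    (h₁ : Prof W₁) :
    M3 fun a b c => ENNReal.ofReal (dout F (ctr W₀ x₀ a) (ctr W₀ x₀ b) (ctr W₁ x₁ c)) :=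
  M3.of_cont (continuous_dout F
    (continuous_ctr h₀.cont x₀ (p := fun q : ℝ × ℝ × ℝ => q.1) (by fun_prop))
    (continuous_ctr h₀.cont x₀ (p := fun q : ℝ × ℝ × ℝ => q.2.1) (by fun_prop))
    (continuous_ctr h₁.cont x₁ (p := fun q : ℝ × ℝ × ℝ => q.2.2) (by fun_prop)))

theorem M3_Npure (F : Matrix ι₀ ι₁ ℝ) (x₀ : ι₀ → ℝ) (x₁ : ι₁ → ℝ) {W₀ W₁ : ℝ → ℝ} (h₀ : Prof W₀)
    (h₁ : Prof W₁) :
    M3 fun a b _ => ENNReal.ofReal (Npure F (ctr W₀ x₀ a) (ctr W₁ x₁ b)) :=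
  M3.of_cont (f := fun a b _ => Npure F (ctr W₀ x₀ a) (ctr W₁ x₁ b)) (continuous_Npure F
    (continuous_ctr h₀.cont x₀ (p := fun q : ℝ × ℝ × ℝ => q.1) (by fun_prop))
    (continuous_ctr h₁.cont x₁ (p := fun q : ℝ × ℝ × ℝ => q.2.1) (by fun_prop)))

end StepAux

open StepAux

variable (F : Matrix ι₀ ι₁ ℝ) (G : Matrix ι₁ ι₂ ℝ) (x₀ : ι₀ → ℝ) (x₁ : ι₁ → ℝ) (x₂ : ι₂ → ℝ)
  {W₀ W₁ W₂ : ℝ → ℝ} {ν : Measure ℝ}

theorem Theta_swap (W₀ W₁ W₂ : ℝ → ℝ) :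
    Theta F G x₀ x₁ x₂ W₀ W₁ W₂ = Theta Gᵀ Fᵀ x₂ x₁ x₀ W₂ W₁ W₀ := by
  rw [Theta, Theta, ← IV_swap]
  simp only [Psi_swap F G]

theorem Theta_zero (W₀ W₁ W₂ : ℝ → ℝ) :
    Theta F (0 : Matrix ι₁ ι₂ ℝ) x₀ x₁ x₂ W₀ W₁ W₂ = NN F x₀ x₁ W₀ W₁ := by
  simp only [Theta, Psi_zero]
  rfl

theorem NN_transpose (W₀ W₁ : ℝ → ℝ) : NN F x₀ x₁ W₀ W₁ = NN Fᵀ x₁ x₀ W₁ W₀ := by
  rw [NN, NN, Measure.volume_eq_prod, ← lintegral_prod_swap]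
  simp only [Npure_transpose F, Prod.fst_swap, Prod.snd_swap]

/-- Step in the two outer weights. -/
theorem step_outer (hν : StepLaw ν) (h₀ : Prof W₀) (h₁ : Prof W₁) (h₂ : Prof W₂) :
    Theta F G x₀ x₁ x₂ (cvm ν W₀) W₁ (cvm ν W₂) ≤ Theta F G x₀ x₁ x₂ W₀ W₁ W₂ := by
  have := hν.prob
  have key : ∀ p₀ p₁ p₂, ENNReal.ofReal
      (Psi F G (ctr (cvm ν W₀) x₀ p₀) (ctr W₁ x₁ p₁) (ctr (cvm ν W₂) x₂ p₂)) ≤
      ∫⁻ h, ENNReal.ofReal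
        (Psi F G (ctr W₀ x₀ (p₀ + h)) (ctr W₁ x₁ p₁) (ctr W₂ x₂ (p₂ - h))) ∂ν := by
    intro p₀ p₁ p₂
    refine le_trans le_self_add (jensen_gap ν
      (P := fun h => Smat F G (ctr W₀ x₀ (p₀ + h)) (ctr W₁ x₁ p₁) (ctr W₂ x₂ (p₂ - h)))
      ((continuous_Gram F (continuous_ctr h₀.cont x₀ (by fun_prop)) continuous_const).add
        (continuous_Gram Gᵀ (continuous_ctr h₂.cont x₂ (by fun_prop)) continuous_const))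
      (fun h => Smat_psd _ _ _ _ _) ?_ fun a b => ?_)
    · simp only [Smat, Matrix.add_apply, Gram_apply _ (ctr_nonneg h₀ _ _),
        Gram_apply _ (ctr_nonneg h₂ _ _)]
      obtain ⟨B, hB⟩ := lin_bdd h₀ x₀ (fun h => p₀ + h) fun i a b =>
        √(ctr W₁ x₁ p₁ a) * F i a * (√(ctr W₁ x₁ p₁ b) * F i b)
      obtain ⟨B', hB'⟩ := lin_bdd h₂ x₂ (fun h => p₂ - h) fun i a b =>
        √(ctr W₁ x₁ p₁ a) * Gᵀ i a * (√(ctr W₁ x₁ p₁ b) * Gᵀ i b)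
      exact ⟨B + B', fun h a b => (abs_add_le _ _).trans (add_le_add (hB h a b) (hB' h a b))⟩
    · simp only [Smat, Matrix.add_apply, Gram_apply _ (ctr_nonneg h₀ _ _),
        Gram_apply _ (ctr_nonneg h₂ _ _), Gram_apply _ (ctr_nonneg (h₀.cvm hν) _ _),
        Gram_apply _ (ctr_nonneg (h₂.cvm hν) _ _)]
      rw [integral_add (lin_integrable ν h₀ x₀ (by fun_prop) _)
        (lin_integrable ν h₂ x₂ (by fun_prop) _), lin_integral ν h₀ x₀ (by fun_prop),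
        lin_integral ν h₂ x₂ (by fun_prop)]
      simp only [← ctr_cvm_add, ← ctr_cvm_sub hν]
  refine le_trans ?_ (abs_outer hν (M3_Psi F G x₀ x₁ x₂ h₀ h₁ h₂)).le
  exact lintegral_mono fun p => key p.1 p.2 _

/-- Step in the middle weight. -/
theorem step_mid (hν : StepLaw ν) (h₀ : Prof W₀) (h₁ : Prof W₁) (h₂ : Prof W₂) :
    Theta F G x₀ x₁ x₂ W₀ (cvm ν W₁) W₂ + 1 / 80 * Gmid ν F G x₀ x₁ x₂ W₀ W₁ W₂
        + 1 / 16 * Gatom F G x₀ x₁ x₂ W₀ W₁ (cvm ν W₁) W₂ ≤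
      Theta F G x₀ x₁ x₂ W₀ W₁ W₂ + 3 / 2 * (Gout ν F x₀ x₁ W₀ W₁ + Gout ν Gᵀ x₂ x₁ W₂ W₁) := by
  have := hν.prob
  have key : ∀ p₀ p₁ p₂, ENNReal.ofReal
      (Psi F G (ctr W₀ x₀ p₀) (ctr (cvm ν W₁) x₁ p₁) (ctr W₂ x₂ p₂)) +
      1 / 80 * ∫⁻ h, ENNReal.ofReal
        (dmid F G (ctr W₀ x₀ p₀) (ctr W₁ x₁ (p₁ + h)) (ctr W₁ x₁ p₁) (ctr W₂ x₂ p₂)) ∂ν +
      1 / 16 * ENNReal.ofReal
        (dmid F G (ctr W₀ x₀ p₀) (ctr W₁ x₁ p₁) (ctr (cvm ν W₁) x₁ p₁) (ctr W₂ x₂ p₂)) ≤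
      ∫⁻ h, ENNReal.ofReal (Psi F G (ctr W₀ x₀ p₀) (ctr W₁ x₁ (p₁ + h)) (ctr W₂ x₂ p₂)) ∂ν := by
    intro p₀ p₁ p₂
    have := jensen_step hν
      (P := fun h => Pmat F G (ctr W₀ x₀ p₀) (ctr W₁ x₁ (p₁ + h)) (ctr W₂ x₂ p₂))
      (M := Pmat F G (ctr W₀ x₀ p₀) (ctr (cvm ν W₁) x₁ p₁) (ctr W₂ x₂ p₂))
      (continuous_Pmat F G continuous_const (continuous_ctr h₁.cont x₁ (by fun_prop))
        continuous_const) (fun h => Pmat_psd _ _ _ _ _) ?_ fun a b => ?_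
    · simpa only [Psi_eq_Pmat, dmid, add_zero] using this
    · simp only [Pmat_apply _ _ _ (ctr_nonneg h₁ _ _)]
      exact lin_bdd h₁ x₁ (fun h => p₁ + h) _
    · simp only [Pmat_apply _ _ _ (ctr_nonneg h₁ _ _), Pmat_apply _ _ _ (ctr_nonneg (h₁.cvm hν) _ _)]
      rw [lin_integral ν h₁ x₁ (by fun_prop)]
      simp only [← ctr_cvm_add]
  refine (abs_add (by simp) (by simp)
    ((M3_Psi F G x₀ x₁ x₂ h₀ (h₁.cvm hν) h₂).cp (fun p : ℝ × ℝ => p.1) (fun p => p.2)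
      fun p => -p.1 - p.2)
    ((M3_dmid F G x₀ x₁ x₂ h₀ h₁ (h₁.cvm hν) h₂).cp (fun p : ℝ × ℝ => p.1) (fun p => p.2)
      fun p => -p.1 - p.2) key).trans ?_
  refine abs_mixed hν (M3_Psi F G x₀ x₁ x₂ h₀ h₁ h₂) (M3_dout F x₀ x₁ h₀ h₁)
    (M3_dout Gᵀ x₂ x₁ h₂ h₁) fun p₀ p₀' p₁ p₂ p₂' => ?_
  have hmix := mixed (Gram_psd F (ctr W₀ x₀ p₀) (ctr W₁ x₁ p₁))
    (Gram_psd F (ctr W₀ x₀ p₀') (ctr W₁ x₁ p₁))
    (Gram_psd Gᵀ (ctr W₂ x₂ p₂) (ctr W₁ x₁ p₁)) (Gram_psd Gᵀ (ctr W₂ x₂ p₂') (ctr W₁ x₁ p₁))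
  rw [← ENNReal.ofReal_add (Psi_nonneg _ _ _ _ _) (Psi_nonneg _ _ _ _ _),
    ← ENNReal.ofReal_add (Psi_nonneg _ _ _ _ _) (Psi_nonneg _ _ _ _ _),
    ← ENNReal.ofReal_add (dout_nonneg _ _ _ _) (dout_nonneg _ _ _ _),
    ← ENNReal.ofReal_ofNat 3, ← ENNReal.ofReal_mul (by norm_num),
    ← ENNReal.ofReal_add (add_nonneg (Psi_nonneg _ _ _ _ _) (Psi_nonneg _ _ _ _ _))
      (mul_nonneg (by norm_num) (add_nonneg (dout_nonneg _ _ _ _) (dout_nonneg _ _ _ _)))]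
  exact ENNReal.ofReal_le_ofReal hmix

/-- Step of the pure term in the left weight. -/
theorem step_pure (hν : StepLaw ν) (h₀ : Prof W₀) (h₁ : Prof W₁) :
    NN F x₀ x₁ (cvm ν W₀) W₁ + 1 / 80 * Gout ν F x₀ x₁ W₀ W₁ ≤ NN F x₀ x₁ W₀ W₁ := by
  have := hν.prob
  have key : ∀ p₀ p₁, ENNReal.ofReal (Npure F (ctr (cvm ν W₀) x₀ p₀) (ctr W₁ x₁ p₁)) +
      1 / 80 * ∫⁻ h, ENNReal.ofReal
        (dout F (ctr W₀ x₀ (p₀ + h)) (ctr W₀ x₀ p₀) (ctr W₁ x₁ p₁)) ∂ν ≤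
      ∫⁻ h, ENNReal.ofReal (Npure F (ctr W₀ x₀ (p₀ + h)) (ctr W₁ x₁ p₁)) ∂ν := by
    intro p₀ p₁
    have := jensen_step hν (P := fun h => Gram F (ctr W₀ x₀ (p₀ + h)) (ctr W₁ x₁ p₁))
      (M := Gram F (ctr (cvm ν W₀) x₀ p₀) (ctr W₁ x₁ p₁))
      (continuous_Gram F (continuous_ctr h₀.cont x₀ (by fun_prop)) continuous_const)
      (fun h => Gram_psd _ _ _) ?_ fun a b => ?_
    · simpa only [Npure, dout, add_zero] using le_trans le_self_add this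
    · simp only [Gram_apply _ (ctr_nonneg h₀ _ _)]
      exact lin_bdd h₀ x₀ (fun h => p₀ + h) _
    · simp only [Gram_apply _ (ctr_nonneg h₀ _ _), Gram_apply _ (ctr_nonneg (h₀.cvm hν) _ _)]
      rw [lin_integral ν h₀ x₀ (by fun_prop)]
      simp only [← ctr_cvm_add]
  have m1 := (M3_Npure F x₀ x₁ (h₀.cvm hν) h₁).cp (fun p : ℝ × ℝ => p.1) (fun p => p.2)
    fun p => p.1
  refine le_trans ?_ (abs_outer hν (M3_Npure F x₀ x₁ h₀ h₁)).le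
  unfold NN Gout IV
  rw [← lintegral_const_mul' _ _ (by simp), ← lintegral_add_left m1]
  exact lintegral_mono fun p => key p.1 p.2

theorem Theta_le (h₀ : Prof W₀) (h₁ : Prof W₁) (h₂ : Prof W₂) {c : ℝ} (hc : 0 ≤ c)
    (hc₀ : ∀ p, ∑ i, W₀ (x₀ i - p) ≤ c) (hc₁ : ∀ p, ∑ i, W₁ (x₁ i - p) ≤ c)
    (hc₂ : ∀ p, ∑ i, W₂ (x₂ i - p) ≤ c) :
    Theta F G x₀ x₁ x₂ W₀ W₁ W₂ ≤ ENNReal.ofReal (2 * c * (cub F + cub G)) := by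
  have hcub : ∀ {κ κ' : Type} [Fintype κ] [Fintype κ'] (H : Matrix κ κ' ℝ), 0 ≤ cub H :=
    fun H => by unfold cub; positivity
  have h2 : √2 ≤ 2 := by
    rw [Real.sqrt_le_left (by norm_num)]; norm_num
  have hn : ∀ {κ κ' : Type} [Fintype κ] [Fintype κ'] (H : Matrix κ κ' ℝ) {u : κ → ℝ} {v : κ' → ℝ},
      (∀ i, 0 ≤ u i) → (∀ j, 0 ≤ v j) → 0 ≤ ∑ i, ∑ j, u i * v j * |H i j| ^ 3 :=
    fun H u v hu hv => Finset.sum_nonneg fun i _ => Finset.sum_nonneg fun j _ =>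
      mul_nonneg (mul_nonneg (hu i) (hv j)) (by positivity)
  have m1 : Measurable fun p : ℝ × ℝ =>
      ENNReal.ofReal (∑ i, ∑ j, ctr W₀ x₀ p.1 i * ctr W₁ x₁ p.2 j * |F i j| ^ 3) := by
    have := h₀.cont
    have := h₁.cont
    refine (ENNReal.continuous_ofReal.comp ?_).measurable
    unfold ctr
    fun_prop
  rw [ENNReal.ofReal_mul (by positivity), ENNReal.ofReal_add (hcub F) (hcub G),
    ← IV_cub h₀ h₁ F x₀ x₁, ← IV_cub h₁ h₂ G x₁ x₂, ← IV_cyc fun p₀ p₁ _ =>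
      ENNReal.ofReal (∑ i, ∑ j, ctr W₁ x₁ p₀ i * ctr W₂ x₂ p₁ j * |G i j| ^ 3),
    ← IV_add (Φ := fun p₀ p₁ _ =>
      ENNReal.ofReal (∑ i, ∑ j, ctr W₀ x₀ p₀ i * ctr W₁ x₁ p₁ j * |F i j| ^ 3)) _ m1,
    ← IV_const_mul _ ENNReal.ofReal_ne_top]
  refine IV_mono fun p₀ p₁ => ?_
  generalize -p₀ - p₁ = p₂
  have a1 := hn F (ctr_nonneg h₀ x₀ p₀) (ctr_nonneg h₁ x₁ p₁)
  have a2 := hn G (ctr_nonneg h₁ x₁ p₁) (ctr_nonneg h₂ x₂ p₂)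
  rw [← ENNReal.ofReal_add a1 a2, ← ENNReal.ofReal_mul (by positivity)]
  refine ENNReal.ofReal_le_ofReal ((Psi_le F G (ctr_nonneg h₀ x₀ p₀) (ctr_nonneg h₁ x₁ p₁)
    (ctr_nonneg h₂ x₂ p₂) (hc₀ p₀) (hc₁ p₁) (hc₂ p₂)).trans ?_)
  exact mul_le_mul_of_nonneg_right (mul_le_mul_of_nonneg_right h2 hc) (add_nonneg a1 a2)

theorem NN_le (h₀ : Prof W₀) (h₁ : Prof W₁) {c : ℝ} (hc : 0 ≤ c)
    (hc₀ : ∀ p, ∑ i, W₀ (x₀ i - p) ≤ c) (hc₁ : ∀ p, ∑ i, W₁ (x₁ i - p) ≤ c) :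
    NN F x₀ x₁ W₀ W₁ ≤ ENNReal.ofReal (2 * c * cub F) := by
  have := Theta_le F (0 : Matrix ι₁ Empty ℝ) x₀ x₁ (fun e => e.elim) h₀ h₁ h₀ hc hc₀ hc₁
    (fun p => by simpa using hc)
  rw [Theta_zero] at this
  simpa [cub] using this

end Crest.Agent.R72
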