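import Crest.Agent.R72.Lin

set_option autoImplicit false

namespace Crest.Agent.R72

open Matrix MeasureTheory
open scoped ENNReal

open Crest.AnalysisR

/-- The `L^{3/2}` norm of an extended nonnegative function. -/
noncomputable def varN (f : ℝ × ℝ → ℝ≥0∞) : ℝ≥0∞ := (∫⁻ z, f z ^ (3 / 2 : ℝ)) ^ (2 / 3 : ℝ)

theorem varN_mono_ae {f g : ℝ × ℝ → ℝ≥0∞} (h : f ≤ᵐ[volume] g) : varN f ≤ varN g :=
  ENNReal.rpow_le_rpow (lintegral_mono_ae (h.mono fun _ hz =>
    ENNReal.rpow_le_rpow hz (by norm_num))) (by norm_num)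

theorem varN_add {f g : ℝ × ℝ → ℝ≥0∞} (hf : AEMeasurable f volume) (hg : AEMeasurable g volume) :
    varN (fun z => f z + g z) ≤ varN f + varN g := by
  have := ENNReal.lintegral_Lp_add_le hf hg (p := 3 / 2) (by norm_num)
  rw [show (1 / (3 / 2) : ℝ) = 2 / 3 by norm_num] at this
  exact this

theorem varN_const_mul (c : ℝ≥0∞) {f : ℝ × ℝ → ℝ≥0∞} (hf : AEMeasurable f volume) :
    varN (fun z => c * f z) = c * varN f := by
  simp only [varN, ENNReal.mul_rpow_of_nonneg _ _ (by norm_num : (0 : ℝ) ≤ 3 / 2)]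
  rw [lintegral_const_mul'' _ (hf.pow_const _),
    ENNReal.mul_rpow_of_nonneg _ _ (by norm_num : (0 : ℝ) ≤ 2 / 3), ← ENNReal.rpow_mul]
  norm_num

theorem varN_sum {g : ℕ → ℝ × ℝ → ℝ≥0∞} (hg : ∀ k, AEMeasurable (g k) volume) (n : ℕ) :
    varN (fun z => ∑ k ∈ Finset.range n, g k z) ≤ ∑ k ∈ Finset.range n, varN (g k) := by
  induction n with
  | zero => simp [varN]
  | succ n ih =>
    simp only [Finset.sum_range_succ]
    exact (varN_add (Finset.aemeasurable_fun_sum _ fun k _ => hg k) (hg n)).trans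
      (add_le_add ih le_rfl)

theorem varN_tsum {g : ℕ → ℝ × ℝ → ℝ≥0∞} (hg : ∀ k, AEMeasurable (g k) volume) :
    varN (fun z => ∑' k, g k z) ≤ ∑' k, varN (g k) := by
  have h1 : ∀ z, (∑' k, g k z) ^ (3 / 2 : ℝ) =
      ⨆ n, (∑ k ∈ Finset.range n, g k z) ^ (3 / 2 : ℝ) := fun z => by
    rw [ENNReal.tsum_eq_iSup_nat]
    exact (ENNReal.orderIsoRpow (3 / 2) (by norm_num)).map_iSup _
  have h2 : ∀ x : ℝ≥0∞, (x ^ (3 / 2 : ℝ)) ^ (2 / 3 : ℝ) = x := fun x => by
    rw [← ENNReal.rpow_mul]; norm_num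
  have h3 : ∀ x : ℝ≥0∞, (x ^ (2 / 3 : ℝ)) ^ (3 / 2 : ℝ) = x := fun x => by
    rw [← ENNReal.rpow_mul]; norm_num
  rw [varN, ← h2 (∑' k, varN (g k))]
  refine ENNReal.rpow_le_rpow ?_ (by norm_num)
  simp only [h1]
  rw [lintegral_iSup' (fun n => (Finset.aemeasurable_fun_sum _ fun k _ => hg k).pow_const _)
    (Filter.Eventually.of_forall fun z a b hab => ENNReal.rpow_le_rpow
      (Finset.sum_le_sum_of_subset (Finset.range_mono hab)) (by norm_num))]
  refine iSup_le fun n => ?_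
  rw [← h3 (∫⁻ _, _)]
  exact ENNReal.rpow_le_rpow ((varN_sum hg n).trans (ENNReal.sum_le_tsum _)) (by norm_num)

theorem var_real_norm {F : ℝ × ℝ → ℂ} (hF : MemLp F 3 volume) {a : ℝ × ℝ → ℝ} (ha : Measurable a)
    (h : ∀ z, |a z| ≤ ‖F z‖) : Integrable (fun z => |a z| ^ 3) ∧
      ENNReal.ofReal ((∫ z, |a z| ^ 3) ^ (1 / 3 : ℝ)) ≤ eLpNorm F 3 volume := by
  have h1 : MemLp a 3 volume := hF.of_le ha.aestronglyMeasurable (Filter.Eventually.of_forall h)
  refine ⟨h1.integrable_norm_pow (p := 3) (by norm_num), ?_⟩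
  refine le_trans (le_of_eq ?_) (eLpNorm_mono (f := a) h)
  rw [h1.eLpNorm_eq_integral_rpow_norm (by norm_num) (by norm_num)]
  simp

theorem count_bound :
    ∃ C : ℝ, 0 < C ∧ ∀ n : ℕ, 1 ≤ n → ∀ F G : ℝ × ℝ → ℂ,
      MemLp F 3 volume → MemLp G 3 volume →
        (∫⁻ z, annulusCount n F G z ^ (3 / 2 : ℝ)) ^ (2 / 3 : ℝ) ≤
          ENNReal.ofReal (C * Real.sqrt n * Real.log (2 + n)) * eLpNorm F 3 volume *
            eLpNorm G 3 volume := by
  obtain ⟨C, hC, H⟩ := count_real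
  refine ⟨4 * C, by positivity, fun n hn F G hF hG => ?_⟩
  set F' := hF.1.mk F
  set G' := hG.1.mk G
  have eF : F =ᵐ[volume] F' := hF.1.ae_eq_mk
  have eG : G =ᵐ[volume] G' := hG.1.ae_eq_mk
  have mF : Measurable F' := hF.1.stronglyMeasurable_mk.measurable
  have mG : Measurable G' := hG.1.stronglyMeasurable_mk.measurable
  have hF' : MemLp F' 3 volume := hF.ae_eq eF
  have hG' : MemLp G' 3 volume := hG.ae_eq eG
  rw [eLpNorm_congr_ae eF, eLpNorm_congr_ae eG]
  have hL : 0 ≤ √n * Real.log (2 + n) :=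
    mul_nonneg (Real.sqrt_nonneg _) (Real.log_nonneg (by linarith [Nat.cast_nonneg (α := ℝ) n]))
  set B := ENNReal.ofReal (C * (√n * Real.log (2 + n))) * eLpNorm F' 3 volume *
    eLpNorm G' 3 volume with hB
  have key : ∀ a b : ℝ × ℝ → ℝ, Measurable a → Measurable b → (∀ z, |a z| ≤ ‖F' z‖) →
      (∀ z, |b z| ≤ ‖G' z‖) →
      AEMeasurable (annulusCount n (fun w => (a w : ℂ)) (fun w => (b w : ℂ))) volume ∧
      varN (annulusCount n (fun w => (a w : ℂ)) (fun w => (b w : ℂ))) ≤ B := by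
    intro a b ha hb h1 h2
    obtain ⟨i1, n1⟩ := var_real_norm hF' ha h1
    obtain ⟨i2, n2⟩ := var_real_norm hG' hb h2
    refine ⟨(measurable_annulusCount (Complex.measurable_ofReal.comp ha)
      (Complex.measurable_ofReal.comp hb) n).aemeasurable, (H n hn a b ha hb i1 i2).trans ?_⟩
    rw [ENNReal.ofReal_mul (by positivity), ENNReal.ofReal_mul (by positivity)]
    exact mul_le_mul' (mul_le_mul' le_rfl n1) n2
  have mr := Complex.measurable_re
  have mi := Complex.measurable_im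
  obtain ⟨a1, b1⟩ := key _ _ (mr.comp mF) (mr.comp mG) (fun z => Complex.abs_re_le_norm _)
    (fun z => Complex.abs_re_le_norm _)
  obtain ⟨a2, b2⟩ := key _ _ (mr.comp mF) (mi.comp mG) (fun z => Complex.abs_re_le_norm _)
    (fun z => Complex.abs_im_le_norm _)
  obtain ⟨a3, b3⟩ := key _ _ (mi.comp mF) (mr.comp mG) (fun z => Complex.abs_im_le_norm _)
    (fun z => Complex.abs_re_le_norm _)
  obtain ⟨a4, b4⟩ := key _ _ (mi.comp mF) (mi.comp mG) (fun z => Complex.abs_im_le_norm _)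
    (fun z => Complex.abs_im_le_norm _)
  have h1 : annulusCount n F G ≤ᵐ[volume] annulusCount n F' G' :=
    (annular_congr_ae eF eG).mono fun z hz => by simp only [annulusCount, hz, le_refl]
  refine (varN_mono_ae (h1.trans (Filter.Eventually.of_forall fun z =>
    annulusCount_le_re_im mF mG n z))).trans ?_
  refine (varN_add ((a1.add a2).add a3) a4).trans ?_
  refine (add_le_add ((varN_add (a1.add a2) a3).trans (add_le_add ((varN_add a1 a2).trans
    (add_le_add b1 b2)) b3)) b4).trans (le_of_eq ?_)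
  rw [show 4 * C * √n * Real.log (2 + n) = 4 * (C * (√n * Real.log (2 + n))) by ring,
    ENNReal.ofReal_mul (by norm_num), hB]
  simp only [ENNReal.ofReal_ofNat]
  ring

theorem var_rpow_sum_le {p : ℝ} (hp0 : 0 < p) (hp : p ≤ 1) (x : ℕ → ℝ≥0∞) (s : Finset ℕ) :
    (∑ k ∈ s, x k) ^ p ≤ ∑ k ∈ s, x k ^ p := by
  induction s using Finset.induction_on with
  | empty => simp [hp0]
  | insert a s ha ih =>
    rw [Finset.sum_insert ha, Finset.sum_insert ha]
    exact (ENNReal.rpow_add_le_add_rpow _ _ hp0.le hp).trans (add_le_add le_rfl ih)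

theorem var_levels {ι : Type} [Fintype ι] (a : ι → ℝ≥0∞) (S : ℕ → ℝ≥0∞)
    (h : ∀ (m : ℕ) (T : Finset ι), T.card ≤ m → ∑ j ∈ T, a j ≤ S m) {r : ℝ} (hr : 1 ≤ r) :
    (∑ j, a j ^ r) ^ (1 / r) ≤ ∑' k : ℕ, (2 ^ (k + 1)) ^ (1 / r) / 2 ^ k * S (2 ^ k) := by
  classical
  have hr0 : 0 < r := by linarith
  set b : ℕ → ℝ≥0∞ := fun k => S (2 ^ k) / 2 ^ k with hb
  have hL : ∀ k, (Finset.univ.filter fun j => b k < a j).card < 2 ^ k := by
    intro k
    by_contra hc
    obtain ⟨T, hT, hTc⟩ := Finset.exists_subset_card_eq (not_lt.1 hc)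
    have h1 : ∑ _j ∈ T, b k < ∑ j ∈ T, a j := ENNReal.sum_lt_sum_of_nonempty
      (Finset.card_pos.1 (by rw [hTc]; positivity)) fun j hj => (Finset.mem_filter.1 (hT hj)).2
    rw [Finset.sum_const, hTc, nsmul_eq_mul, hb] at h1
    push_cast at h1
    rw [ENNReal.mul_div_cancel (by simp) (by simp)] at h1
    exact absurd (h _ T hTc.le) (not_le.2 h1)
  set K := Fintype.card ι with hK
  set M : ℕ → Finset ι := fun k => Finset.univ.filter fun j => b (k + 1) < a j ∨ K ≤ k with hM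
  have hMc : ∀ k, (M k).card ≤ 2 ^ (k + 1) := by
    intro k
    by_cases hk : K ≤ k
    · exact ((Finset.card_le_univ _).trans hk).trans
        (Nat.lt_two_pow_self.le.trans (Nat.pow_le_pow_right two_pos (Nat.le_succ k)))
    · simpa only [hM, hk, or_false] using (hL (k + 1)).le
  have hj : ∀ j, ∃ k ∈ Finset.range (K + 1), j ∈ M k ∧ a j ≤ b k := by
    intro j
    have hex : ∃ k, b (k + 1) < a j ∨ K ≤ k := ⟨K, Or.inr le_rfl⟩
    refine ⟨Nat.find hex, Finset.mem_range.2 (Nat.lt_succ_of_le (Nat.find_min' hex (Or.inr le_rfl))),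
      by simpa [hM] using Nat.find_spec hex, ?_⟩
    rcases hk : Nat.find hex with _ | k
    · have := hL 0
      rw [pow_zero, Nat.lt_one_iff, Finset.card_eq_zero, Finset.filter_eq_empty_iff] at this
      exact not_lt.1 (this (Finset.mem_univ j))
    · have := Nat.find_min hex (m := k) (by omega)
      exact not_lt.1 (not_or.1 this).1
  have h1 : ∑ j, a j ^ r ≤ ∑ k ∈ Finset.range (K + 1), 2 ^ (k + 1) * b k ^ r := by
    calc ∑ j, a j ^ r ≤ ∑ j, ∑ k ∈ Finset.range (K + 1), if j ∈ M k then b k ^ r else 0 := by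
          refine Finset.sum_le_sum fun j _ => ?_
          obtain ⟨k, hk, h1, h2⟩ := hj j
          refine le_trans ?_ (Finset.single_le_sum (fun _ _ => zero_le) hk)
          rw [if_pos h1]; exact ENNReal.rpow_le_rpow h2 hr0.le
      _ ≤ _ := by
          rw [Finset.sum_comm]
          refine Finset.sum_le_sum fun k _ => ?_
          rw [Finset.sum_ite_mem, Finset.univ_inter, Finset.sum_const, nsmul_eq_mul]
          exact mul_le_mul' (by exact_mod_cast hMc k) le_rfl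
  have hp0 : 0 < 1 / r := by positivity
  refine (ENNReal.rpow_le_rpow h1 hp0.le).trans ((var_rpow_sum_le hp0
    ((div_le_one hr0).2 hr) _ _).trans (le_trans (le_of_eq ?_)
      (ENNReal.sum_le_tsum (Finset.range (K + 1)))))
  refine Finset.sum_congr rfl fun k _ => ?_
  rw [ENNReal.mul_rpow_of_nonneg _ _ hp0.le, ← ENNReal.rpow_mul, mul_one_div_cancel hr0.ne',
    ENNReal.rpow_one, hb]
  simp only [div_eq_mul_inv]
  ring

theorem var_pointwise {r : ℝ} (hr : 1 ≤ r) (F G : ℝ × ℝ → ℂ) (z : ℝ × ℝ) :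
    annularVariation r F G z ≤
      ∑' k : ℕ, (2 ^ (k + 1)) ^ (1 / r) / 2 ^ k * annulusCount (2 ^ k) F G z := by
  refine iSup_le fun J => iSup_le fun t => iSup_le fun ht => iSup_le fun h0 => ?_
  refine var_levels _ (fun m => annulusCount m F G z) (fun m T hT => ?_) hr
  set e := T.orderEmbOfFin rfl
  rw [← Finset.map_orderEmbOfFin_univ T rfl, Finset.sum_map]
  refine le_iSup₂_of_le T.card hT (le_iSup₂_of_le (fun j => t (e j).castSucc)
    (fun j => t (e j).succ) (le_iSup₂_of_le (fun j => ⟨h0.trans_le (ht.monotone (Fin.zero_le _)),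
      ht Fin.castSucc_lt_succ⟩) (fun i j hij => ?_) le_rfl))
  rcases lt_or_gt_of_ne hij with h | h
  · exact Or.inl (ht.monotone (Fin.succ_le_castSucc_iff.2 (e.strictMono h)))
  · exact Or.inr (ht.monotone (Fin.succ_le_castSucc_iff.2 (e.strictMono h)))

theorem var_summable {r : ℝ} (hr : 2 < r) : Summable fun k : ℕ =>
    ((2 : ℝ) ^ (k + 1)) ^ (1 / r) / 2 ^ k * (√((2 ^ k : ℕ) : ℝ) * Real.log (2 + (2 ^ k : ℕ))) := by
  set q : ℝ := 2 ^ (1 / r - 1 / 2) with hq
  have hq0 : 0 < q := by positivity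
  have hq1 : q < 1 := Real.rpow_lt_one_of_one_lt_of_neg one_lt_two (by
    rw [sub_neg]; exact one_div_lt_one_div_of_lt two_pos hr)
  have hn : ‖q‖ < 1 := by rwa [Real.norm_eq_abs, abs_of_pos hq0]
  have hs := ((summable_pow_mul_geometric_of_norm_lt_one 1 hn).add
    ((summable_geometric_of_norm_lt_one hn).mul_left 2)).mul_left (2 ^ (1 / r))
  have hl0 : ∀ k : ℕ, 0 ≤ Real.log (2 + (2 ^ k : ℕ)) := fun k =>
    Real.log_nonneg (by linarith [Nat.cast_nonneg (α := ℝ) (2 ^ k)])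
  refine hs.of_nonneg_of_le (fun k => by have := hl0 k; positivity) fun k => ?_
  have hl : Real.log (2 + (2 ^ k : ℕ)) ≤ k + 2 := by
    have h1 : (2 + (2 ^ k : ℕ) : ℝ) ≤ 2 ^ (k + 2) := by
      have : (1 : ℝ) ≤ 2 ^ k := one_le_pow₀ one_le_two
      push_cast; rw [pow_add]; linarith
    have h2 : Real.log 2 ≤ 1 := by linarith [Real.log_two_lt_d9]
    refine (Real.log_le_log (by positivity) h1).trans ?_
    rw [Real.log_pow]; push_cast
    exact mul_le_of_le_one_right (by positivity) h2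
  have e : ((2 : ℝ) ^ (k + 1)) ^ (1 / r) / 2 ^ k * √((2 ^ k : ℕ) : ℝ) = 2 ^ (1 / r) * q ^ k := by
    rw [hq, Real.sqrt_eq_rpow]
    push_cast
    simp only [← Real.rpow_natCast, ← Real.rpow_mul zero_le_two, ← Real.rpow_sub two_pos,
      ← Real.rpow_add two_pos]
    congr 1
    push_cast; ring
  rw [← mul_assoc, e, mul_assoc]
  refine mul_le_mul_of_nonneg_left ?_ (by positivity)
  calc q ^ k * Real.log (2 + (2 ^ k : ℕ)) ≤ q ^ k * (k + 2) := by gcongr
    _ = _ := by ring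

theorem variation_bound (r : ℝ) (hr : 2 < r) :
    ∃ C : ℝ, ∀ F G : ℝ × ℝ → ℂ, MemLp F 3 volume → MemLp G 3 volume →
        (∫⁻ z, annularVariation r F G z ^ (3 / 2 : ℝ)) ^ (2 / 3 : ℝ) ≤
          ENNReal.ofReal C * eLpNorm F 3 volume * eLpNorm G 3 volume := by
  obtain ⟨C, hC, H⟩ := count_bound
  have hs := (var_summable hr).mul_left C
  refine ⟨∑' k : ℕ, C * (((2 : ℝ) ^ (k + 1)) ^ (1 / r) / 2 ^ k *
    (√((2 ^ k : ℕ) : ℝ) * Real.log (2 + (2 ^ k : ℕ)))), fun F G hF hG => ?_⟩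
  · refine (varN_mono_ae (Filter.Eventually.of_forall fun z =>
      var_pointwise (by linarith) F G z)).trans ?_
    have hm := fun k : ℕ => aemeasurable_annulusCount hF.1 hG.1 (2 ^ k)
    refine (varN_tsum fun k => (hm k).const_mul _).trans ?_
    have hl0 : ∀ k : ℕ, 0 ≤ Real.log (2 + (2 ^ k : ℕ)) := fun k =>
      Real.log_nonneg (by linarith [Nat.cast_nonneg (α := ℝ) (2 ^ k)])
    rw [ENNReal.ofReal_tsum_of_nonneg (fun k => by have := hl0 k; positivity) hs,
      ← ENNReal.tsum_mul_right, ← ENNReal.tsum_mul_right]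
    refine ENNReal.tsum_le_tsum fun k => ?_
    rw [varN_const_mul _ (hm k)]
    refine (mul_le_mul' le_rfl (H (2 ^ k) Nat.one_le_two_pow F G hF hG)).trans (le_of_eq ?_)
    have e : ENNReal.ofReal (((2 : ℝ) ^ (k + 1)) ^ (1 / r) / 2 ^ k) =
        (2 ^ (k + 1)) ^ (1 / r) / 2 ^ k := by
      rw [ENNReal.ofReal_div_of_pos (by positivity), ← ENNReal.ofReal_rpow_of_pos (by positivity),
        ENNReal.ofReal_pow zero_le_two, ENNReal.ofReal_pow zero_le_two, ENNReal.ofReal_ofNat]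
    rw [← e, ← mul_assoc, ← mul_assoc, ← ENNReal.ofReal_mul (by positivity)]
    congr 3
    ring

end Crest.Agent.R72
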